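import Mathlib.Algebra.Order.Field.Rat

/-!
Window-affine planar systems: the interface between the symbolic simulation and the flow.
-/

namespace Vale.Agent.P113Z

/-- The window with index `u`: the closed interval from `4u+1` to `4u+3`. -/
def Win (u : ℕ) (x : ℚ) : Prop := (4 * u + 1 : ℚ) ≤ x ∧ x ≤ 4 * u + 3

/-- Finitely many affine rules, chosen by the windows of the two coordinates (`lev`), and
recoverable from the windows after the step (`back`). -/
structure AffSys where
  K : ℕ
  m : ℕ
  lam : Fin m → ℚ
  a : Fin m → ℚ
  mu : Fin m → ℚ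
  b : Fin m → ℚ
  lam_pos : ∀ i, 0 < lam i
  mu_pos : ∀ i, 0 < mu i
  lev : Fin K → Fin K → Option (Fin m)
  back : Fin K → Fin K → Fin m

end Vale.Agent.P113Z
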