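import Vale.Agent.P113Z.Univ
import Mathlib.Data.Finite.Sum
import Mathlib.Data.Finite.Prod

/-!
Two-stack rewriting systems whose last rule can be read off the new state and the two new top
symbols, and the simulation of a Post-Turing machine by such a system (garbage insertion).
-/

namespace Vale.Agent.P113Z

open Turing StateTransition Relation

/-- An operation on one stack: optionally pop a recorded symbol, then optionally push one. -/
structure Op (A : Type) where
  pop : Option A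
  push : Option A

/-- The effect of a stack operation on a list. -/
def Op.app {A : Type} (o : Op A) (l : List A) : List A :=
  o.push.toList ++ (if o.pop.isSome then l.tail else l)

/-- A rule: source state, target state, and the operations on the two stacks. -/
structure Rule (S A : Type) where
  src : S
  tgt : S
  opL : Op A
  opR : Op A

/-- A two-stack system. The empty stack shows the default symbol. -/
structure RevSys (S A : Type) [Inhabited A] where
  fwd : S → A → A → Option (Rule S A)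
  back : S → A → A → Rule S A
  src_eq : ∀ {s a b ρ}, fwd s a b = some ρ → ρ.src = s
  popL : ∀ {s a b ρ c}, fwd s a b = some ρ → ρ.opL.pop = some c → c = a
  popR : ∀ {s a b ρ c}, fwd s a b = some ρ → ρ.opR.pop = some c → c = b
  back_eq : ∀ {s : S} {l r : List A} {ρ}, fwd s l.headI r.headI = some ρ →
    back ρ.tgt (ρ.opL.app l).headI (ρ.opR.app r).headI = ρ

/-- One step of a two-stack system. -/
def RevSys.step {S A : Type} [Inhabited A] (R : RevSys S A) :
    S × List A × List A → Option (S × List A × List A)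
  | (s, l, r) => (R.fwd s l.headI r.headI).map fun ρ => (ρ.tgt, ρ.opL.app l, ρ.opR.app r)

/-- Stack symbols: tape symbols and two kinds of garbage. -/
inductive GSym (Γ Λ : Type)
  | real (a : Γ)
  | gW (q : Λ) (a : Γ)
  | gK (d : Dir)

/-- States: a machine state with the scanned symbol, or a search for the next tape symbol. -/
inductive GMode (Γ Λ : Type)
  | N (q : Λ) (a : Γ)
  | seek (q : Λ) (d : Dir)

instance {Γ Λ : Type} [Inhabited Γ] : Inhabited (GSym Γ Λ) := ⟨GSym.real default⟩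

theorem finite_dir : Finite Dir :=
  Finite.of_surjective (fun b : Bool => if b then Dir.left else Dir.right) fun d => by
    cases d
    · exact ⟨true, rfl⟩
    · exact ⟨false, rfl⟩

theorem finite_gsym (Γ Λ : Type) [Finite Γ] [Finite Λ] : Finite (GSym Γ Λ) := by
  have := finite_dir
  refine Finite.of_surjective (fun x : Γ ⊕ (Λ × Γ) ⊕ Dir =>
    (Sum.elim GSym.real (Sum.elim (fun p => GSym.gW p.1 p.2) GSym.gK) x : GSym Γ Λ)) fun s => ?_
  cases s with
  | real a => exact ⟨Sum.inl a, rfl⟩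
  | gW q a => exact ⟨Sum.inr (Sum.inl (q, a)), rfl⟩
  | gK d => exact ⟨Sum.inr (Sum.inr d), rfl⟩

theorem finite_gmode (Γ Λ : Type) [Finite Γ] [Finite Λ] : Finite (GMode Γ Λ) := by
  have := finite_dir
  refine Finite.of_surjective (fun x : (Λ × Γ) ⊕ (Λ × Dir) =>
    (Sum.elim (fun p => GMode.N p.1 p.2) (fun p => GMode.seek p.1 p.2) x : GMode Γ Λ)) fun s => ?_
  cases s with
  | N q a => exact ⟨Sum.inl (q, a), rfl⟩
  | seek q d => exact ⟨Sum.inr (q, d), rfl⟩

section Sim

variable {Γ Λ : Type} [Inhabited Γ] [Inhabited Λ]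

open GSym GMode

/-- The forward rule table of the simulation. -/
def gFwd (M : TM0.Machine Γ Λ) :
    GMode Γ Λ → GSym Γ Λ → GSym Γ Λ → Option (Rule (GMode Γ Λ) (GSym Γ Λ))
  | N q a, _, _ => (M q a).map fun p =>
      match p.2 with
      | TM0.Stmt.write b => ⟨N q a, N p.1 b, ⟨none, some (gW q a)⟩, ⟨none, none⟩⟩
      | TM0.Stmt.move Dir.left =>
          ⟨N q a, seek p.1 Dir.left, ⟨none, some (gW q a)⟩, ⟨none, some (real a)⟩⟩
      | TM0.Stmt.move Dir.right =>
          ⟨N q a, seek p.1 Dir.right, ⟨none, some (real a)⟩, ⟨none, some (gW q a)⟩⟩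
  | seek q Dir.left, real b, _ =>
      some ⟨seek q Dir.left, N q b, ⟨some (real b), some (gK Dir.left)⟩, ⟨none, none⟩⟩
  | seek q Dir.left, gW p c, _ =>
      some ⟨seek q Dir.left, seek q Dir.left, ⟨some (gW p c), none⟩, ⟨none, some (gW p c)⟩⟩
  | seek q Dir.left, gK e, _ =>
      some ⟨seek q Dir.left, seek q Dir.left, ⟨some (gK e), none⟩, ⟨none, some (gK e)⟩⟩
  | seek q Dir.right, _, real b =>
      some ⟨seek q Dir.right, N q b, ⟨none, some (gK Dir.right)⟩, ⟨some (real b), none⟩⟩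
  | seek q Dir.right, _, gW p c =>
      some ⟨seek q Dir.right, seek q Dir.right, ⟨none, some (gW p c)⟩, ⟨some (gW p c), none⟩⟩
  | seek q Dir.right, _, gK e =>
      some ⟨seek q Dir.right, seek q Dir.right, ⟨none, some (gK e)⟩, ⟨some (gK e), none⟩⟩

/-- The backward rule table of the simulation. -/
def gBack : GMode Γ Λ → GSym Γ Λ → GSym Γ Λ → Rule (GMode Γ Λ) (GSym Γ Λ)
  | N q' b, gW q a, _ => ⟨N q a, N q' b, ⟨none, some (gW q a)⟩, ⟨none, none⟩⟩
  | N q' b, gK Dir.left, _ =>
      ⟨seek q' Dir.left, N q' b, ⟨some (real b), some (gK Dir.left)⟩, ⟨none, none⟩⟩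
  | N q' b, gK Dir.right, _ =>
      ⟨seek q' Dir.right, N q' b, ⟨none, some (gK Dir.right)⟩, ⟨some (real b), none⟩⟩
  | N q' b, real _, _ => ⟨N q' b, N q' b, ⟨none, none⟩, ⟨none, none⟩⟩
  | seek q' Dir.left, gW q _, real a =>
      ⟨N q a, seek q' Dir.left, ⟨none, some (gW q a)⟩, ⟨none, some (real a)⟩⟩
  | seek q' Dir.left, _, y =>
      ⟨seek q' Dir.left, seek q' Dir.left, ⟨some y, none⟩, ⟨none, some y⟩⟩
  | seek q' Dir.right, real a, gW q _ =>
      ⟨N q a, seek q' Dir.right, ⟨none, some (real a)⟩, ⟨none, some (gW q a)⟩⟩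
  | seek q' Dir.right, x, _ =>
      ⟨seek q' Dir.right, seek q' Dir.right, ⟨none, some x⟩, ⟨some x, none⟩⟩

omit [Inhabited Γ] in
theorem gFwd_cases (M : TM0.Machine Γ Λ) {s a b ρ} (h : gFwd M s a b = some ρ) :
    (∃ q c q' e, s = N q c ∧ ρ = ⟨N q c, N q' e, ⟨none, some (gW q c)⟩, ⟨none, none⟩⟩) ∨
    (∃ q c q', s = N q c ∧
      ρ = ⟨N q c, seek q' Dir.left, ⟨none, some (gW q c)⟩, ⟨none, some (real c)⟩⟩) ∨
    (∃ q c q', s = N q c ∧
      ρ = ⟨N q c, seek q' Dir.right, ⟨none, some (real c)⟩, ⟨none, some (gW q c)⟩⟩) ∨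
    (∃ q c, s = seek q Dir.left ∧ a = real c ∧
      ρ = ⟨seek q Dir.left, N q c, ⟨some (real c), some (gK Dir.left)⟩, ⟨none, none⟩⟩) ∨
    (∃ q, s = seek q Dir.left ∧ (∀ c, a ≠ real c) ∧
      ρ = ⟨seek q Dir.left, seek q Dir.left, ⟨some a, none⟩, ⟨none, some a⟩⟩) ∨
    (∃ q c, s = seek q Dir.right ∧ b = real c ∧
      ρ = ⟨seek q Dir.right, N q c, ⟨none, some (gK Dir.right)⟩, ⟨some (real c), none⟩⟩) ∨
    (∃ q, s = seek q Dir.right ∧ (∀ c, b ≠ real c) ∧
      ρ = ⟨seek q Dir.right, seek q Dir.right, ⟨none, some b⟩, ⟨some b, none⟩⟩) := by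
  cases s with
  | N q c =>
    simp only [gFwd, Option.map_eq_some_iff] at h
    obtain ⟨⟨q', st⟩, -, rfl⟩ := h
    rcases st with (_ | _) | e
    · exact Or.inr (Or.inl ⟨q, c, q', rfl, rfl⟩)
    · exact Or.inr (Or.inr (Or.inl ⟨q, c, q', rfl, rfl⟩))
    · exact Or.inl ⟨q, c, q', e, rfl, rfl⟩
  | seek q d =>
    cases d with
    | left =>
      cases a with
      | real c =>
        simp only [gFwd, Option.some.injEq] at h
        exact Or.inr (Or.inr (Or.inr (Or.inl ⟨q, c, rfl, rfl, h.symm⟩)))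
      | gW p c =>
        simp only [gFwd, Option.some.injEq] at h
        exact Or.inr (Or.inr (Or.inr (Or.inr (Or.inl ⟨q, rfl, fun _ => nofun, h.symm⟩))))
      | gK e =>
        simp only [gFwd, Option.some.injEq] at h
        exact Or.inr (Or.inr (Or.inr (Or.inr (Or.inl ⟨q, rfl, fun _ => nofun, h.symm⟩))))
    | right =>
      cases b with
      | real c =>
        simp only [gFwd, Option.some.injEq] at h
        exact Or.inr (Or.inr (Or.inr (Or.inr (Or.inr (Or.inl ⟨q, c, rfl, rfl, h.symm⟩)))))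
      | gW p c =>
        simp only [gFwd, Option.some.injEq] at h
        exact Or.inr (Or.inr (Or.inr (Or.inr (Or.inr (Or.inr ⟨q, rfl, fun _ => nofun, h.symm⟩)))))
      | gK e =>
        simp only [gFwd, Option.some.injEq] at h
        exact Or.inr (Or.inr (Or.inr (Or.inr (Or.inr (Or.inr ⟨q, rfl, fun _ => nofun, h.symm⟩)))))

/-- The simulating two-stack system. -/
def gSys (M : TM0.Machine Γ Λ) : RevSys (GMode Γ Λ) (GSym Γ Λ) where
  fwd := gFwd M
  back := gBack
  src_eq h := by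
    rcases gFwd_cases M h with ⟨_, _, _, _, rfl, rfl⟩ | ⟨_, _, _, rfl, rfl⟩ | ⟨_, _, _, rfl, rfl⟩ |
      ⟨_, _, rfl, _, rfl⟩ | ⟨_, rfl, _, rfl⟩ | ⟨_, _, rfl, _, rfl⟩ | ⟨_, rfl, _, rfl⟩ <;> rfl
  popL h hc := by
    rcases gFwd_cases M h with ⟨_, _, _, _, rfl, rfl⟩ | ⟨_, _, _, rfl, rfl⟩ | ⟨_, _, _, rfl, rfl⟩ |
      ⟨_, _, rfl, rfl, rfl⟩ | ⟨_, rfl, _, rfl⟩ | ⟨_, _, rfl, _, rfl⟩ | ⟨_, rfl, _, rfl⟩ <;>
      cases hc <;> rfl
  popR h hc := by
    rcases gFwd_cases M h with ⟨_, _, _, _, rfl, rfl⟩ | ⟨_, _, _, rfl, rfl⟩ | ⟨_, _, _, rfl, rfl⟩ |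
      ⟨_, _, rfl, _, rfl⟩ | ⟨_, rfl, _, rfl⟩ | ⟨_, _, rfl, rfl, rfl⟩ | ⟨_, rfl, _, rfl⟩ <;>
      cases hc <;> rfl
  back_eq {s l r ρ} h := by
    rcases gFwd_cases M h with ⟨_, _, _, _, rfl, rfl⟩ | ⟨_, _, _, rfl, rfl⟩ | ⟨_, _, _, rfl, rfl⟩ |
      ⟨_, _, rfl, _, rfl⟩ | ⟨q, rfl, hne, rfl⟩ | ⟨_, _, rfl, _, rfl⟩ | ⟨q, rfl, hne, rfl⟩
    · rfl
    · rfl
    · rfl
    · rfl
    · change gBack (seek q Dir.left) l.tail.headI l.headI = _
      generalize l.tail.headI = x
      generalize l.headI = y at hne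
      cases y with
      | real c => exact absurd rfl (hne c)
      | gW p c => cases x <;> rfl
      | gK e => cases x <;> rfl
    · rfl
    · change gBack (seek q Dir.right) r.headI r.tail.headI = _
      generalize r.tail.headI = x
      generalize r.headI = y at hne
      cases y with
      | real c => exact absurd rfl (hne c)
      | gW p c => cases x <;> rfl
      | gK e => cases x <;> rfl

/-- Delete the garbage symbols. -/
def erase : List (GSym Γ Λ) → List Γ
  | [] => []
  | real a :: l => a :: erase l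
  | gW _ _ :: l => erase l
  | gK _ :: l => erase l

theorem seek_left (M : TM0.Machine Γ Λ) (q : Λ) (l r : List (GSym Γ Λ)) :
    ∃ l' r', Reaches₁ (gSys M).step (seek q Dir.left, l, r) (N q (erase l).headI, l', r') ∧
      erase l' = (erase l).tail ∧ erase r' = erase r := by
  induction l generalizing r with
  | nil => exact ⟨[gK Dir.left], r, TransGen.single rfl, rfl, rfl⟩
  | cons x l ih =>
    cases x with
    | real b => exact ⟨gK Dir.left :: l, r, TransGen.single rfl, rfl, rfl⟩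
    | gW p c =>
      obtain ⟨l', r', h1, h2, h3⟩ := ih (gW p c :: r)
      exact ⟨l', r', TransGen.head (b := (seek q Dir.left, l, gW p c :: r)) rfl h1, h2, h3⟩
    | gK e =>
      obtain ⟨l', r', h1, h2, h3⟩ := ih (gK e :: r)
      exact ⟨l', r', TransGen.head (b := (seek q Dir.left, l, gK e :: r)) rfl h1, h2, h3⟩

theorem seek_right (M : TM0.Machine Γ Λ) (q : Λ) (l r : List (GSym Γ Λ)) :
    ∃ l' r', Reaches₁ (gSys M).step (seek q Dir.right, l, r) (N q (erase r).headI, l', r') ∧
      erase l' = erase l ∧ erase r' = (erase r).tail := by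
  induction r generalizing l with
  | nil => exact ⟨gK Dir.right :: l, [], TransGen.single rfl, rfl, rfl⟩
  | cons x r ih =>
    cases x with
    | real b => exact ⟨gK Dir.right :: l, r, TransGen.single rfl, rfl, rfl⟩
    | gW p c =>
      obtain ⟨l', r', h1, h2, h3⟩ := ih (gW p c :: l)
      exact ⟨l', r', TransGen.head (b := (seek q Dir.right, gW p c :: l, r)) rfl h1, h2, h3⟩
    | gK e =>
      obtain ⟨l', r', h1, h2, h3⟩ := ih (gK e :: l)
      exact ⟨l', r', TransGen.head (b := (seek q Dir.right, gK e :: l, r)) rfl h1, h2, h3⟩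

/-- The simulation relation. -/
def GRel (c : TM0.Cfg Γ Λ) (d : GMode Γ Λ × List (GSym Γ Λ) × List (GSym Γ Λ)) : Prop :=
  d.1 = N c.q c.Tape.head ∧ c.Tape.left = ListBlank.mk (erase d.2.1) ∧
    c.Tape.right = ListBlank.mk (erase d.2.2)

theorem gSys_respects (M : TM0.Machine Γ Λ) : Respects (TM0.step M) (gSys M).step GRel := by
  rintro ⟨q, a, L, R⟩ ⟨s, l, r⟩ ⟨h1, h2, h3⟩
  simp only at h1 h2 h3
  subst h1 h2 h3
  have hs : (gSys M).step (N q a, l, r) = (gFwd M (N q a) l.headI r.headI).map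
      fun ρ => (ρ.tgt, ρ.opL.app l, ρ.opR.app r) := rfl
  simp only [TM0.step]
  rcases e : M q a with _ | ⟨q', (_ | _) | b⟩
  · simp only [Option.map_none]
    rw [hs]; simp only [gFwd, e, Option.map_none]
  · simp only [Option.map_some]
    obtain ⟨l', r', h1, h2, h3⟩ := seek_left M q' (gW q a :: l) (real a :: r)
    refine ⟨_, ?_, TransGen.head (b := (seek q' Dir.left, gW q a :: l, real a :: r)) ?_ h1⟩
    · refine ⟨rfl, ?_, ?_⟩
      · simp only [h2]; rfl
      · simp only [h3]; rfl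
    · change (gSys M).step (N q a, l, r) = _
      rw [hs]; simp only [gFwd, e, Option.map_some]; rfl
  · simp only [Option.map_some]
    obtain ⟨l', r', h1, h2, h3⟩ := seek_right M q' (real a :: l) (gW q a :: r)
    refine ⟨_, ?_, TransGen.head (b := (seek q' Dir.right, real a :: l, gW q a :: r)) ?_ h1⟩
    · refine ⟨rfl, ?_, ?_⟩
      · simp only [h2]; rfl
      · simp only [h3]; rfl
    · change (gSys M).step (N q a, l, r) = _
      rw [hs]; simp only [gFwd, e, Option.map_some]; rfl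
  · simp only [Option.map_some]
    refine ⟨(N q' b, gW q a :: l, r), ⟨rfl, rfl, rfl⟩, TransGen.single ?_⟩
    change (gSys M).step (N q a, l, r) = _
    rw [hs]; simp only [gFwd, e, Option.map_some]; rfl

omit [Inhabited Γ] [Inhabited Λ] in
theorem erase_replicate (n : ℕ) (a : Γ) :
    erase (List.replicate n (real a : GSym Γ Λ)) = List.replicate n a := by
  induction n with
  | zero => rfl
  | succ n ih => simp only [List.replicate_succ, erase, ih]

end Sim

theorem exists_revSys (P : ℕ → Prop) (hP : REPred P) :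
    ∃ (S A : Type) (_ : Finite S) (_ : Finite A) (_ : Inhabited A) (R : RevSys S A) (s₀ : S)
      (a₁ : A), ∀ n, (eval R.step (s₀, [], List.replicate n a₁)).Dom ↔ P n := by
  obtain ⟨Γ, Λ, _, _, _, _, M, a₀, a₁, h⟩ := exists_tm0 P hP
  refine ⟨GMode Γ Λ, GSym Γ Λ, finite_gmode Γ Λ, finite_gsym Γ Λ, inferInstance, gSys M,
    GMode.N default a₀, GSym.real a₁, fun n => ?_⟩
  rw [← h n]
  refine tr_eval_dom (gSys_respects M) ⟨rfl, rfl, ?_⟩
  simp only [erase_replicate]
  rfl

end Vale.Agent.P113Z
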