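import Vale.Agent.P113Z.AffDefs
import Vale.Agent.P113Z.Rev
import Mathlib.Logic.Equiv.Fin.Basic
import Mathlib.Data.Fintype.EquivFin
import Mathlib.Data.Fintype.Option
import Mathlib.Tactic.FieldSimp
import Mathlib.Tactic.Linarith
import Mathlib.Tactic.Positivity
import Mathlib.Tactic.Ring

/-!
Coding the two stacks by rational numbers: every recursively enumerable set is the halting set
of a window-affine planar system, on initial points of the form `(x₀, α + β / D ^ n)`.
-/

namespace Vale.Agent.P113Z

open StateTransition Relation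

theorem eval_dom_iff_iterate {σ : Type} (f : σ → Option σ) (a : σ) :
    (eval f a).Dom ↔ ∃ k, f ((fun x => (f x).getD x)^[k] a) = none := by
  constructor
  · intro h
    obtain ⟨h1, h2⟩ := mem_eval.1 (Part.get_mem h)
    generalize (eval f a).get h = b at h1 h2
    have : ∃ k, (fun x => (f x).getD x)^[k] a = b := by
      clear h2
      induction h1 with
      | refl => exact ⟨0, rfl⟩
      | tail _ hbc ih =>
        obtain ⟨k, hk⟩ := ih
        refine ⟨k + 1, ?_⟩
        rw [Function.iterate_succ_apply', hk, Option.mem_def.1 hbc]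
        rfl
    obtain ⟨k, hk⟩ := this
    exact ⟨k, by rw [hk, h2]⟩
  · rintro ⟨k, hk⟩
    have : ∀ j, Reaches f a ((fun x => (f x).getD x)^[j] a) := by
      intro j
      induction j with
      | zero => exact ReflTransGen.refl
      | succ j ih =>
        rw [Function.iterate_succ_apply']
        rcases e : f ((fun x => (f x).getD x)^[j] a) with _ | c
        · exact ih
        · exact ReflTransGen.tail ih e
    exact Part.dom_iff_mem.2 ⟨_, mem_eval.2 ⟨this k, hk⟩⟩

theorem finite_op (A : Type) [Finite A] : Finite (Op A) :=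
  Finite.of_surjective (fun p : Option A × Option A => (⟨p.1, p.2⟩ : Op A))
    fun o => ⟨(o.pop, o.push), rfl⟩

theorem finite_rule (S A : Type) [Finite S] [Finite A] : Finite (Rule S A) := by
  have := finite_op A
  exact Finite.of_surjective (fun p : S × S × Op A × Op A =>
    (⟨p.1, p.2.1, p.2.2.1, p.2.2.2⟩ : Rule S A)) fun o => ⟨(o.src, o.tgt, o.opL, o.opR), rfl⟩

section Code

variable {A : Type} [Inhabited A] {N : ℕ} (d : A → Fin N)

/-- The rational code of a stack, in base `2N`, with the default symbol repeated below. -/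
def stCode : List A → ℚ
  | [] => (2 * (d default : ℕ) + 1 / 2) / (2 * N - 1)
  | a :: l => (2 * (d a : ℕ) + 1 / 2 + stCode l) / (2 * N)

include d in
theorem one_le_N : (1 : ℚ) ≤ N := by
  have : 0 < N := lt_of_le_of_lt (Nat.zero_le _) (d default).2
  exact_mod_cast this

omit [Inhabited A] in
theorem digit_le (a : A) : ((d a : ℕ) : ℚ) + 1 ≤ N := by
  have : (d a : ℕ) + 1 ≤ N := (d a).2
  exact_mod_cast this

theorem stCode_eq (l : List A) :
    2 * N * stCode d l = 2 * (d l.headI : ℕ) + 1 / 2 + stCode d l.tail := by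
  have h := one_le_N d
  cases l with
  | nil =>
    have h1 : (2 * N - 1 : ℚ) ≠ 0 := by linarith
    simp only [stCode, List.headI_nil, List.tail_nil]
    field_simp
    ring
  | cons a l =>
    have h1 : (2 * N : ℚ) ≠ 0 := by linarith
    simp only [stCode, List.headI_cons, List.tail_cons]
    field_simp

theorem stCode_mem (l : List A) : 0 ≤ stCode d l ∧ stCode d l ≤ 1 := by
  have h := one_le_N d
  induction l with
  | nil =>
    have h1 : (0 : ℚ) < 2 * N - 1 := by linarith
    have h2 := digit_le d default
    refine ⟨by unfold stCode; positivity, ?_⟩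
    unfold stCode
    rw [div_le_one h1]
    linarith
  | cons a l ih =>
    have h1 : (0 : ℚ) < 2 * N := by linarith
    have h2 := digit_le d a
    have h3 := ih.1
    refine ⟨by unfold stCode; positivity, ?_⟩
    unfold stCode
    rw [div_le_one h1]
    linarith [ih.2]

/-- The slope of a stack operation on codes. -/
def opSlope (N : ℕ) (o : Op A) : ℚ :=
  match o.pop, o.push with
  | none, none => 1
  | some _, none => 2 * N
  | none, some _ => 1 / (2 * N)
  | some _, some _ => 1

/-- The offset of a stack operation on codes. -/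
def opOff (o : Op A) : ℚ :=
  match o.pop, o.push with
  | none, none => 0
  | some c, none => -(2 * (d c : ℕ) + 1 / 2)
  | none, some e => (2 * (d e : ℕ) + 1 / 2) / (2 * N)
  | some c, some e => (2 * (d e : ℕ) - 2 * (d c : ℕ)) / (2 * N)

include d in
theorem opSlope_pos (o : Op A) : 0 < opSlope N o := by
  have h := one_le_N d
  obtain ⟨_ | c, _ | e⟩ := o <;> simp only [opSlope] <;> positivity

theorem stCode_app (o : Op A) (l : List A) (h : ∀ c, o.pop = some c → c = l.headI) :
    stCode d (o.app l) = opSlope N o * stCode d l + opOff d o := by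
  have hN := one_le_N d
  have h1 : (2 * N : ℚ) ≠ 0 := by linarith
  have h2 := stCode_eq d l
  obtain ⟨_ | c, _ | e⟩ := o
  · simp [Op.app, opSlope, opOff]
  · simp only [Op.app, opSlope, opOff, Option.toList_some, Option.isSome_none, List.cons_append,
      List.nil_append, Bool.false_eq_true, if_false, stCode]
    field_simp
    ring
  · obtain rfl := h c rfl
    simp only [Op.app, opSlope, opOff, Option.toList_none, Option.isSome_some, List.nil_append,
      if_true]
    linarith
  · obtain rfl := h c rfl
    simp only [Op.app, opSlope, opOff, Option.toList_some, Option.isSome_some, List.cons_append,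
      List.nil_append, if_true, stCode]
    rw [div_eq_iff h1, add_mul, div_mul_cancel₀ _ h1]
    linarith

theorem stCode_replicate (a : A) (n : ℕ) :
    stCode d (List.replicate n a) = (2 * (d a : ℕ) + 1 / 2) / (2 * N - 1) +
      (stCode d [] - (2 * (d a : ℕ) + 1 / 2) / (2 * N - 1)) / ((2 * N : ℕ) : ℚ) ^ n := by
  have hN := one_le_N d
  have h1 : (2 * N : ℚ) ≠ 0 := by linarith
  have h2 : (2 * N - 1 : ℚ) ≠ 0 := by linarith
  induction n with
  | zero => simp
  | succ n ih =>
    have e : stCode d (List.replicate (n + 1) a) =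
        (2 * (d a : ℕ) + 1 / 2 + stCode d (List.replicate n a)) / (2 * N) := rfl
    rw [e, ih]
    generalize stCode d [] = z
    push_cast
    field_simp
    ring

/-- The coordinate that codes a stack together with a state index. -/
def coord (s : ℕ) (l : List A) : ℚ := 4 * N * (s + stCode d l)

theorem coord_win (s : ℕ) (l : List A) : Win ((d l.headI : ℕ) + N * s) (coord d s l) := by
  have h1 := stCode_eq d l
  have h2 := stCode_mem d l.tail
  unfold Win coord
  push_cast
  constructor <;> nlinarith [h2.1, h2.2]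

theorem coord_app (s t : ℕ) (o : Op A) (l : List A) (h : ∀ c, o.pop = some c → c = l.headI) :
    coord d t (o.app l) =
      opSlope N o * coord d s l + 4 * N * (t + opOff d o - opSlope N o * s) := by
  unfold coord
  rw [stCode_app d o l h]
  ring

end Code

theorem exists_affSys (P : ℕ → Prop) (hP : REPred P) :
    ∃ (T : AffSys) (x₀ al be : ℚ) (D : ℕ), 0 < D ∧ ∀ n, ∃ (x y : ℕ → ℚ) (u v : ℕ → Fin T.K),
      x 0 = x₀ ∧ y 0 = al + be / (D : ℚ) ^ n ∧
      (∀ k, Win (u k) (x k) ∧ Win (v k) (y k)) ∧
      (∀ k i, T.lev (u k) (v k) = some i →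
        x (k + 1) = T.lam i * x k + T.a i ∧ y (k + 1) = T.mu i * y k + T.b i ∧
          T.back (u (k + 1)) (v (k + 1)) = i) ∧
      ((∃ k, T.lev (u k) (v k) = none) ↔ P n) := by
  obtain ⟨S, A, _, _, _, R, s₀, a₁, h⟩ := exists_revSys P hP
  obtain ⟨N, ⟨dA⟩⟩ := Finite.exists_equiv_fin A
  obtain ⟨nS, ⟨dS⟩⟩ := Finite.exists_equiv_fin S
  have := finite_rule S A
  obtain ⟨m, ⟨dR⟩⟩ := Finite.exists_equiv_fin (Rule S A)
  let code : S × A ≃ Fin (nS * N) := (dS.prodCongr dA).trans finProdFinEquiv
  have hcode : ∀ s a, ((code (s, a) : Fin (nS * N)) : ℕ) = (dA a : ℕ) + N * (dS s : ℕ) :=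
    fun s a => rfl
  let T : AffSys :=
    { K := nS * N
      m := m
      lam := fun i => opSlope N (dR.symm i).opL
      a := fun i => 4 * N * ((dS (dR.symm i).tgt : ℕ) + opOff dA (dR.symm i).opL -
        opSlope N (dR.symm i).opL * (dS (dR.symm i).src : ℕ))
      mu := fun i => opSlope N (dR.symm i).opR
      b := fun i => 4 * N * ((dS s₀ : ℕ) + opOff dA (dR.symm i).opR -
        opSlope N (dR.symm i).opR * (dS s₀ : ℕ))
      lam_pos := fun i => opSlope_pos dA _
      mu_pos := fun i => opSlope_pos dA _
      lev := fun u v => (R.fwd (code.symm u).1 (code.symm u).2 (code.symm v).2).map dR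
      back := fun u v => dR (R.back (code.symm u).1 (code.symm u).2 (code.symm v).2) }
  have hN : 0 < N := lt_of_le_of_lt (Nat.zero_le _) (dA default).2
  refine ⟨T, coord dA (dS s₀) [],
    4 * N * ((dS s₀ : ℕ) + (2 * (dA a₁ : ℕ) + 1 / 2) / (2 * N - 1)),
    4 * N * (stCode dA [] - (2 * (dA a₁ : ℕ) + 1 / 2) / (2 * N - 1)), 2 * N, by omega, fun n => ?_⟩
  let c : ℕ → S × List A × List A := fun k =>
    (fun x => (R.step x).getD x)^[k] (s₀, [], List.replicate n a₁)
  have hlev : ∀ k, T.lev (code ((c k).1, (c k).2.1.headI)) (code (s₀, (c k).2.2.headI)) =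
      (R.fwd (c k).1 (c k).2.1.headI (c k).2.2.headI).map dR := by
    intro k
    simp only [T, Equiv.symm_apply_apply]
  have hstep : ∀ k, R.step (c k) = (R.fwd (c k).1 (c k).2.1.headI (c k).2.2.headI).map
      fun ρ => (ρ.tgt, ρ.opL.app (c k).2.1, ρ.opR.app (c k).2.2) := fun k => rfl
  refine ⟨fun k => coord dA (dS (c k).1) (c k).2.1, fun k => coord dA (dS s₀) (c k).2.2,
    fun k => code ((c k).1, (c k).2.1.headI), fun k => code (s₀, (c k).2.2.headI),
    rfl, ?_, fun k => ?_, fun k i hi => ?_, ?_⟩
  · change coord dA (dS s₀) (List.replicate n a₁) = _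
    unfold coord
    rw [stCode_replicate]
    ring
  · simp only [hcode]
    exact ⟨coord_win dA _ _, coord_win dA _ _⟩
  · rw [hlev, Option.map_eq_some_iff] at hi
    obtain ⟨ρ, hρ, rfl⟩ := hi
    have hc : c (k + 1) = (ρ.tgt, ρ.opL.app (c k).2.1, ρ.opR.app (c k).2.2) := by
      have : c (k + 1) = (R.step (c k)).getD (c k) := Function.iterate_succ_apply' _ _ _
      rw [this, hstep, hρ]
      rfl
    simp only [hc, T, Equiv.symm_apply_apply]
    refine ⟨?_, ?_, ?_⟩
    · rw [R.src_eq hρ]
      exact coord_app dA _ _ _ _ fun c hc => R.popL hρ hc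
    · exact coord_app dA _ _ _ _ fun c hc => R.popR hρ hc
    · rw [R.back_eq hρ]
  · rw [← h n, eval_dom_iff_iterate]
    refine exists_congr fun k => ?_
    change T.lev (code ((c k).1, (c k).2.1.headI)) (code (s₀, (c k).2.2.headI)) = none ↔
      R.step (c k) = none
    rw [hlev, hstep, Option.map_eq_none_iff, Option.map_eq_none_iff]

end Vale.Agent.P113Z
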