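import Mathlib.Analysis.SpecialFunctions.SmoothTransition
import Mathlib.Analysis.Calculus.IteratedDeriv.Lemmas
import Mathlib.MeasureTheory.Integral.IntervalIntegral.FundThmCalculus
import Mathlib.MeasureTheory.Integral.IntegralEqImproper

/-! Bump calculus for P113: rho, kappa, sigma, plateaus, periodization. -/

open scoped ContDiff Topology
open Set Filter MeasureTheory

namespace Vale.Agent.P113Z

noncomputable def rho (s : ℝ) : ℝ := if |s| < 1 then Real.exp (-1 / (1 - s ^ 2)) else 0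
noncomputable def kappa : ℝ := ∫ s, rho s
noncomputable def sigma (s : ℝ) : ℝ := ∫ r in Set.Iic s, rho r
noncomputable def piL (l s : ℝ) : ℝ := sigma s - sigma (s - l)
noncomputable def per (g : ℝ → ℝ) (y : ℝ) : ℝ := ∑' m : ℤ, g (y + m)

theorem rho_eq (s : ℝ) : rho s = expNegInvGlue (1 - s ^ 2) := by
  unfold rho expNegInvGlue
  by_cases h : |s| < 1
  · have h2 : ¬ (1 - s ^ 2 ≤ 0) := by
      have := (sq_lt_one_iff_abs_lt_one s).2 h
      linarith
    simp only [h, h2, if_true, if_false]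
    congr 1
    rw [neg_div, one_div]
  · have h2 : 1 - s ^ 2 ≤ 0 := by
      have : ¬ (s ^ 2 < 1) := fun h' => h ((sq_lt_one_iff_abs_lt_one s).1 h')
      linarith [not_lt.1 this]
    simp only [h, h2, if_true, if_false]

theorem rho_smooth : ContDiff ℝ ∞ rho := by
  have : rho = fun s => expNegInvGlue (1 - s ^ 2) := funext rho_eq
  rw [this]
  exact expNegInvGlue.contDiff.comp (by fun_prop)

theorem rho_continuous : Continuous rho := rho_smooth.continuous

theorem rho_nonneg (s : ℝ) : 0 ≤ rho s := by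
  rw [rho_eq]; exact expNegInvGlue.nonneg _

theorem rho_of_le {s : ℝ} (h : s ≤ -1) : rho s = 0 := by
  unfold rho; rw [if_neg]; rw [abs_lt]; intro h'; linarith [h'.1]

theorem rho_of_ge {s : ℝ} (h : 1 ≤ s) : rho s = 0 := by
  unfold rho; rw [if_neg]; rw [abs_lt]; intro h'; linarith [h'.2]

theorem rho_zero_pos : 0 < rho 0 := by
  unfold rho; rw [if_pos (by simp)]; exact Real.exp_pos _

theorem rho_hasCompactSupport : HasCompactSupport rho := by
  apply HasCompactSupport.intro (isCompact_Icc (a := (-1 : ℝ)) (b := 1))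
  intro x hx
  rcases not_and_or.1 hx with h | h
  · exact rho_of_le (not_le.1 h).le
  · exact rho_of_ge (not_le.1 h).le

theorem rho_integrable : Integrable rho :=
  rho_continuous.integrable_of_hasCompactSupport rho_hasCompactSupport

theorem kappa_pos : 0 < kappa :=
  rho_continuous.integral_pos_of_hasCompactSupport_nonneg_nonzero rho_hasCompactSupport
    rho_nonneg rho_zero_pos.ne'

theorem sigma_of_le {s : ℝ} (h : s ≤ -1) : sigma s = 0 := by
  unfold sigma
  exact setIntegral_eq_zero_of_forall_eq_zero fun x hx => rho_of_le (le_trans hx h)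

theorem sigma_eq_intervalIntegral (s : ℝ) : sigma s = ∫ r in (-1 : ℝ)..s, rho r := by
  have := intervalIntegral.integral_Iic_sub_Iic (f := rho) (μ := volume) (a := -1) (b := s)
    rho_integrable.integrableOn rho_integrable.integrableOn
  have h0 := sigma_of_le (le_refl (-1 : ℝ))
  unfold sigma at *
  rw [← this, h0, sub_zero]

theorem sigma_hasDerivAt (s : ℝ) : HasDerivAt sigma (rho s) s := by
  have : sigma = fun s => ∫ r in (-1 : ℝ)..s, rho r := funext sigma_eq_intervalIntegral
  rw [this]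
  exact (rho_continuous.integral_hasStrictDerivAt _ _).hasDerivAt

theorem deriv_sigma : deriv sigma = rho := funext fun s => (sigma_hasDerivAt s).deriv

theorem sigma_smooth : ContDiff ℝ ∞ sigma := by
  rw [contDiff_infty_iff_deriv]
  exact ⟨fun s => (sigma_hasDerivAt s).differentiableAt, by rw [deriv_sigma]; exact rho_smooth⟩

theorem sigma_of_ge {s : ℝ} (h : 1 ≤ s) : sigma s = kappa := by
  unfold sigma kappa
  apply setIntegral_eq_integral_of_forall_compl_eq_zero
  intro x hx
  exact rho_of_ge (le_trans h (not_le.1 hx).le)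

theorem sigma_mono : Monotone sigma :=
  monotone_of_deriv_nonneg (fun s => (sigma_hasDerivAt s).differentiableAt)
    (by rw [deriv_sigma]; exact rho_nonneg)

theorem sigma_nonneg (s : ℝ) : 0 ≤ sigma s := by
  rw [← sigma_of_le (le_refl (min s (-1)) |>.trans (min_le_right _ _))]
  exact sigma_mono (min_le_left _ _)

theorem sigma_le_kappa (s : ℝ) : sigma s ≤ kappa := by
  rw [← sigma_of_ge (le_max_right s 1)]
  exact sigma_mono (le_max_left _ _)

theorem piL_hasDerivAt (l s : ℝ) : HasDerivAt (piL l) (rho s - rho (s - l)) s := by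
  have h1 := sigma_hasDerivAt s
  have h2 : HasDerivAt (fun s => sigma (s - l)) (rho (s - l)) s := by
    simpa using (sigma_hasDerivAt (s - l)).comp_sub_const s l
  exact h1.sub h2

theorem piL_smooth (l : ℝ) : ContDiff ℝ ∞ (piL l) := by
  unfold piL
  exact sigma_smooth.sub (sigma_smooth.comp (by fun_prop))

theorem piL_of_le {l s : ℝ} (hl : 0 ≤ l) (h : s ≤ -1) : piL l s = 0 := by
  unfold piL; rw [sigma_of_le h, sigma_of_le (by linarith), sub_zero]

theorem piL_of_ge {l s : ℝ} (hl : 0 ≤ l) (h : l + 1 ≤ s) : piL l s = 0 := by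
  unfold piL; rw [sigma_of_ge (by linarith), sigma_of_ge (by linarith), sub_self]

theorem piL_of_mem {l s : ℝ} (h1 : 1 ≤ s) (h2 : s ≤ l - 1) : piL l s = kappa := by
  unfold piL; rw [sigma_of_ge h1, sigma_of_le (by linarith), sub_zero]

/-! ### Periodization -/

/-- `g` vanishes outside a bounded set. -/
def BddSupp (g : ℝ → ℝ) : Prop := ∃ R : ℝ, ∀ s, R ≤ |s| → g s = 0

theorem BddSupp.exists_nat {g : ℝ → ℝ} (hg : BddSupp g) (y : ℝ) :
    ∃ N : ℕ, ∀ z ∈ Ioo (y - 1) (y + 1), ∀ m : ℤ, m ∉ Finset.Icc (-(N : ℤ)) N → g (z + m) = 0 := by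
  obtain ⟨R, hR⟩ := hg
  obtain ⟨N, hN⟩ := exists_nat_ge (R + |y| + 1)
  refine ⟨N, fun z hz m hm => hR _ ?_⟩
  have hm' : (N : ℝ) ≤ |(m : ℝ)| := by
    rw [Finset.mem_Icc, not_and_or] at hm
    rcases hm with h | h
    · have : (m : ℝ) ≤ -(N : ℝ) := by exact_mod_cast (not_le.1 h).le
      exact le_trans (by linarith) (neg_le_abs _)
    · have : (N : ℝ) ≤ (m : ℝ) := by exact_mod_cast (not_le.1 h).le
      exact le_trans this (le_abs_self _)
  have hz' : |z| ≤ |y| + 1 := by
    rw [abs_le]; constructor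
    · linarith [hz.1, neg_abs_le y]
    · linarith [hz.2, le_abs_self y]
  have : |(m : ℝ)| ≤ |z + m| + |z| := by
    have := abs_sub (z + m) z
    simpa using this
  linarith

theorem BddSupp.per_eventuallyEq {g : ℝ → ℝ} (hg : BddSupp g) (y : ℝ) :
    ∃ N : ℕ, ∀ z ∈ Ioo (y - 1) (y + 1), per g z = ∑ m ∈ Finset.Icc (-(N : ℤ)) N, g (z + m) := by
  obtain ⟨N, hN⟩ := hg.exists_nat y
  exact ⟨N, fun z hz => tsum_eq_sum (hN z hz)⟩

theorem BddSupp.summable {g : ℝ → ℝ} (hg : BddSupp g) (y : ℝ) :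
    Summable fun m : ℤ => g (y + m) := by
  obtain ⟨N, hN⟩ := hg.exists_nat y
  exact summable_of_ne_finset_zero (hN y ⟨by linarith, by linarith⟩)

theorem BddSupp.deriv {g : ℝ → ℝ} (hg : BddSupp g) : BddSupp (deriv g) := by
  obtain ⟨R, hR⟩ := hg
  refine ⟨R + 1, fun s hs => ?_⟩
  have : g =ᶠ[𝓝 s] fun _ => 0 := by
    have ho : IsOpen {z : ℝ | R < |z|} := isOpen_lt continuous_const continuous_abs
    filter_upwards [ho.mem_nhds (show R < |s| by linarith)] with z hz using hR z (le_of_lt hz)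
  rw [this.deriv_eq]; simp

theorem per_smooth {g : ℝ → ℝ} (hg : BddSupp g) (hs : ContDiff ℝ ∞ g) : ContDiff ℝ ∞ (per g) := by
  rw [contDiff_iff_contDiffAt]
  intro y
  obtain ⟨N, hN⟩ := hg.per_eventuallyEq y
  have h : per g =ᶠ[𝓝 y] fun z => ∑ m ∈ Finset.Icc (-(N : ℤ)) N, g (z + m) := by
    filter_upwards [Ioo_mem_nhds (show y - 1 < y by linarith) (show y < y + 1 by linarith)]
      with z hz using hN z hz
  refine ContDiffAt.congr_of_eventuallyEq ?_ h
  exact (ContDiff.sum fun m _ => hs.comp (by fun_prop)).contDiffAt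

theorem per_hasDerivAt {g : ℝ → ℝ} (hg : BddSupp g) (hs : Differentiable ℝ g) (y : ℝ) :
    HasDerivAt (per g) (per (deriv g) y) y := by
  obtain ⟨N, hN⟩ := hg.exists_nat y
  obtain ⟨N', hN'⟩ := hg.deriv.exists_nat y
  have hsub : ∀ m : ℤ, m ∉ Finset.Icc (-((max N N' : ℕ) : ℤ)) (max N N' : ℕ) →
      m ∉ Finset.Icc (-(N : ℤ)) N ∧ m ∉ Finset.Icc (-(N' : ℤ)) N' := by
    intro m hm
    simp only [Finset.mem_Icc] at hm ⊢
    push_cast at hm
    omega
  have h : per g =ᶠ[𝓝 y]
      fun z => ∑ m ∈ Finset.Icc (-((max N N' : ℕ) : ℤ)) (max N N' : ℕ), g (z + m) := by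
    filter_upwards [Ioo_mem_nhds (show y - 1 < y by linarith) (show y < y + 1 by linarith)]
      with z hz using tsum_eq_sum fun m hm => hN z hz m (hsub m hm).1
  have h2 : per (deriv g) y
      = ∑ m ∈ Finset.Icc (-((max N N' : ℕ) : ℤ)) (max N N' : ℕ), deriv g (y + m) :=
    tsum_eq_sum fun m hm => hN' y ⟨by linarith, by linarith⟩ m (hsub m hm).2
  rw [h2]
  refine HasDerivAt.congr_of_eventuallyEq ?_ h
  exact HasDerivAt.fun_sum fun m _ => (hs (y + m)).hasDerivAt.comp_add_const y m

theorem deriv_per {g : ℝ → ℝ} (hg : BddSupp g) (hs : Differentiable ℝ g) :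
    deriv (per g) = per (deriv g) := funext fun y => (per_hasDerivAt hg hs y).deriv

theorem per_add_int (g : ℝ → ℝ) (y : ℝ) (k : ℤ) : per g (y + k) = per g y := by
  unfold per
  rw [← (Equiv.addLeft k).tsum_eq (fun m : ℤ => g (y + m))]
  congr 1; funext m
  simp [add_assoc]

theorem per_add_nat (g : ℝ → ℝ) (y : ℝ) (k : ℕ) : per g (y + k) = per g y := by
  simpa using per_add_int g y k

theorem per_add_one (g : ℝ → ℝ) (y : ℝ) : per g (y + 1) = per g y := by
  simpa using per_add_int g y 1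

theorem per_add {g h : ℝ → ℝ} (hg : BddSupp g) (hh : BddSupp h) :
    per (fun s => g s + h s) = fun y => per g y + per h y :=
  funext fun y => (hg.summable y).tsum_add (hh.summable y)

theorem per_const_mul (c : ℝ) (g : ℝ → ℝ) : per (fun s => c * g s) = fun y => c * per g y :=
  funext fun _ => tsum_mul_left

/-- If `g` vanishes outside `[α, β]` and `β - 1 ≤ y ≤ α + 1` then the periodization at `y`
is `g y` (with `g` vanishing at the end points too). -/
theorem per_eq_self {g : ℝ → ℝ} {α β y : ℝ} (h1 : ∀ s, s ≤ α → g s = 0) (h2 : ∀ s, β ≤ s → g s = 0)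
    (hy1 : β - 1 ≤ y) (hy2 : y ≤ α + 1) : per g y = g y := by
  unfold per
  rw [tsum_eq_single (0 : ℤ)]
  · simp
  · intro m hm
    rcases lt_or_gt_of_ne hm with h | h
    · have : (m : ℝ) ≤ -1 := by exact_mod_cast (show m ≤ -1 by omega)
      exact h1 _ (by linarith)
    · have : (1 : ℝ) ≤ m := by exact_mod_cast (show 1 ≤ m by omega)
      exact h2 _ (by linarith)

end Vale.Agent.P113Z
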