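import Vale.Agent.P113Z.Bump

/-! Rational spans of periodized bumps, closure under derivatives, affine-on-plateau functions. -/

open scoped ContDiff Topology
open Set Filter

namespace Vale.Agent.P113Z

/-- `s ↦ s^k rho^(j)(a s - b)` -/
noncomputable def bR (k j : ℕ) (a b : ℚ) (s : ℝ) : ℝ := s ^ k * iteratedDeriv j rho (a * s - b)
/-- `s ↦ s^k pi_l(a s - b)` -/
noncomputable def bP (k : ℕ) (l a b : ℚ) (s : ℝ) : ℝ := s ^ k * piL l (a * s - b)

def IsBump (g : ℝ → ℝ) : Prop :=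
  (∃ k j a b, a ≠ 0 ∧ g = bR k j a b) ∨ (∃ k l a b, a ≠ 0 ∧ 0 < l ∧ g = bP k l a b)

theorem BddSupp.iteratedDeriv {g : ℝ → ℝ} (hg : BddSupp g) (j : ℕ) :
    BddSupp (iteratedDeriv j g) := by
  induction j with
  | zero => simpa using hg
  | succ j ih => rw [iteratedDeriv_succ]; exact ih.deriv

theorem BddSupp.comp_affine {g : ℝ → ℝ} (hg : BddSupp g) {a : ℝ} (ha : a ≠ 0) (b : ℝ) :
    BddSupp fun s => g (a * s - b) := by
  obtain ⟨R, hR⟩ := hg
  have ha' : 0 < |a| := abs_pos.2 ha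
  refine ⟨(R + |b|) / |a|, fun s hs => hR _ ?_⟩
  rw [div_le_iff₀ ha'] at hs
  have h1 : |a * s| ≤ |a * s - b| + |b| := by
    have := abs_add_le (a * s - b) b
    simpa using this
  rw [abs_mul] at h1
  linarith

theorem BddSupp.mul_left {g : ℝ → ℝ} (hg : BddSupp g) (h : ℝ → ℝ) :
    BddSupp fun s => h s * g s := by
  obtain ⟨R, hR⟩ := hg
  exact ⟨R, fun s hs => by beta_reduce; rw [hR s hs, mul_zero]⟩

theorem BddSupp.add {g h : ℝ → ℝ} (hg : BddSupp g) (hh : BddSupp h) :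
    BddSupp fun s => g s + h s := by
  obtain ⟨R, hR⟩ := hg
  obtain ⟨R', hR'⟩ := hh
  exact ⟨max R R', fun s hs => by
    beta_reduce
    rw [hR s (le_trans (le_max_left _ _) hs), hR' s (le_trans (le_max_right _ _) hs), add_zero]⟩

theorem rho_bddSupp : BddSupp rho :=
  ⟨1, fun s hs => by unfold rho; rw [if_neg (not_lt.2 hs)]⟩

theorem piL_bddSupp {l : ℝ} (hl : 0 ≤ l) : BddSupp (piL l) := by
  refine ⟨l + 1, fun s hs => ?_⟩
  rcases le_abs.1 hs with h | h
  · exact piL_of_ge hl h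
  · exact piL_of_le hl (by linarith)

theorem iteratedDeriv_rho_smooth (j : ℕ) : ContDiff ℝ ∞ (iteratedDeriv j rho) := by
  induction j with
  | zero => simpa using rho_smooth
  | succ j ih => rw [iteratedDeriv_succ]; exact (contDiff_infty_iff_deriv.1 ih).2

theorem bR_bddSupp (k j : ℕ) {a : ℚ} (ha : a ≠ 0) (b : ℚ) : BddSupp (bR k j a b) :=
  ((rho_bddSupp.iteratedDeriv j).comp_affine (by exact_mod_cast ha) b).mul_left _

theorem bP_bddSupp (k : ℕ) {l a : ℚ} (hl : 0 < l) (ha : a ≠ 0) (b : ℚ) : BddSupp (bP k l a b) :=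
  ((piL_bddSupp (by exact_mod_cast hl.le)).comp_affine (by exact_mod_cast ha) b).mul_left _

theorem bR_smooth (k j : ℕ) (a b : ℚ) : ContDiff ℝ ∞ (bR k j a b) := by
  unfold bR
  exact (contDiff_id.pow k).mul ((iteratedDeriv_rho_smooth j).comp (by fun_prop))

theorem bP_smooth (k : ℕ) (l a b : ℚ) : ContDiff ℝ ∞ (bP k l a b) := by
  unfold bP
  exact (contDiff_id.pow k).mul ((piL_smooth l).comp (by fun_prop))

theorem IsBump.bddSupp {g : ℝ → ℝ} (h : IsBump g) : BddSupp g := by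
  rcases h with ⟨k, j, a, b, ha, rfl⟩ | ⟨k, l, a, b, ha, hl, rfl⟩
  · exact bR_bddSupp k j ha b
  · exact bP_bddSupp k hl ha b

theorem IsBump.smooth {g : ℝ → ℝ} (h : IsBump g) : ContDiff ℝ ∞ g := by
  rcases h with ⟨k, j, a, b, -, rfl⟩ | ⟨k, l, a, b, -, -, rfl⟩
  · exact bR_smooth k j a b
  · exact bP_smooth k l a b

theorem IsBump.per_smooth {g : ℝ → ℝ} (h : IsBump g) : ContDiff ℝ ∞ (per g) :=
  Vale.Agent.P113Z.per_smooth h.bddSupp h.smooth

theorem isBump_bR (k j : ℕ) {a : ℚ} (ha : a ≠ 0) (b : ℚ) : IsBump (bR k j a b) :=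
  Or.inl ⟨k, j, a, b, ha, rfl⟩

theorem isBump_bP (k : ℕ) {l a : ℚ} (hl : 0 < l) (ha : a ≠ 0) (b : ℚ) : IsBump (bP k l a b) :=
  Or.inr ⟨k, l, a, b, ha, hl, rfl⟩

theorem affine_hasDerivAt (a b s : ℝ) : HasDerivAt (fun s => a * s - b) a s := by
  simpa using ((hasDerivAt_id s).const_mul a).sub_const b

theorem bR_hasDerivAt (k j : ℕ) (a b : ℚ) (s : ℝ) :
    HasDerivAt (bR k j a b) (k * bR (k - 1) j a b s + a * bR k (j + 1) a b s) s := by
  have h1 := hasDerivAt_pow k s
  have h2 := (((iteratedDeriv_rho_smooth j).differentiable (by simp))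
    (a * s - b)).hasDerivAt.comp s (affine_hasDerivAt a b s)
  refine (h1.fun_mul h2).congr_deriv ?_
  simp only [bR, iteratedDeriv_succ, Function.comp]
  ring

theorem bP_hasDerivAt (k : ℕ) (l a b : ℚ) (s : ℝ) :
    HasDerivAt (bP k l a b)
      (k * bP (k - 1) l a b s + (a * bR k 0 a b s + (-a : ℚ) * bR k 0 a (b + l) s)) s := by
  have h1 := hasDerivAt_pow k s
  have h2 := (piL_hasDerivAt l (a * s - b)).comp s (affine_hasDerivAt a b s)
  refine (h1.fun_mul h2).congr_deriv ?_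
  simp only [bR, bP, iteratedDeriv_zero, Function.comp]
  push_cast
  rw [sub_sub]
  ring

/-- finite rational combinations of periodized bumps -/
inductive Sp1 : (ℝ → ℝ) → Prop
  | zero : Sp1 fun _ => 0
  | gen (q : ℚ) {g : ℝ → ℝ} (hg : IsBump g) : Sp1 fun s => q * per g s
  | add {F G : ℝ → ℝ} : Sp1 F → Sp1 G → Sp1 fun s => F s + G s

/-- finite sums of `q kappa^n P[g](s) P[h](t)` -/
inductive Sp2 : (ℝ → ℝ → ℝ) → Prop
  | zero : Sp2 fun _ _ => 0
  | gen (q : ℚ) (n : ℤ) {g h : ℝ → ℝ} (hg : IsBump g) (hh : IsBump h) :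
      Sp2 fun s t => q * kappa ^ n * per g s * per h t
  | add {F G : ℝ → ℝ → ℝ} : Sp2 F → Sp2 G → Sp2 fun s t => F s t + G s t

theorem IsBump.sp1_per {g : ℝ → ℝ} (h : IsBump g) : Sp1 (per g) := by
  simpa using Sp1.gen 1 h

theorem IsBump.sp1_deriv {g : ℝ → ℝ} (h : IsBump g) : Sp1 (deriv (per g)) := by
  rw [deriv_per h.bddSupp (h.smooth.differentiable (by simp))]
  rcases h with ⟨k, j, a, b, ha, rfl⟩ | ⟨k, l, a, b, ha, hl, rfl⟩
  · have : deriv (bR k j a b) = fun s => ((k : ℚ) : ℝ) * bR (k - 1) j a b s + a * bR k (j + 1) a b s :=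
      funext fun s => by rw [(bR_hasDerivAt k j a b s).deriv]; simp
    rw [this, per_add ((bR_bddSupp _ _ ha _).mul_left _) ((bR_bddSupp _ _ ha _).mul_left _),
      per_const_mul, per_const_mul]
    exact (Sp1.gen _ (isBump_bR _ _ ha _)).add (Sp1.gen _ (isBump_bR _ _ ha _))
  · have : deriv (bP k l a b) = fun s => ((k : ℚ) : ℝ) * bP (k - 1) l a b s
        + (a * bR k 0 a b s + (-a : ℚ) * bR k 0 a (b + l) s) :=
      funext fun s => by rw [(bP_hasDerivAt k l a b s).deriv]; simp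
    rw [this, per_add ((bP_bddSupp _ hl ha _).mul_left _)
      (((bR_bddSupp _ _ ha _).mul_left _).add ((bR_bddSupp _ _ ha _).mul_left _)),
      per_add ((bR_bddSupp _ _ ha _).mul_left _) ((bR_bddSupp _ _ ha _).mul_left _),
      per_const_mul, per_const_mul, per_const_mul]
    exact (Sp1.gen _ (isBump_bP _ hl ha _)).add
      ((Sp1.gen _ (isBump_bR _ _ ha _)).add (Sp1.gen _ (isBump_bR _ _ ha _)))

theorem Sp2.of_sp1 (q : ℚ) (n : ℤ) {g h : ℝ → ℝ} (hg : Sp1 g) (hh : Sp1 h) :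
    Sp2 fun s t => q * kappa ^ n * g s * h t := by
  induction hg with
  | zero => simpa using Sp2.zero
  | add _ _ ih1 ih2 => simpa [mul_add, add_mul] using ih1.add ih2
  | gen q1 hg =>
    induction hh with
    | zero => simpa using Sp2.zero
    | add _ _ ih1 ih2 => simpa [mul_add, add_mul] using ih1.add ih2
    | gen q2 hh =>
      convert Sp2.gen (q * q1 * q2) n hg hh using 3
      push_cast; ring

theorem Sp2.sum {ι : Type*} (s : Finset ι) {F : ι → ℝ → ℝ → ℝ} (h : ∀ i ∈ s, Sp2 (F i)) :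
    Sp2 fun a b => ∑ i ∈ s, F i a b := by
  classical
  induction s using Finset.induction_on with
  | empty => simpa using Sp2.zero
  | insert i s hi ih =>
    simp only [Finset.sum_insert hi]
    exact (h i (Finset.mem_insert_self _ _)).add
      (ih fun j hj => h j (Finset.mem_insert_of_mem hj))

theorem Sp2.smooth {F : ℝ → ℝ → ℝ} (h : Sp2 F) :
    ContDiff ℝ ∞ fun p : ℝ × ℝ => F p.1 p.2 := by
  induction h with
  | zero => exact contDiff_const
  | gen q n hg hh =>
    exact (contDiff_const.mul (hg.per_smooth.comp contDiff_fst)).mul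
      (hh.per_smooth.comp contDiff_snd)
  | add _ _ ih1 ih2 => exact ih1.add ih2

theorem Sp2.periodic {F : ℝ → ℝ → ℝ} (h : Sp2 F) (s t : ℝ) (m n : ℤ) :
    F (s + m) (t + n) = F s t := by
  induction h with
  | zero => rfl
  | gen q n hg hh => simp only [per_add_int]
  | add _ _ ih1 ih2 => simp only [ih1, ih2]

/-- derivative in the first variable -/
noncomputable def d1 (F : ℝ → ℝ → ℝ) (s t : ℝ) : ℝ := deriv (fun s => F s t) s
/-- derivative in the second variable -/
noncomputable def d2 (F : ℝ → ℝ → ℝ) (s t : ℝ) : ℝ := deriv (fun t => F s t) t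

theorem Sp2.hasDerivAt_fst {F : ℝ → ℝ → ℝ} (h : Sp2 F) (s t : ℝ) :
    HasDerivAt (fun s => F s t) (d1 F s t) s := by
  have : ContDiff ℝ ∞ fun s => F s t := h.smooth.comp (f := fun s => (s, t)) (by fun_prop)
  exact (this.differentiable (by simp) s).hasDerivAt

theorem Sp2.hasDerivAt_snd {F : ℝ → ℝ → ℝ} (h : Sp2 F) (s t : ℝ) :
    HasDerivAt (fun t => F s t) (d2 F s t) t := by
  have : ContDiff ℝ ∞ fun t => F s t := h.smooth.comp (f := fun t => (s, t)) (by fun_prop)
  exact (this.differentiable (by simp) t).hasDerivAt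

theorem Sp2.d1 {F : ℝ → ℝ → ℝ} (h : Sp2 F) : Sp2 (d1 F) := by
  induction h with
  | zero =>
    have : Vale.Agent.P113Z.d1 (fun _ _ => 0) = fun _ _ => 0 := by
      funext s t; simp [Vale.Agent.P113Z.d1]
    rw [this]; exact Sp2.zero
  | @gen q n g h hg hh =>
    have : Vale.Agent.P113Z.d1 (fun s t => q * kappa ^ n * per g s * per h t)
        = fun s t => q * kappa ^ n * deriv (per g) s * per h t := by
      funext s t
      exact (((hg.per_smooth.differentiable (by simp) s).hasDerivAt.const_mul _).mul_const _).deriv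
    rw [this]; exact Sp2.of_sp1 q n hg.sp1_deriv hh.sp1_per
  | @add F G hF hG ih1 ih2 =>
    have : Vale.Agent.P113Z.d1 (fun s t => F s t + G s t)
        = fun s t => Vale.Agent.P113Z.d1 F s t + Vale.Agent.P113Z.d1 G s t := by
      funext s t
      exact ((hF.hasDerivAt_fst s t).fun_add (hG.hasDerivAt_fst s t)).deriv
    rw [this]; exact ih1.add ih2

theorem Sp2.d2 {F : ℝ → ℝ → ℝ} (h : Sp2 F) : Sp2 (d2 F) := by
  induction h with
  | zero =>
    have : Vale.Agent.P113Z.d2 (fun _ _ => 0) = fun _ _ => 0 := by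
      funext s t; simp [Vale.Agent.P113Z.d2]
    rw [this]; exact Sp2.zero
  | @gen q n g h hg hh =>
    have : Vale.Agent.P113Z.d2 (fun s t => q * kappa ^ n * per g s * per h t)
        = fun s t => q * kappa ^ n * per g s * deriv (per h) t := by
      funext s t
      exact ((hh.per_smooth.differentiable (by simp) t).hasDerivAt.const_mul _).deriv
    rw [this]; exact Sp2.of_sp1 q n hg.sp1_per hh.sp1_deriv
  | @add F G hF hG ih1 ih2 =>
    have : Vale.Agent.P113Z.d2 (fun s t => F s t + G s t)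
        = fun s t => Vale.Agent.P113Z.d2 F s t + Vale.Agent.P113Z.d2 G s t := by
      funext s t
      exact ((hF.hasDerivAt_snd s t).fun_add (hG.hasDerivAt_snd s t)).deriv
    rw [this]; exact ih1.add ih2

/-! ### Affine data on windows -/

theorem per_window (N : ℕ) (k : ℕ) {u u' : ℕ} (hu : u < N) (hu' : u' < N) {s : ℝ}
    (h1 : (4 * u' + 1 : ℝ) / (8 * N) ≤ s) (h2 : s ≤ (4 * u' + 3 : ℝ) / (8 * N)) :
    per (bP k 4 (8 * N) (4 * u)) s = if u = u' then s ^ k * kappa else 0 := by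
  have hN : (0 : ℝ) < N := by exact_mod_cast (lt_of_le_of_lt (Nat.zero_le _) hu)
  have huN : (u + 1 : ℝ) ≤ N := by exact_mod_cast hu
  have huN' : (u' + 1 : ℝ) ≤ N := by exact_mod_cast hu'
  have hu0 : (0 : ℝ) ≤ u := by positivity
  have hu0' : (0 : ℝ) ≤ u' := by positivity
  rw [div_le_iff₀ (by positivity)] at h1
  rw [le_div_iff₀ (by positivity)] at h2
  have hb : ∀ r : ℝ, bP k 4 (8 * N) (4 * u) r = r ^ k * piL 4 (8 * N * r - 4 * u) := by
    intro r; simp [bP]
  rw [per_eq_self (α := (4 * u - 1 : ℝ) / (8 * N)) (β := (4 * u + 5 : ℝ) / (8 * N))]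
  · rw [hb]
    split_ifs with h
    · subst h
      rw [piL_of_mem (by linarith) (by linarith)]
    · rcases lt_or_gt_of_ne h with h | h
      · have : (u + 1 : ℝ) ≤ u' := by exact_mod_cast h
        rw [piL_of_ge (by norm_num) (by linarith), mul_zero]
      · have : (u' + 1 : ℝ) ≤ u := by exact_mod_cast h
        rw [piL_of_le (by norm_num) (by linarith), mul_zero]
  · intro r hr
    rw [le_div_iff₀ (by positivity)] at hr
    rw [hb, piL_of_le (by norm_num) (by linarith), mul_zero]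
  · intro r hr
    rw [div_le_iff₀ (by positivity)] at hr
    rw [hb, piL_of_ge (by norm_num) (by linarith), mul_zero]
  · rw [sub_le_iff_le_add, div_le_iff₀ (by positivity)]
    nlinarith
  · rw [← sub_le_iff_le_add, le_div_iff₀ (by positivity)]
    nlinarith

/-- For any affine data on the windows `[(4u+1)/(8N), (4u+3)/(8N)]`, `u < N`, some function of
the class `Sp2` realizes the data on every pair of windows. -/
theorem exists_sp2_affine (N : ℕ) (d : ℕ → ℕ → ℚ × ℚ × ℚ) :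
    ∃ F : ℝ → ℝ → ℝ, Sp2 F ∧ ∀ u < N, ∀ v < N, ∀ s t : ℝ,
      ((4 * u + 1 : ℝ) / (8 * N) ≤ s ∧ s ≤ (4 * u + 3 : ℝ) / (8 * N)) →
      ((4 * v + 1 : ℝ) / (8 * N) ≤ t ∧ t ≤ (4 * v + 3 : ℝ) / (8 * N)) →
      F s t = (d u v).1 * s + (d u v).2.1 * t + (d u v).2.2 := by
  rcases Nat.eq_zero_or_pos N with rfl | hN
  · exact ⟨_, Sp2.zero, fun u hu => absurd hu (Nat.not_lt_zero _)⟩
  have ha : (8 * N : ℚ) ≠ 0 := by positivity
  have hb : ∀ k u : ℕ, IsBump (bP k 4 (8 * N) (4 * u)) := fun k u => isBump_bP k (by norm_num) ha _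
  refine ⟨fun s t => ∑ u ∈ Finset.range N, ∑ v ∈ Finset.range N,
    ((d u v).1 * kappa ^ (-2 : ℤ) * per (bP 1 4 (8 * N) (4 * u)) s * per (bP 0 4 (8 * N) (4 * v)) t
    + (d u v).2.1 * kappa ^ (-2 : ℤ) * per (bP 0 4 (8 * N) (4 * u)) s
        * per (bP 1 4 (8 * N) (4 * v)) t
    + (d u v).2.2 * kappa ^ (-2 : ℤ) * per (bP 0 4 (8 * N) (4 * u)) s
        * per (bP 0 4 (8 * N) (4 * v)) t), ?_, ?_⟩
  · exact Sp2.sum _ fun u _ => Sp2.sum _ fun v _ =>
      ((Sp2.gen _ _ (hb _ _) (hb _ _)).add (Sp2.gen _ _ (hb _ _) (hb _ _))).add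
        (Sp2.gen _ _ (hb _ _) (hb _ _))
  · intro u hu v hv s t hs ht
    beta_reduce
    rw [Finset.sum_eq_single u, Finset.sum_eq_single v]
    · simp only [per_window N _ hu hu hs.1 hs.2, per_window N _ hv hv ht.1 ht.2, if_true]
      have := kappa_pos.ne'
      field_simp
    · intro v' hv' hne
      simp only [per_window N _ (Finset.mem_range.1 hv') hv ht.1 ht.2, if_neg hne]
      simp
    · intro h; exact absurd (Finset.mem_range.2 hv) h
    · intro u' hu' hne
      simp only [per_window N _ (Finset.mem_range.1 hu') hu hs.1 hs.2, if_neg hne]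
      simp
    · intro h; exact absurd (Finset.mem_range.2 hu) h

end Vale.Agent.P113Z
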