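import Mathlib.Computability.RE

/-!
Raw Turing machines on natural number data: a table of triples (new state, written symbol,
direction), run on two lists. Halting is recursively enumerable.
-/

namespace Vale.Agent.P113Z

/-- One step of a raw machine with transition function `δ` on (state, left list, right list);
the scanned symbol is the head of the right list, `0` is the blank, and the direction is
`0` for left, `1` for stay, anything else for right. -/
def rawStep (e : ℕ × ℕ × ℕ) (c : ℕ × List ℕ × List ℕ) : ℕ × List ℕ × List ℕ :=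
  if e.2.2 = 0 then (e.1, c.2.1.tail, c.2.1.headI :: e.2.1 :: c.2.2.tail)
  else if e.2.2 = 1 then (e.1, c.2.1, e.2.1 :: c.2.2.tail)
  else (e.1, e.2.1 :: c.2.1, c.2.2.tail)

theorem primrec_rawStep : Primrec₂ rawStep := by
  unfold rawStep Primrec₂
  have h1 : Primrec fun p : (ℕ × ℕ × ℕ) × (ℕ × List ℕ × List ℕ) => p.1.1 :=
    Primrec.fst.comp Primrec.fst
  have h2 : Primrec fun p : (ℕ × ℕ × ℕ) × (ℕ × List ℕ × List ℕ) => p.1.2.1 :=
    Primrec.fst.comp (Primrec.snd.comp Primrec.fst)
  have h3 : Primrec fun p : (ℕ × ℕ × ℕ) × (ℕ × List ℕ × List ℕ) => p.1.2.2 :=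
    Primrec.snd.comp (Primrec.snd.comp Primrec.fst)
  have hl : Primrec fun p : (ℕ × ℕ × ℕ) × (ℕ × List ℕ × List ℕ) => p.2.2.1 :=
    Primrec.fst.comp (Primrec.snd.comp Primrec.snd)
  have hr : Primrec fun p : (ℕ × ℕ × ℕ) × (ℕ × List ℕ × List ℕ) => p.2.2.2 :=
    Primrec.snd.comp (Primrec.snd.comp Primrec.snd)
  have hrt := Primrec.list_tail.comp hr
  refine Primrec.ite (Primrec.eq.comp h3 (Primrec.const 0))
    (h1.pair ((Primrec.list_tail.comp hl).pair (Primrec.list_cons.comp (Primrec.list_headI.comp hl)
      (Primrec.list_cons.comp h2 hrt))))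
    (Primrec.ite (Primrec.eq.comp h3 (Primrec.const 1))
      (h1.pair (hl.pair (Primrec.list_cons.comp h2 hrt)))
      (h1.pair ((Primrec.list_cons.comp h2 hl).pair hrt)))

/-- Halting of a computable family of raw machines is recursively enumerable. -/
theorem re_rawHalts {α : Type} [Primcodable α] (δ : α → ℕ × ℕ → ℕ × ℕ × ℕ) (H : α → ℕ → Bool)
    (q₀ : α → ℕ) (w : α → List ℕ) (hδ : Primrec₂ δ) (hH : Primrec₂ H) (hq : Primrec q₀)
    (hw : Primrec w) :
    REPred fun x : α => ∃ n,
      H x ((fun c => rawStep (δ x (c.1, c.2.2.headI)) c)^[n] (q₀ x, [], w x)).1 = true := by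
  have h1 : Primrec₂ fun (x : α) (n : ℕ) =>
      H x ((fun c => rawStep (δ x (c.1, c.2.2.headI)) c)^[n] (q₀ x, [], w x)).1 := by
    unfold Primrec₂
    refine hH.comp Primrec.fst (Primrec.fst.comp ?_)
    refine Primrec.nat_iterate (h := fun (p : α × ℕ) c => rawStep (δ p.1 (c.1, c.2.2.headI)) c)
      Primrec.snd ((hq.comp Primrec.fst).pair ((Primrec.const []).pair (hw.comp Primrec.fst))) ?_
    unfold Primrec₂
    refine primrec_rawStep.comp (hδ.comp (Primrec.fst.comp Primrec.fst) ?_) Primrec.snd
    exact (Primrec.fst.comp Primrec.snd).pair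
      (Primrec.list_headI.comp (Primrec.snd.comp (Primrec.snd.comp Primrec.snd)))
  have h2 := Partrec.rfind (p := fun (x : α) (n : ℕ) => (Part.some
    (H x ((fun c => rawStep (δ x (c.1, c.2.2.headI)) c)^[n] (q₀ x, [], w x)).1) : Part Bool))
    h1.to_comp.partrec₂
  refine h2.dom_re.of_eq fun x => ?_
  refine Nat.rfind_dom.trans ?_
  simp

/-- A recursively enumerable predicate on a coded type, read on the codes. -/
theorem re_encode {α : Type} [Primcodable α] {P : α → Prop} (hP : REPred P) :
    ∃ Q : ℕ → Prop, REPred Q ∧ ∀ x, Q (Encodable.encode x) ↔ P x := by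
  refine ⟨_, (Partrec.nat_iff.2 hP).dom_re, fun x => ?_⟩
  simp [Part.assert]

/-- A tape with a head position is represented by two lists. -/
def TapeRep (T : ℤ → ℕ) (pos : ℤ) (L R : List ℕ) : Prop :=
  (∀ j : ℕ, L.getD j 0 = T (pos - 1 - j)) ∧ ∀ j : ℕ, R.getD j 0 = T (pos + j)

theorem headI_eq_getD (l : List ℕ) : l.headI = l.getD 0 0 := by cases l <;> rfl

theorem tail_getD (l : List ℕ) (j : ℕ) : l.tail.getD j 0 = l.getD (j + 1) 0 := by
  cases l <;> simp

theorem TapeRep.head {T pos L R} (h : TapeRep T pos L R) : R.headI = T pos := by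
  rw [headI_eq_getD, h.2]; simp

theorem TapeRep.left {T pos L R} (h : TapeRep T pos L R) (b : ℕ) :
    TapeRep (Function.update T pos b) (pos - 1) L.tail (L.headI :: b :: R.tail) := by
  refine ⟨fun j => ?_, fun j => ?_⟩
  · rw [tail_getD, h.1, Function.update_of_ne (by omega)]
    congr 1; omega
  · rcases j with _ | _ | j
    · rw [List.getD_cons_zero, headI_eq_getD, h.1, Function.update_of_ne (by omega)]
      simp
    · rw [List.getD_cons_succ, List.getD_cons_zero]
      have : pos - 1 + ((0 + 1 : ℕ) : ℤ) = pos := by omega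
      rw [this, Function.update_self]
    · rw [List.getD_cons_succ, List.getD_cons_succ, tail_getD, h.2,
        Function.update_of_ne (by omega)]
      congr 1; omega

theorem TapeRep.stay {T pos L R} (h : TapeRep T pos L R) (b : ℕ) :
    TapeRep (Function.update T pos b) pos L (b :: R.tail) := by
  refine ⟨fun j => ?_, fun j => ?_⟩
  · rw [h.1, Function.update_of_ne (by omega)]
  · rcases j with _ | j
    · simp
    · rw [List.getD_cons_succ, tail_getD, h.2, Function.update_of_ne (by omega)]

theorem TapeRep.right {T pos L R} (h : TapeRep T pos L R) (b : ℕ) :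
    TapeRep (Function.update T pos b) (pos + 1) (b :: L) R.tail := by
  refine ⟨fun j => ?_, fun j => ?_⟩
  · rcases j with _ | j
    · simp
    · rw [List.getD_cons_succ, h.1, Function.update_of_ne (by omega)]
      congr 1; omega
  · rw [tail_getD, h.2, Function.update_of_ne (by omega)]
    congr 1; omega

end Vale.Agent.P113Z
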