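import Vale.Agent.P113Z.MachineDefs
import Vale.Agent.P113Z.RawTM

/-!
Halting of machines is recursively enumerable in their descriptions.
-/

namespace Vale.Agent.P113Z

theorem getD_ofFn {α : Type} {n : ℕ} (f : Fin n → α) (i : Fin n) (d : α) :
    (List.ofFn f).getD i d = f i := by
  rw [List.getD_eq_getElem _ _ (by simp)]
  simp

theorem Machine.rep_iterate (M : Machine) (w : List (Fin (M.nS + 1))) (n : ℕ) :
    let c := M.step^[n] (M.init w)
    let r := (fun c : ℕ × List ℕ × List ℕ =>
      rawStep ((M.code.2.2.2.2.getD c.1 []).getD c.2.2.headI (0, 0, 0)) c)^[n]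
        (M.start, [], w.map Fin.val)
    r.1 = c.state ∧ TapeRep (fun i => (c.tape i : ℕ)) c.head r.2.1 r.2.2 := by
  induction n with
  | zero =>
    refine ⟨rfl, fun j => ?_, fun j => ?_⟩
    · have : ¬ (0 : ℤ) ≤ 0 - 1 - j := by omega
      simp only [Function.iterate_zero, id, Machine.init, this, if_false]
      rfl
    · have h1 : (0 : ℤ) ≤ 0 + j := by omega
      have h2 : ((0 : ℤ) + j).toNat = j := by omega
      simp only [Function.iterate_zero, id, Machine.init, h1, if_true, h2]
      exact List.getD_map w 0 Fin.val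
  | succ n ih =>
    simp only [Function.iterate_succ_apply']
    obtain ⟨h1, h2⟩ := ih
    generalize M.step^[n] (M.init w) = c at h1 h2
    generalize (fun c : ℕ × List ℕ × List ℕ =>
      rawStep ((M.code.2.2.2.2.getD c.1 []).getD c.2.2.headI (0, 0, 0)) c)^[n]
        (M.start, [], w.map Fin.val) = r at h1 h2
    have e : (M.code.2.2.2.2.getD r.1 []).getD r.2.2.headI (0, 0, 0) =
        (((M.delta c.state (c.tape c.head)).1 : ℕ), ((M.delta c.state (c.tape c.head)).2.1 : ℕ),
          ((M.delta c.state (c.tape c.head)).2.2 : ℕ)) := by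
      rw [h1, h2.head]
      simp only [Machine.code]
      rw [getD_ofFn, getD_ofFn]
    rw [e]
    have hu : (fun i => ((M.step c).tape i : ℕ)) = Function.update (fun i => (c.tape i : ℕ)) c.head
        ((M.delta c.state (c.tape c.head)).2.1 : ℕ) := by
      funext i
      by_cases hi : i = c.head
      · subst hi; simp [Machine.step]
      · simp [Machine.step, Function.update_of_ne hi]
    have hs : (M.step c).state = (M.delta c.state (c.tape c.head)).1 := rfl
    have hh : (M.step c).head = c.head + (((M.delta c.state (c.tape c.head)).2.2 : ℕ) : ℤ) - 1 := rfl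
    rw [hu, hs, hh]
    generalize (M.delta c.state (c.tape c.head)).2.2 = d
    unfold rawStep
    rcases d with ⟨_ | _ | _ | d, hd⟩
    · have : c.head + ((0 : ℕ) : ℤ) - 1 = c.head - 1 := by omega
      simp only [if_true, this, true_and]
      exact h2.left _
    · have : c.head + ((0 + 1 : ℕ) : ℤ) - 1 = c.head := by omega
      simp only [this]
      exact ⟨rfl, h2.stay _⟩
    · have : c.head + ((0 + 1 + 1 : ℕ) : ℤ) - 1 = c.head + 1 := by omega
      simp only [this]
      exact ⟨rfl, h2.right _⟩
    · omega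

theorem Machine.exists_re :
    ∃ P : ℕ → Prop, REPred P ∧ ∀ (M : Machine) (w : List (Fin (M.nS + 1))),
      P (Encodable.encode (M.code, w.map Fin.val)) ↔ M.Halts w := by
  have h := re_rawHalts (α := (ℕ × ℕ × ℕ × List Bool × List (List (ℕ × ℕ × ℕ))) × List ℕ)
    (fun x p => (x.1.2.2.2.2.getD p.1 []).getD p.2 (0, 0, 0))
    (fun x q => x.1.2.2.2.1.getD q false) (fun x => x.1.2.2.1) (fun x => x.2)
    ((Primrec.list_getD (0, 0, 0)).comp
      ((Primrec.list_getD []).comp
        (Primrec.snd.comp (Primrec.snd.comp (Primrec.snd.comp (Primrec.snd.comp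
          (Primrec.fst.comp Primrec.fst)))))
        (Primrec.fst.comp Primrec.snd))
      (Primrec.snd.comp Primrec.snd))
    ((Primrec.list_getD false).comp
      (Primrec.fst.comp (Primrec.snd.comp (Primrec.snd.comp (Primrec.snd.comp
        (Primrec.fst.comp Primrec.fst)))))
      Primrec.snd)
    (Primrec.fst.comp (Primrec.snd.comp (Primrec.snd.comp Primrec.fst))) Primrec.snd
  obtain ⟨Q, hQ, hQ'⟩ := re_encode h
  refine ⟨Q, hQ, fun M w => ?_⟩
  rw [hQ']
  refine exists_congr fun n => ?_
  have := (M.rep_iterate w n).1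
  change (List.ofFn M.halt).getD ((fun c : ℕ × List ℕ × List ℕ =>
      rawStep ((M.code.2.2.2.2.getD c.1 []).getD c.2.2.headI (0, 0, 0)) c)^[n]
        (M.start, [], w.map Fin.val)).1 false = true ↔ _
  rw [this, getD_ofFn]

end Vale.Agent.P113Z
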