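import Mathlib.Computability.Partrec
import Mathlib.Data.Rat.Denumerable
import Mathlib.Data.Nat.Count
import Mathlib.Algebra.Order.Field.Rat
import Mathlib.Data.Rat.Lemmas
import Mathlib.Tactic.FieldSimp
import Mathlib.Tactic.Ring
import Mathlib.Tactic.Positivity
import Mathlib.Tactic.Linarith

/-!
# Arithmetic of the rationals is primitive recursive for the standard coding

The standard `Primcodable ℚ` structure comes from `Denumerable ℚ`: the code of `q` counts the pairs
(numerator, denominator) in lowest terms below the pair of `q`.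
-/

namespace Vale.Agent.P113Z.RatPrim

open Encodable Denumerable

theorem primrecRel_dvd : PrimrecRel (fun k a : ℕ => k ∣ a) :=
  (Primrec.eq.comp (Primrec.nat_mod.comp Primrec.snd Primrec.fst) (Primrec.const 0)).of_eq
    fun _ => (Nat.dvd_iff_mod_eq_zero ..).symm

theorem gcd_eq_findGreatest (a b : ℕ) :
    Nat.findGreatest (fun k => k ∣ a ∧ k ∣ b) (a + b) = Nat.gcd a b := by
  rcases Nat.eq_zero_or_pos (a + b) with h | h
  · have ha : a = 0 := by omega
    have hb : b = 0 := by omega
    subst ha hb
    simp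
  · have hg : 0 < Nat.gcd a b := Nat.gcd_pos_iff.2 (by omega)
    rw [Nat.findGreatest_eq_iff]
    refine ⟨Nat.le_of_dvd h (dvd_add (Nat.gcd_dvd_left a b) (Nat.gcd_dvd_right a b)),
      fun _ => ⟨Nat.gcd_dvd_left a b, Nat.gcd_dvd_right a b⟩, fun n hn _ hd => ?_⟩
    exact absurd (Nat.le_of_dvd hg (Nat.dvd_gcd hd.1 hd.2)) (not_le.2 hn)

theorem primrec_gcd : Primrec₂ Nat.gcd := by
  have h : PrimrecRel (fun (p : ℕ × ℕ) (k : ℕ) => k ∣ p.1 ∧ k ∣ p.2) :=
    PrimrecPred.and (primrecRel_dvd.comp Primrec.snd (Primrec.fst.comp Primrec.fst))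
      (primrecRel_dvd.comp Primrec.snd (Primrec.snd.comp Primrec.fst))
  exact (Primrec.nat_findGreatest (Primrec.nat_add.comp Primrec.fst Primrec.snd) h).of_eq
    fun p => gcd_eq_findGreatest p.1 p.2

theorem primrec_count {p : ℕ → Prop} [DecidablePred p] (hp : PrimrecPred p) :
    Primrec (Nat.count p) := by
  have h : Primrec₂ (fun n IH : ℕ => IH + if p n then 1 else 0) :=
    Primrec.nat_add.comp Primrec.snd
      (Primrec.ite (hp.comp Primrec.fst) (Primrec.const 1) (Primrec.const 0))
  refine (Primrec.nat_rec₁ 0 h).of_eq fun n => ?_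
  induction n with
  | zero => simp
  | succ n ih => rw [Nat.count_succ, ← ih]

/-- The pair code of a rational number. -/
def code (q : ℚ) : ℕ := Nat.pair (encode q.num) q.den

/-- The numbers that are pair codes. -/
def Good (k : ℕ) : Prop := 0 < k.unpair.2 ∧ Nat.gcd ((k.unpair.1 + 1) / 2) k.unpair.2 = 1

instance : DecidablePred Good := fun k => by unfold Good; infer_instance

theorem primrecPred_good : PrimrecPred Good :=
  PrimrecPred.and (Primrec.nat_lt.comp (Primrec.const 0) (Primrec.snd.comp Primrec.unpair))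
    (Primrec.eq.comp (primrec_gcd.comp
      (Primrec.nat_div.comp (Primrec.succ.comp (Primrec.fst.comp Primrec.unpair))
        (Primrec.const 2)) (Primrec.snd.comp Primrec.unpair)) (Primrec.const 1))

theorem encode_natCast (n : ℕ) : encode (n : ℤ) = 2 * n := rfl

theorem encode_negSucc (n : ℕ) : encode (Int.negSucc n) = 2 * n + 1 := rfl

theorem natAbs_eq (z : ℤ) : (encode z + 1) / 2 = z.natAbs := by
  cases z with
  | ofNat n =>
    have := encode_natCast n
    simp only [Int.ofNat_eq_natCast, Int.natAbs_natCast]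
    omega
  | negSucc n =>
    rw [encode_negSucc, Int.natAbs_negSucc]
    omega

theorem good_code (q : ℚ) : Good (code q) := by
  simp only [Good, code, Nat.unpair_pair, natAbs_eq]
  exact ⟨q.pos, q.reduced⟩

theorem exists_code {k : ℕ} (h : Good k) : ∃ q : ℚ, code q = k := by
  have h2 := h.2
  rw [← Denumerable.encode_ofNat (α := ℤ) k.unpair.1, natAbs_eq] at h2
  exact ⟨⟨ofNat ℤ k.unpair.1, k.unpair.2, h.1.ne', h2⟩, by
    simp only [code, Denumerable.encode_ofNat, Nat.pair_unpair]⟩

theorem encode_first (q : ℚ) : @encode ℚ Rat.instEncodable q = code q := rfl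

theorem encode_eq_count (q : ℚ) :
    @encode ℚ (Primcodable.ofDenumerable ℚ).toEncodable q = Nat.count Good (code q) := by
  have h : @encode ℚ (Primcodable.ofDenumerable ℚ).toEncodable q =
      (List.range (code q)).countP (fun k => @decide (k ∈ Set.range (@encode ℚ Rat.instEncodable))
        (@decidableRangeEncode ℚ Rat.instEncodable k)) := rfl
  rw [h, Nat.count]
  refine List.countP_congr fun k _ => ?_
  simp only [decide_eq_true_eq]
  exact ⟨fun ⟨q, hq⟩ => hq ▸ good_code q, fun hk => exists_code hk⟩

/-- A function to `ℚ` is primitive recursive as soon as its pair code is. -/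
theorem primrec_of_code {α : Type*} [Primcodable α] {f : α → ℚ}
    (h : Primrec fun a => code (f a)) : Primrec f :=
  Primrec.encode_iff.1
    (((primrec_count primrecPred_good).comp h).of_eq fun a => (encode_eq_count (f a)).symm)

theorem count_code_natCast (n : ℕ) : n ≤ Nat.count Good (code (n : ℚ)) := by
  induction n with
  | zero => exact Nat.zero_le _
  | succ n ih =>
    have hlt : code (n : ℚ) < code ((n + 1 : ℕ) : ℚ) := by
      simp only [code, Rat.num_natCast, Rat.den_natCast, encode_natCast]
      exact Nat.pair_lt_pair_left _ (by omega)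
    have := Nat.count_strict_mono (good_code (n : ℚ)) hlt
    omega

theorem code_eq_findGreatest (q : ℚ) :
    Nat.findGreatest (fun k => Nat.count Good k ≤ Nat.count Good (code q))
      (Nat.pair (2 * Nat.count Good (code q)) 1) = code q := by
  rw [Nat.findGreatest_eq_iff]
  refine ⟨?_, fun _ => le_rfl, fun n hn _ hle => ?_⟩
  · by_contra hlt
    push Not at hlt
    have h1 := count_code_natCast (Nat.count Good (code q))
    have h2 : code ((Nat.count Good (code q) : ℕ) : ℚ) =
        Nat.pair (2 * Nat.count Good (code q)) 1 := by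
      simp only [code, Rat.num_natCast, Rat.den_natCast, encode_natCast]
    have h3 := Nat.count_strict_mono (good_code ((Nat.count Good (code q) : ℕ) : ℚ))
      (h2 ▸ hlt)
    omega
  · exact absurd (Nat.count_strict_mono (good_code q) hn) (not_lt.2 hle)

theorem primrec_code : Primrec code := by
  have hc := primrec_count primrecPred_good
  have h : PrimrecRel (fun n k : ℕ => Nat.count Good k ≤ n) :=
    Primrec.nat_le.comp (hc.comp Primrec.snd) Primrec.fst
  have h2 := Primrec.nat_findGreatest
    (Primrec₂.natPair.comp Primrec.nat_double (Primrec.const 1)) h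
  refine (h2.comp (Primrec.encode (α := ℚ))).of_eq fun q => ?_
  have e := encode_eq_count q
  simp only [e]
  exact code_eq_findGreatest q

theorem primrec_den : Primrec Rat.den :=
  (Primrec.snd.comp (Primrec.unpair.comp primrec_code)).of_eq fun q => by simp [code]

theorem primrec_num : Primrec Rat.num :=
  Primrec.encode_iff.1
    ((Primrec.fst.comp (Primrec.unpair.comp primrec_code)).of_eq fun q => by simp [code])

theorem primrec_toNat : Primrec Int.toNat := by
  have h : Primrec fun z : ℤ => if encode z % 2 = 0 then encode z / 2 else 0 :=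
    Primrec.ite (Primrec.eq.comp (Primrec.nat_mod.comp Primrec.encode (Primrec.const 2))
      (Primrec.const 0)) (Primrec.nat_div.comp Primrec.encode (Primrec.const 2)) (Primrec.const 0)
  refine h.of_eq fun z => ?_
  cases z with
  | ofNat n =>
    have := encode_natCast n
    simp only [Int.ofNat_eq_natCast, Int.toNat_natCast]
    rw [if_pos (by omega)]
    omega
  | negSucc n =>
    rw [encode_negSucc, if_neg (by omega)]
    rfl

theorem primrec_natAbs : Primrec Int.natAbs :=
  (Primrec.nat_div.comp (Primrec.succ.comp Primrec.encode) (Primrec.const 2)).of_eq natAbs_eq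

/-- The difference of two natural numbers as an integer. -/
theorem primrec_intSub : Primrec₂ fun a b : ℕ => (a : ℤ) - b := by
  have h : Primrec fun p : ℕ × ℕ => if p.2 ≤ p.1 then 2 * (p.1 - p.2) else 2 * (p.2 - p.1) - 1 :=
    Primrec.ite (Primrec.nat_le.comp Primrec.snd Primrec.fst)
      (Primrec.nat_double.comp (Primrec.nat_sub.comp Primrec.fst Primrec.snd))
      (Primrec.nat_sub.comp
        (Primrec.nat_double.comp (Primrec.nat_sub.comp Primrec.snd Primrec.fst)) (Primrec.const 1))
  refine Primrec.encode_iff.1 (h.of_eq fun p => ?_)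
  obtain ⟨a, b⟩ := p
  simp only
  split_ifs with hab
  · rw [← encode_natCast, Nat.cast_sub hab]
  · have : (a : ℤ) - b = Int.negSucc (b - a - 1) := by
      rw [Int.negSucc_eq]
      omega
    rw [this, encode_negSucc]
    omega

theorem frac_num_den (a b c : ℕ) :
    (((a : ℚ) - b) / (c + 1)).num =
        (((a - b) / Nat.gcd (a - b + (b - a)) (c + 1) : ℕ) : ℤ) -
          (((b - a) / Nat.gcd (a - b + (b - a)) (c + 1) : ℕ) : ℤ) ∧
      (((a : ℚ) - b) / (c + 1)).den = (c + 1) / Nat.gcd (a - b + (b - a)) (c + 1) := by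
  have e : ((a : ℚ) - b) / (c + 1) = mkRat ((a : ℤ) - b) (c + 1) := by
    rw [Rat.mkRat_eq_div]
    push_cast
    rfl
  have habs : ((a : ℤ) - b).natAbs = a - b + (b - a) := by omega
  rw [e, Rat.num_mkRat, Rat.den_mkRat, if_neg (Nat.succ_ne_zero c), if_neg (Nat.succ_ne_zero c),
    habs, Nat.gcd_comm (c + 1)]
  refine ⟨?_, rfl⟩
  rcases le_total b a with h | h
  · have h0 : b - a = 0 := by omega
    rw [h0, ← Nat.cast_sub h]
    simp
  · have h0 : a - b = 0 := by omega
    have h1 : (a : ℤ) - b = -((b - a : ℕ) : ℤ) := by omega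
    rw [h0, h1, Int.neg_ediv_of_dvd]
    · simp
    · simp only [zero_add]
      exact_mod_cast Nat.gcd_dvd_left _ _

/-- The basic fraction `(a - b) / (c + 1)`. -/
theorem primrec_frac {α : Type*} [Primcodable α] {a b c : α → ℕ} (ha : Primrec a)
    (hb : Primrec b) (hc : Primrec c) :
    Primrec fun x => ((a x : ℚ) - b x) / (c x + 1) := by
  have hab := Primrec.nat_sub.comp ha hb
  have hba := Primrec.nat_sub.comp hb ha
  have hg := primrec_gcd.comp (Primrec.nat_add.comp hab hba) (Primrec.succ.comp hc)
  have hn := primrec_intSub.comp (Primrec.nat_div.comp hab hg) (Primrec.nat_div.comp hba hg)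
  have hd := Primrec.nat_div.comp (Primrec.succ.comp hc) hg
  refine primrec_of_code
    ((Primrec₂.natPair.comp (Primrec.encode.comp hn) hd).of_eq fun x => ?_)
  obtain ⟨e1, e2⟩ := frac_num_den (a x) (b x) (c x)
  simp only [code, e1, e2]

/-- Positive part of the numerator. -/
def pos (q : ℚ) : ℕ := q.num.toNat

/-- Negative part of the numerator. -/
def neg (q : ℚ) : ℕ := q.num.natAbs - q.num.toNat

theorem primrec_pos : Primrec pos := primrec_toNat.comp primrec_num

theorem primrec_neg : Primrec neg :=
  Primrec.nat_sub.comp (primrec_natAbs.comp primrec_num) primrec_pos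

theorem eq_frac (q : ℚ) : q = ((pos q : ℚ) - neg q) / q.den := by
  have h : ((pos q : ℤ) - neg q) = q.num := by
    simp only [pos, neg]
    omega
  have h' : (pos q : ℚ) - neg q = q.num := by exact_mod_cast h
  rw [h', Rat.num_div_den]

theorem primrec_add : Primrec₂ ((· + ·) : ℚ → ℚ → ℚ) := by
  have p1 : Primrec fun x : ℚ × ℚ => pos x.1 := primrec_pos.comp Primrec.fst
  have p2 : Primrec fun x : ℚ × ℚ => pos x.2 := primrec_pos.comp Primrec.snd
  have n1 : Primrec fun x : ℚ × ℚ => neg x.1 := primrec_neg.comp Primrec.fst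
  have n2 : Primrec fun x : ℚ × ℚ => neg x.2 := primrec_neg.comp Primrec.snd
  have d1 : Primrec fun x : ℚ × ℚ => x.1.den := primrec_den.comp Primrec.fst
  have d2 : Primrec fun x : ℚ × ℚ => x.2.den := primrec_den.comp Primrec.snd
  refine (primrec_frac
    (Primrec.nat_add.comp (Primrec.nat_mul.comp p1 d2) (Primrec.nat_mul.comp p2 d1))
    (Primrec.nat_add.comp (Primrec.nat_mul.comp n1 d2) (Primrec.nat_mul.comp n2 d1))
    (Primrec.nat_sub.comp (Primrec.nat_mul.comp d1 d2) (Primrec.const 1))).of_eq fun x => ?_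
  obtain ⟨q, r⟩ := x
  have hq : (q.den : ℚ) ≠ 0 := by exact_mod_cast q.den_nz
  have hr : (r.den : ℚ) ≠ 0 := by exact_mod_cast r.den_nz
  have hpos : 1 ≤ q.den * r.den := Nat.mul_pos q.pos r.pos
  simp only
  rw [Nat.cast_sub hpos]
  conv_rhs => rw [eq_frac q, eq_frac r]
  push_cast
  field_simp
  ring

theorem primrec_mul : Primrec₂ ((· * ·) : ℚ → ℚ → ℚ) := by
  have p1 : Primrec fun x : ℚ × ℚ => pos x.1 := primrec_pos.comp Primrec.fst
  have p2 : Primrec fun x : ℚ × ℚ => pos x.2 := primrec_pos.comp Primrec.snd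
  have n1 : Primrec fun x : ℚ × ℚ => neg x.1 := primrec_neg.comp Primrec.fst
  have n2 : Primrec fun x : ℚ × ℚ => neg x.2 := primrec_neg.comp Primrec.snd
  have d1 : Primrec fun x : ℚ × ℚ => x.1.den := primrec_den.comp Primrec.fst
  have d2 : Primrec fun x : ℚ × ℚ => x.2.den := primrec_den.comp Primrec.snd
  refine (primrec_frac
    (Primrec.nat_add.comp (Primrec.nat_mul.comp p1 p2) (Primrec.nat_mul.comp n1 n2))
    (Primrec.nat_add.comp (Primrec.nat_mul.comp p1 n2) (Primrec.nat_mul.comp n1 p2))
    (Primrec.nat_sub.comp (Primrec.nat_mul.comp d1 d2) (Primrec.const 1))).of_eq fun x => ?_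
  obtain ⟨q, r⟩ := x
  have hq : (q.den : ℚ) ≠ 0 := by exact_mod_cast q.den_nz
  have hr : (r.den : ℚ) ≠ 0 := by exact_mod_cast r.den_nz
  have hpos : 1 ≤ q.den * r.den := Nat.mul_pos q.pos r.pos
  simp only
  rw [Nat.cast_sub hpos]
  conv_rhs => rw [eq_frac q, eq_frac r]
  push_cast
  field_simp
  ring

theorem primrec_natCast : Primrec (Nat.cast : ℕ → ℚ) :=
  (primrec_frac Primrec.id (Primrec.const 0) (Primrec.const 0)).of_eq fun n => by simp

theorem primrec_intCast : Primrec (Int.cast : ℤ → ℚ) :=
  (primrec_frac primrec_toNat (Primrec.nat_sub.comp primrec_natAbs primrec_toNat)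
    (Primrec.const 0)).of_eq fun z => by
      have h : ((z.toNat : ℤ) - (z.natAbs - z.toNat : ℕ)) = z := by omega
      have h' : (z.toNat : ℚ) - (z.natAbs - z.toNat : ℕ) = z := by exact_mod_cast h
      simp only [h', Nat.cast_zero, zero_add, div_one]

theorem primrec_ratNeg : Primrec (Neg.neg : ℚ → ℚ) :=
  (primrec_mul.comp (Primrec.const (-1)) Primrec.id).of_eq fun q => by simp

theorem primrec_sub : Primrec₂ ((· - ·) : ℚ → ℚ → ℚ) :=
  (primrec_add.comp Primrec.fst (primrec_ratNeg.comp Primrec.snd)).of_eq fun x => by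
    simp [sub_eq_add_neg]

theorem primrec_inv : Primrec (Inv.inv : ℚ → ℚ) := by
  have hp := primrec_pos
  have hn := primrec_neg
  have hd := primrec_den
  have hs := Primrec.nat_add.comp hp hn
  refine (primrec_frac (Primrec.nat_mul.comp hp hd) (Primrec.nat_mul.comp hn hd)
    (Primrec.nat_sub.comp (Primrec.nat_mul.comp hs hs) (Primrec.const 1))).of_eq fun q => ?_
  have hq : (q.den : ℚ) ≠ 0 := by exact_mod_cast q.den_nz
  have h0 : pos q = 0 ∨ neg q = 0 := by
    simp only [pos, neg]
    omega
  rcases Nat.eq_zero_or_pos (pos q + neg q) with h | h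
  · have h1 : pos q = 0 := by omega
    have h2 : neg q = 0 := by omega
    conv_rhs => rw [eq_frac q]
    simp [h1, h2]
  · have hpos : 1 ≤ (pos q + neg q) * (pos q + neg q) := Nat.mul_pos h h
    rw [Nat.cast_sub hpos]
    conv_rhs => rw [eq_frac q]
    rcases h0 with h1 | h1
    · have h2 : (neg q : ℚ) ≠ 0 := by exact_mod_cast (by omega : neg q ≠ 0)
      simp only [h1]
      push_cast
      field_simp
      ring
    · have h2 : (pos q : ℚ) ≠ 0 := by exact_mod_cast (by omega : pos q ≠ 0)
      simp only [h1]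
      push_cast
      field_simp
      ring

theorem primrec_div : Primrec₂ ((· / ·) : ℚ → ℚ → ℚ) :=
  (primrec_mul.comp Primrec.fst (primrec_inv.comp Primrec.snd)).of_eq fun x => by
    simp [div_eq_mul_inv]

theorem primrec_pow : Primrec₂ ((· ^ ·) : ℚ → ℕ → ℚ) := by
  have h : Primrec₂ fun (q : ℚ) (y : ℕ × ℚ) => y.2 * q :=
    primrec_mul.comp (Primrec.snd.comp Primrec.snd) Primrec.fst
  refine (Primrec.nat_rec (Primrec.const (1 : ℚ)) h).of_eq fun q n => ?_
  induction n with
  | zero => simp
  | succ n ih => simp only [pow_succ, ← ih]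

theorem primrec_mkRat : Primrec₂ mkRat :=
  (primrec_div.comp (primrec_intCast.comp Primrec.fst) (primrec_natCast.comp Primrec.snd)).of_eq
    fun x => (Rat.mkRat_eq_div x.1 x.2).symm

/-- The loader coordinate of the unary input `n`. -/
theorem primrec_loader (al be D c : ℚ) : Primrec fun n : ℕ => (al + be / D ^ n) / c :=
  primrec_div.comp (primrec_add.comp (Primrec.const al)
    (primrec_div.comp (Primrec.const be) (primrec_pow.comp (Primrec.const D) Primrec.id)))
    (Primrec.const c)

end Vale.Agent.P113Z.RatPrim
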