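import Vale.Agent.P113Z.RegCore

/-!
# The register program of a reversible block-affine system with finitely many windows and rules
-/

namespace Vale.Agent.P113Z

/-- From a reversible block-affine system whose orbit number `n` meets a halting window pair
exactly when `P n` holds, to a program of seven shears whose orbit number `n` reaches height `3/4`
when `P n` holds and stays in the cube `[0, 1/2]³` otherwise. -/
theorem regProg_of_aff (P : ℕ → Prop) (K m : ℕ) (lam a mu b : Fin m → ℚ)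
    (lam_pos : ∀ i, 0 < lam i) (mu_pos : ∀ i, 0 < mu i)
    (lev : Fin K → Fin K → Option (Fin m)) (back : Fin K → Fin K → Fin m)
    (xi yi : ℕ → ℚ)
    (H : ∀ n, ∃ (x y : ℕ → ℚ) (u v : ℕ → Fin K), x 0 = xi n ∧ y 0 = yi n ∧
      (∀ k, ((4 * ((u k : ℕ) : ℚ) + 1 ≤ x k ∧ x k ≤ 4 * ((u k : ℕ) : ℚ) + 3) ∧
        (4 * ((v k : ℕ) : ℚ) + 1 ≤ y k ∧ y k ≤ 4 * ((v k : ℕ) : ℚ) + 3))) ∧
      (∀ k i, lev (u k) (v k) = some i → x (k + 1) = lam i * x k + a i ∧
        y (k + 1) = mu i * y k + b i ∧ back (u (k + 1)) (v (k + 1)) = i) ∧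
      ((∃ k, lev (u k) (v k) = none) ↔ P n)) :
    ∃ (N : ℕ) (dir : ℕ → Fin 3) (d : ℕ → ℕ → ℕ → ℚ × ℚ × ℚ), 0 < N ∧
      ∀ F : ℕ → ℝ → ℝ → ℝ, (∀ j < 7, Realizes N (d j) (F j)) →
        ∀ (n : ℕ) (p : ℕ → Fin 3 → ℝ),
          p 0 = ![((xi n / (8 * N) : ℚ) : ℝ), ((yi n / (8 * N) : ℚ) : ℝ), 0] →
          (∀ k, p (k + 1) = shear (dir (k % 7)) (F (k % 7)) (p k)) →
          (P n → ∃ k, p k 2 = 3 / 4) ∧ (¬ P n → ∀ k c, 0 ≤ p k c ∧ p k c ≤ 1 / 2) := by
  classical
  let ext : (Fin m → ℚ) → ℕ → ℚ := fun g i => if h : i < m then g ⟨i, h⟩ else 1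
  have hext : ∀ (g : Fin m → ℚ) (i : Fin m), ext g i = g i := fun g i => by simp [ext]
  let lev' : ℕ → ℕ → Option ℕ := fun s t =>
    if h : s < K ∧ t < K then (lev ⟨s, h.1⟩ ⟨t, h.2⟩).map Fin.val else none
  have hlev : ∀ s t : Fin K, lev' s t = (lev s t).map Fin.val := fun s t => by simp [lev']
  let back' : ℕ → ℕ → ℕ := fun s t =>
    if h : s < K ∧ t < K then (back ⟨s, h.1⟩ ⟨t, h.2⟩ : ℕ) else 0
  have hback : ∀ s t : Fin K, back' s t = back s t := fun s t => by simp [back']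
  refine ⟨K + m + 1, regDir, regData (K + m + 1) (ext lam) (ext a) (ext mu) (ext b) lev' back',
    Nat.succ_pos _, ?_⟩
  intro F hF n p hp0 hp
  obtain ⟨x, y, u, v, hx0, hy0, hw, hs, hiff⟩ := H n
  have core := regProg_core hF (fun k => (x k : ℝ)) (fun k => (y k : ℝ)) (fun k => u k)
    (fun k => v k) (fun k => by have := (u k).2; omega) (fun k => by have := (v k).2; omega)
    (fun k => ⟨by exact_mod_cast (hw k).1.1, by exact_mod_cast (hw k).1.2⟩)
    (fun k => ⟨by exact_mod_cast (hw k).2.1, by exact_mod_cast (hw k).2.2⟩)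
    (fun k i hi => by
      rw [hlev, Option.map_eq_some_iff] at hi
      obtain ⟨i', hi', rfl⟩ := hi
      obtain ⟨e1, e2, e3⟩ := hs k i' hi'
      refine ⟨by have := i'.2; omega, ?_, ?_, ?_, ?_, ?_⟩
      · rw [hext]; exact (lam_pos i').ne'
      · rw [hext]; exact (mu_pos i').ne'
      · rw [hext, hext, e1]; push_cast; ring
      · rw [hext, hext, e2]; push_cast; ring
      · rw [hback, e3])
    p (by rw [hp0, hx0, hy0]; push_cast; rfl) hp
  constructor
  · intro hP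
    obtain ⟨k, hk⟩ := hiff.2 hP
    exact core.1 ⟨k, by rw [hlev, hk]; rfl⟩
  · intro hP
    refine core.2 fun k hk => hP (hiff.1 ⟨k, ?_⟩)
    rw [hlev] at hk
    simpa using hk

end Vale.Agent.P113Z
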