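import Vale.Agent.P113Z.AffSys
import Vale.Agent.P113Z.RegProg

/-!
The register program of a recursively enumerable set.
-/

namespace Vale.Agent.P113Z

theorem exists_regProg (P : ℕ → Prop) (hP : REPred P) :
    ∃ (N : ℕ) (dir : ℕ → Fin 3) (d : ℕ → ℕ → ℕ → ℚ × ℚ × ℚ) (x₀ al be : ℚ) (D : ℕ),
      0 < N ∧ 0 < D ∧
      ∀ F : ℕ → ℝ → ℝ → ℝ, (∀ j < 7, Realizes N (d j) (F j)) →
        ∀ (n : ℕ) (p : ℕ → Fin 3 → ℝ),
          p 0 = ![(x₀ : ℝ), ((al + be / (D : ℚ) ^ n : ℚ) : ℝ), 0] →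
          (∀ k, p (k + 1) = shear (dir (k % 7)) (F (k % 7)) (p k)) →
          (P n → ∃ k, p k 2 = 3 / 4) ∧ (¬ P n → ∀ k c, 0 ≤ p k c ∧ p k c ≤ 1 / 2) := by
  obtain ⟨T, x₀, al, be, D, hD, H⟩ := exists_affSys P hP
  obtain ⟨N, dir, d, hN, h⟩ := regProg_of_aff P T.K T.m T.lam T.a T.mu T.b T.lam_pos T.mu_pos
    T.lev T.back (fun _ => x₀) (fun n => al + be / (D : ℚ) ^ n) H
  refine ⟨N, dir, d, x₀ / (8 * N), al / (8 * N), be / (8 * N), D, hN, hD, fun F hF n p hp => ?_⟩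
  refine h F hF n p ?_
  rw [hp]
  congr 3
  ring

end Vale.Agent.P113Z
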