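import Mathlib.Data.Real.Basic
import Mathlib.Data.Fin.VecNotation
import Mathlib.Tactic.Linarith
import Mathlib.Tactic.FieldSimp
import Mathlib.Tactic.Ring
import Mathlib.Tactic.Positivity
import Mathlib.Tactic.FinCases
import Mathlib.Tactic.IntervalCases
import Mathlib.Tactic.Push
import Mathlib.Algebra.Order.Field.Basic
import Mathlib.Data.Rat.Cast.Order

/-!
# A reversible block-affine map of two registers as seven shears of three registers

The registers are the coordinates `x, y, z` of a point of `ℝ³`.  A shear adds to one coordinate a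
function of the other two.  One step `(x, y) ↦ (lam i * x + a i, mu i * y + b i)` of a block-affine
system whose block `i` can be read both from the windows of `(x, y)` and from the windows of the
image is written as seven shears from `(x, y, 0)` to `(x', y', 0)`, each by a function that is
affine on every pair of windows.
-/

namespace Vale.Agent.P113Z

/-- The window number `u` at scale `N`. -/
def RWin (N u : ℕ) (s : ℝ) : Prop :=
  (4 * u + 1) / (8 * N) ≤ s ∧ s ≤ (4 * u + 3) / (8 * N)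

/-- `F` is affine with coefficients `d u v` on the product of the windows `u` and `v`. -/
def Realizes (N : ℕ) (d : ℕ → ℕ → ℚ × ℚ × ℚ) (F : ℝ → ℝ → ℝ) : Prop :=
  ∀ u < N, ∀ v < N, ∀ s t : ℝ, RWin N u s → RWin N v t →
    F s t = (d u v).1 * s + (d u v).2.1 * t + (d u v).2.2

/-- Add to coordinate `i` a function of the two other coordinates (in cyclic order). -/
def shear (i : Fin 3) (F : ℝ → ℝ → ℝ) (p : Fin 3 → ℝ) : Fin 3 → ℝ :=
  Function.update p i (p i + F (p (i + 1)) (p (i + 2)))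

theorem shear_zero (F : ℝ → ℝ → ℝ) (x y z : ℝ) :
    shear 0 F ![x, y, z] = ![x + F y z, y, z] := by
  funext j; fin_cases j <;> simp [shear]

theorem shear_one (F : ℝ → ℝ → ℝ) (x y z : ℝ) :
    shear 1 F ![x, y, z] = ![x, y + F z x, z] := by
  funext j; fin_cases j <;> simp [shear]

theorem shear_two (F : ℝ → ℝ → ℝ) (x y z : ℝ) :
    shear 2 F ![x, y, z] = ![x, y, z + F x y] := by
  funext j; fin_cases j <;> simp [shear]

/-- Directions of the seven shears. -/
def regDir (j : ℕ) : Fin 3 :=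
  if j = 1 ∨ j = 5 then 0 else if j = 3 then 1 else 2

/-- Affine coefficients of the seven shears. -/
def regData (N : ℕ) (lam a mu b : ℕ → ℚ) (lev : ℕ → ℕ → Option ℕ) (back : ℕ → ℕ → ℕ)
    (j u v : ℕ) : ℚ × ℚ × ℚ :=
  if j = 0 then
    (match lev u v with
      | some i => (1 / (2 * N), 0, (4 * i + 1) / (8 * N))
      | none => (0, 0, 3 / 4))
  else if j = 1 then
    (0, lam v - 2 * N, ((4 * v + 1) + a v / (2 * N) - (lam v - 2 * N) * (4 * v + 1)) / (8 * N))
  else if j = 2 then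
    (-1 / lam u, 1 / (2 * N), (((4 * u + 1) + a u / (2 * N)) / lam u) / (8 * N))
  else if j = 3 then
    ((mu u - 1) * (2 * N), 0, (b u - (mu u - 1) * (2 * N) * (4 * u + 1)) / (8 * N))
  else if j = 4 then
    (2 * N, -(1 / (2 * N)) / mu u,
      (-(4 * u + 1) * (2 * N) - (4 * u + 1) + b u / (2 * N) / mu u) / (8 * N))
  else if j = 5 then
    (0, 1 - 1 / (2 * N), -(4 * (back v u : ℚ) + 1) / (8 * N))
  else (-1, 0, 0)

theorem rwin_scale {N u : ℕ} (hN : 0 < N) {x : ℝ} (h1 : 4 * (u : ℝ) + 1 ≤ x)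
    (h2 : x ≤ 4 * (u : ℝ) + 3) : RWin N u (x / (8 * N)) := by
  have : (0 : ℝ) < 8 * N := by positivity
  exact ⟨div_le_div_of_nonneg_right h1 this.le, div_le_div_of_nonneg_right h2 this.le⟩

theorem rwin_bound {N u : ℕ} (hu : u < N) {s : ℝ} (h : RWin N u s) : 0 ≤ s ∧ s ≤ 1 / 2 := by
  have hN : (0 : ℝ) < N := by exact_mod_cast (Nat.zero_le u).trans_lt hu
  have hu' : (u : ℝ) + 1 ≤ N := by exact_mod_cast hu
  refine ⟨le_trans (by positivity) h.1, h.2.trans ?_⟩
  rw [div_le_iff₀ (by positivity)]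
  linarith

/-- A point `x` in some window below `N` gives a point `c i + x / (2 N)` of the window `i`. -/
theorem rwin_tag {N u : ℕ} (i : ℕ) (hu : u < N) {x : ℝ} (h1 : 4 * (u : ℝ) + 1 ≤ x)
    (h2 : x ≤ 4 * (u : ℝ) + 3) : RWin N i ((4 * (i : ℝ) + 1 + x / (2 * N)) / (8 * N)) := by
  have hN0 : 0 < N := (Nat.zero_le u).trans_lt hu
  have hN : (0 : ℝ) < N := by exact_mod_cast hN0
  have hu' : (u : ℝ) + 1 ≤ N := by exact_mod_cast hu
  have hu0 : (0 : ℝ) ≤ u := by positivity
  refine rwin_scale hN0 ?_ ?_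
  · have : 0 ≤ x / (2 * N) := div_nonneg (by linarith) (by positivity)
    linarith
  · have : x / (2 * N) ≤ 2 := by
      rw [div_le_iff₀ (by positivity)]
      linarith
    linarith

/-- The seven intermediate points of one step. -/
noncomputable def regPoint (N i : ℕ) (x y x' y' : ℝ) (j : ℕ) : Fin 3 → ℝ :=
  if j = 0 then ![x / (8 * N), y / (8 * N), 0]
  else if j = 1 then ![x / (8 * N), y / (8 * N), (4 * (i : ℝ) + 1 + x / (2 * N)) / (8 * N)]
  else if j = 2 then ![(4 * (i : ℝ) + 1 + x' / (2 * N)) / (8 * N), y / (8 * N),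
    (4 * (i : ℝ) + 1 + x / (2 * N)) / (8 * N)]
  else if j = 3 then ![(4 * (i : ℝ) + 1 + x' / (2 * N)) / (8 * N), y / (8 * N),
    (4 * (i : ℝ) + 1 + y / (2 * N)) / (8 * N)]
  else if j = 4 then ![(4 * (i : ℝ) + 1 + x' / (2 * N)) / (8 * N), y' / (8 * N),
    (4 * (i : ℝ) + 1 + y / (2 * N)) / (8 * N)]
  else if j = 5 then ![(4 * (i : ℝ) + 1 + x' / (2 * N)) / (8 * N), y' / (8 * N), x' / (8 * N)]
  else if j = 6 then ![x' / (8 * N), y' / (8 * N), x' / (8 * N)]
  else ![x' / (8 * N), y' / (8 * N), 0]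

section Step

variable {N : ℕ} {lam a mu b : ℕ → ℚ} {lev : ℕ → ℕ → Option ℕ} {back : ℕ → ℕ → ℕ}
  {F : ℕ → ℝ → ℝ → ℝ}

/-- In a halting window pair the first shear lifts the point to height `3/4`. -/
theorem reg_halt (hF : ∀ j < 7, Realizes N (regData N lam a mu b lev back j) (F j))
    {u v : ℕ} (hu : u < N) (hv : v < N) {x y : ℝ}
    (hx : 4 * (u : ℝ) + 1 ≤ x ∧ x ≤ 4 * (u : ℝ) + 3)
    (hy : 4 * (v : ℝ) + 1 ≤ y ∧ y ≤ 4 * (v : ℝ) + 3) (hl : lev u v = none) :
    shear (regDir 0) (F 0) ![x / (8 * N), y / (8 * N), 0] 2 = 3 / 4 := by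
  have hN0 : 0 < N := (Nat.zero_le u).trans_lt hu
  have h := hF 0 (by norm_num) u hu v hv _ _ (rwin_scale hN0 hx.1 hx.2) (rwin_scale hN0 hy.1 hy.2)
  have hd : regDir 0 = 2 := by simp [regDir]
  rw [hd, shear_two]
  simp [h, regData, hl]

/-- The seven shears of a running step. -/
theorem reg_step (hF : ∀ j < 7, Realizes N (regData N lam a mu b lev back j) (F j))
    {u v u' v' i : ℕ} (hu : u < N) (hv : v < N) (hu' : u' < N) (hv' : v' < N) (hi : i < N)
    {x y x' y' : ℝ}
    (hx : 4 * (u : ℝ) + 1 ≤ x ∧ x ≤ 4 * (u : ℝ) + 3)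
    (hy : 4 * (v : ℝ) + 1 ≤ y ∧ y ≤ 4 * (v : ℝ) + 3)
    (hx' : 4 * (u' : ℝ) + 1 ≤ x' ∧ x' ≤ 4 * (u' : ℝ) + 3)
    (hy' : 4 * (v' : ℝ) + 1 ≤ y' ∧ y' ≤ 4 * (v' : ℝ) + 3)
    (hl : lev u v = some i) (hb : back u' v' = i) (hlam : lam i ≠ 0) (hmu : mu i ≠ 0)
    (ex : x' = lam i * x + a i) (ey : y' = mu i * y + b i) (j : ℕ) (hj : j < 7) :
    shear (regDir j) (F j) (regPoint N i x y x' y' j) = regPoint N i x y x' y' (j + 1) := by
  have hN0 : 0 < N := (Nat.zero_le u).trans_lt hu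
  have hN : (N : ℝ) ≠ 0 := by exact_mod_cast hN0.ne'
  have hlam' : (lam i : ℝ) ≠ 0 := by exact_mod_cast hlam
  have hmu' : (mu i : ℝ) ≠ 0 := by exact_mod_cast hmu
  have wx := rwin_scale hN0 hx.1 hx.2
  have wy := rwin_scale hN0 hy.1 hy.2
  have wx' := rwin_scale hN0 hx'.1 hx'.2
  have wy' := rwin_scale hN0 hy'.1 hy'.2
  have tx := rwin_tag i hu hx.1 hx.2
  have ty := rwin_tag i hv hy.1 hy.2
  have tx' := rwin_tag i hu' hx'.1 hx'.2
  interval_cases j
  · have h := hF 0 (by norm_num) u hu v hv _ _ wx wy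
    have hd : regDir 0 = 2 := by simp [regDir]
    simp only [regPoint, hd]
    norm_num
    rw [shear_two, h]
    simp only [regData, hl]
    congr 3
    push_cast
    field_simp
    ring
  · have h := hF 1 (by norm_num) v hv i hi _ _ wy tx
    have hd : regDir 1 = 0 := by simp [regDir]
    simp only [regPoint, hd]
    norm_num
    rw [shear_zero, h]
    simp only [regData]
    norm_num
    rw [ex]
    field_simp
    ring
  · have h := hF 2 (by norm_num) i hi v hv _ _ tx' wy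
    have hd : regDir 2 = 2 := by simp [regDir]
    simp only [regPoint, hd]
    norm_num
    rw [shear_two, h]
    simp only [regData]
    norm_num
    rw [ex]
    field_simp
    ring
  · have h := hF 3 (by norm_num) i hi i hi _ _ ty tx'
    have hd : regDir 3 = 1 := by simp [regDir]
    simp only [regPoint, hd]
    norm_num
    rw [shear_one, h]
    simp only [regData]
    norm_num
    rw [ey]
    field_simp
    ring
  · have h := hF 4 (by norm_num) i hi v' hv' _ _ tx' wy'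
    have hd : regDir 4 = 2 := by simp [regDir]
    simp only [regPoint, hd]
    norm_num
    rw [shear_two, h]
    simp only [regData]
    norm_num
    rw [ey]
    field_simp
    ring
  · have h := hF 5 (by norm_num) v' hv' u' hu' _ _ wy' wx'
    have hd : regDir 5 = 0 := by simp [regDir]
    simp only [regPoint, hd]
    norm_num
    rw [shear_zero, h]
    simp only [regData, hb]
    norm_num
    field_simp
    ring
  · have h := hF 6 (by norm_num) u' hu' v' hv' _ _ wx' wy'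
    have hd : regDir 6 = 2 := by simp [regDir]
    simp only [regPoint, hd]
    norm_num
    rw [shear_two, h]
    simp only [regData]
    norm_num

/-- All intermediate points lie in the cube `[0, 1/2]³`. -/
theorem regPoint_mem {u v u' v' i : ℕ} (hu : u < N) (hv : v < N) (hu' : u' < N) (hv' : v' < N)
    (hi : i < N) {x y x' y' : ℝ}
    (hx : 4 * (u : ℝ) + 1 ≤ x ∧ x ≤ 4 * (u : ℝ) + 3)
    (hy : 4 * (v : ℝ) + 1 ≤ y ∧ y ≤ 4 * (v : ℝ) + 3)
    (hx' : 4 * (u' : ℝ) + 1 ≤ x' ∧ x' ≤ 4 * (u' : ℝ) + 3)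
    (hy' : 4 * (v' : ℝ) + 1 ≤ y' ∧ y' ≤ 4 * (v' : ℝ) + 3) (j : ℕ) (c : Fin 3) :
    0 ≤ regPoint N i x y x' y' j c ∧ regPoint N i x y x' y' j c ≤ 1 / 2 := by
  have hN0 : 0 < N := (Nat.zero_le u).trans_lt hu
  have wx := rwin_bound hu (rwin_scale hN0 hx.1 hx.2)
  have wy := rwin_bound hv (rwin_scale hN0 hy.1 hy.2)
  have wx' := rwin_bound hu' (rwin_scale hN0 hx'.1 hx'.2)
  have wy' := rwin_bound hv' (rwin_scale hN0 hy'.1 hy'.2)
  have tx := rwin_bound hi (rwin_tag i hu hx.1 hx.2)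
  have ty := rwin_bound hi (rwin_tag i hv hy.1 hy.2)
  have tx' := rwin_bound hi (rwin_tag i hu' hx'.1 hx'.2)
  have h0 : (0 : ℝ) ≤ 0 ∧ (0 : ℝ) ≤ 1 / 2 := ⟨le_rfl, by norm_num⟩
  unfold regPoint
  split_ifs <;> fin_cases c <;> assumption

end Step

/-- The register program of a reversible block-affine system: core form, indices in `ℕ`. -/
theorem regProg_core {N : ℕ} {lam a mu b : ℕ → ℚ} {lev : ℕ → ℕ → Option ℕ} {back : ℕ → ℕ → ℕ}
    {F : ℕ → ℝ → ℝ → ℝ} (hF : ∀ j < 7, Realizes N (regData N lam a mu b lev back j) (F j))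
    (x y : ℕ → ℝ) (u v : ℕ → ℕ) (hu : ∀ k, u k < N) (hv : ∀ k, v k < N)
    (hx : ∀ k, 4 * (u k : ℝ) + 1 ≤ x k ∧ x k ≤ 4 * (u k : ℝ) + 3)
    (hy : ∀ k, 4 * (v k : ℝ) + 1 ≤ y k ∧ y k ≤ 4 * (v k : ℝ) + 3)
    (hstep : ∀ k i, lev (u k) (v k) = some i → i < N ∧ lam i ≠ 0 ∧ mu i ≠ 0 ∧
      x (k + 1) = lam i * x k + a i ∧ y (k + 1) = mu i * y k + b i ∧
      back (u (k + 1)) (v (k + 1)) = i)
    (p : ℕ → Fin 3 → ℝ) (hp0 : p 0 = ![x 0 / (8 * N), y 0 / (8 * N), 0])
    (hp : ∀ n, p (n + 1) = shear (regDir (n % 7)) (F (n % 7)) (p n)) :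
    ((∃ k, lev (u k) (v k) = none) → ∃ n, p n 2 = 3 / 4) ∧
      ((∀ k, lev (u k) (v k) ≠ none) → ∀ n c, 0 ≤ p n c ∧ p n c ≤ 1 / 2) := by
  -- one period
  have period : ∀ k i, lev (u k) (v k) = some i →
      p (7 * k) = ![x k / (8 * N), y k / (8 * N), 0] →
      ∀ j ≤ 7, p (7 * k + j) = regPoint N i (x k) (y k) (x (k + 1)) (y (k + 1)) j := by
    intro k i hl h0 j hj
    obtain ⟨hi, hlam, hmu, ex, ey, hb⟩ := hstep k i hl
    induction j with
    | zero => simpa [regPoint] using h0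
    | succ j ih =>
      have hj' : j < 7 := hj
      have hm : (7 * k + j) % 7 = j := by omega
      rw [← add_assoc, hp, hm, ih hj'.le]
      exact reg_step hF (hu k) (hv k) (hu (k + 1)) (hv (k + 1)) hi (hx k) (hy k) (hx (k + 1))
        (hy (k + 1)) hl hb hlam hmu ex ey j hj'
  have run : ∀ k, (∀ l < k, lev (u l) (v l) ≠ none) →
      p (7 * k) = ![x k / (8 * N), y k / (8 * N), 0] := by
    intro k
    induction k with
    | zero => intro _; simpa using hp0
    | succ k ih =>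
      intro h
      obtain ⟨i, hi⟩ := Option.ne_none_iff_exists'.1 (h k (Nat.lt_succ_self k))
      have := period k i hi (ih fun l hl => h l (hl.trans (Nat.lt_succ_self k))) 7 le_rfl
      rw [show 7 * (k + 1) = 7 * k + 7 by ring, this]
      simp [regPoint]
  constructor
  · intro hex
    classical
    have hk := Nat.find_spec hex
    have hlt : ∀ l < Nat.find hex, lev (u l) (v l) ≠ none := fun l hl => Nat.find_min hex hl
    refine ⟨7 * Nat.find hex + 1, ?_⟩
    have hm : (7 * Nat.find hex) % 7 = 0 := by omega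
    rw [hp, hm, run _ hlt]
    exact reg_halt hF (hu _) (hv _) (hx _) (hy _) hk
  · intro hall n c
    obtain ⟨i, hi⟩ := Option.ne_none_iff_exists'.1 (hall (n / 7))
    have h := period (n / 7) i hi (run _ fun l _ => hall l) (n % 7) (by omega)
    rw [Nat.div_add_mod] at h
    rw [h]
    exact regPoint_mem (hu _) (hv _) (hu _) (hv _) (hstep _ _ hi).1 (hx _) (hy _) (hx _) (hy _) _ _

end Vale.Agent.P113Z
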