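import Vale.Agent.P113Z.Bump
import Mathlib.Analysis.Calculus.MeanValue
import Mathlib.Analysis.Calculus.Deriv.Pi
import Mathlib.Analysis.Calculus.Deriv.Prod
import Mathlib.Analysis.Convex.Segment

/-! Trajectories of a sequence of time-disjoint shears. -/

open scoped ContDiff Topology
open Set Filter

namespace Vale.Agent.P113Z

/-- unit-mass time profile supported in `[0,1]`. -/
noncomputable def phi (s : ℝ) : ℝ := 2 / kappa * rho (2 * s - 1)
/-- its primitive, a smooth step from `0` to `1`. -/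
noncomputable def stp (s : ℝ) : ℝ := sigma (2 * s - 1) / kappa

theorem phi_of_le {s : ℝ} (h : s ≤ 0) : phi s = 0 := by
  unfold phi; rw [rho_of_le (by linarith), mul_zero]

theorem phi_of_ge {s : ℝ} (h : 1 ≤ s) : phi s = 0 := by
  unfold phi; rw [rho_of_ge (by linarith), mul_zero]

theorem stp_of_le {s : ℝ} (h : s ≤ 0) : stp s = 0 := by
  unfold stp; rw [sigma_of_le (by linarith), zero_div]

theorem stp_of_ge {s : ℝ} (h : 1 ≤ s) : stp s = 1 := by
  unfold stp; rw [sigma_of_ge (by linarith), div_self kappa_pos.ne']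

theorem stp_nonneg (s : ℝ) : 0 ≤ stp s := div_nonneg (sigma_nonneg _) kappa_pos.le

theorem stp_le_one (s : ℝ) : stp s ≤ 1 := (div_le_one kappa_pos).2 (sigma_le_kappa _)

theorem stp_hasDerivAt (s : ℝ) : HasDerivAt stp (phi s) s := by
  have h1 : HasDerivAt (fun s : ℝ => 2 * s - 1) 2 s := by
    simpa using ((hasDerivAt_id s).const_mul 2).sub_const 1
  have h2 := ((sigma_hasDerivAt (2 * s - 1)).comp s h1).div_const kappa
  exact h2.congr_deriv (by unfold phi; ring)

theorem stp_window_hasDerivAt (N : ℝ) (k : ℝ) (t : ℝ) :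
    HasDerivAt (fun t => stp (N * t - k)) (N * phi (N * t - k)) t := by
  have h1 : HasDerivAt (fun t : ℝ => N * t - k) N t := by
    simpa using ((hasDerivAt_id t).const_mul N).sub_const k
  have h2 := (stp_hasDerivAt (N * t - k)).comp t h1
  exact h2.congr_deriv (by ring)

/-- A vector field that moves only the coordinates in `J` and does not depend on them. -/
structure IsShear (J : Set (Fin 3)) (W : (Fin 3 → ℝ) → Fin 3 → ℝ) : Prop where
  zero : ∀ x j, j ∉ J → W x j = 0
  indep : ∀ x y, (∀ j, j ∉ J → x j = y j) → W x = W y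

theorem IsShear.add_smul {J : Set (Fin 3)} {W : (Fin 3 → ℝ) → Fin 3 → ℝ} (h : IsShear J W)
    (x y : Fin 3 → ℝ) (c : ℝ) : W (x + c • W y) = W x :=
  h.indep _ _ fun j hj => by simp [h.zero y j hj]

/-- The discrete orbit of the register program. -/
def orbit (V : ℕ → (Fin 3 → ℝ) → Fin 3 → ℝ) (a : Fin 3 → ℝ) : ℕ → Fin 3 → ℝ
  | 0 => a
  | k + 1 => orbit V a k + V k (orbit V a k)

theorem orbit_eq_sum (V : ℕ → (Fin 3 → ℝ) → Fin 3 → ℝ) (a : Fin 3 → ℝ) (k : ℕ) :
    orbit V a k = a + ∑ m ∈ Finset.range k, V m (orbit V a m) := by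
  induction k with
  | zero => simp [orbit]
  | succ k ih => rw [Finset.sum_range_succ, ← add_assoc, ← ih, orbit]

section

variable {N : ℕ} {V : ℕ → (Fin 3 → ℝ) → Fin 3 → ℝ} {J : ℕ → Set (Fin 3)}
  {u : ℝ → (Fin 3 → ℝ) → Fin 3 → ℝ}

theorem window_unique (hN : 0 < N) {W : (Fin 3 → ℝ) → Fin 3 → ℝ} {J : Set (Fin 3)}
    (hW : IsShear J W) (k : ℕ)
    (hu : ∀ t ∈ Icc ((k : ℝ) / N) ((k + 1) / N), ∀ x, u t x = (N * phi (N * t - k)) • W x)
    {X : ℝ → Fin 3 → ℝ} (hc : ContinuousOn X (Icc ((k : ℝ) / N) ((k + 1) / N)))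
    (hd : ∀ t ∈ Ico ((k : ℝ) / N) ((k + 1) / N), HasDerivWithinAt X (u t (X t)) (Ici t) t) :
    ∀ t ∈ Icc ((k : ℝ) / N) ((k + 1) / N),
      X t = X (k / N) + stp (N * t - k) • W (X (k / N)) := by
  have hN' : (N : ℝ) ≠ 0 := by positivity
  have hconst : ∀ j, j ∉ J → ∀ t ∈ Icc ((k : ℝ) / N) ((k + 1) / N), X t j = X (k / N) j := by
    intro j hj
    apply constant_of_has_deriv_right_zero (f := fun t => X t j)
    · exact (continuous_apply j).comp_continuousOn hc
    · intro t ht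
      have := (hasDerivWithinAt_pi.1 (hd t ht)) j
      rw [hu t (Ico_subset_Icc_self ht)] at this
      simpa [hW.zero _ j hj] using this
  have hWc : ∀ t ∈ Icc ((k : ℝ) / N) ((k + 1) / N), W (X t) = W (X (k / N)) :=
    fun t ht => hW.indep _ _ fun j hj => hconst j hj t ht
  have key : ∀ t ∈ Icc ((k : ℝ) / N) ((k + 1) / N),
      X t - stp (N * t - k) • W (X (k / N))
        = X (k / N) - stp (N * (k / N) - k) • W (X (k / N)) := by
    apply constant_of_has_deriv_right_zero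
      (f := fun t => X t - stp (N * t - k) • W (X (k / N)))
    · refine hc.sub (Continuous.continuousOn ?_)
      exact (continuous_iff_continuousAt.2 fun t =>
        (stp_window_hasDerivAt N k t).continuousAt).smul continuous_const
    · intro t ht
      have h1 := hd t ht
      rw [hu t (Ico_subset_Icc_self ht), hWc t (Ico_subset_Icc_self ht)] at h1
      have h2 := ((stp_window_hasDerivAt N k t).smul_const (W (X (k / N)))).hasDerivWithinAt
        (s := Ici t)
      exact (h1.fun_sub h2).congr_deriv (sub_self _)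
  intro t ht
  have h0 : stp ((N : ℝ) * (k / N) - k) = 0 := stp_of_le (by field_simp; simp)
  have := key t ht
  rw [h0, zero_smul, sub_zero] at this
  exact sub_eq_iff_eq_add.1 this

/-- Every trajectory from `a` follows the discrete orbit, window by window. -/
theorem traj_formula (hN : 0 < N) (hV : ∀ k, IsShear (J k) (V k))
    (hu : ∀ k : ℕ, ∀ t ∈ Icc ((k : ℝ) / N) ((k + 1) / N), ∀ x,
      u t x = (N * phi (N * t - k)) • V k x)
    {a : Fin 3 → ℝ} {X : ℝ → Fin 3 → ℝ} (h0 : X 0 = a) (hc : ContinuousOn X (Ici 0))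
    (hd : ∀ t, 0 ≤ t → HasDerivWithinAt X (u t (X t)) (Ici t) t) (k : ℕ) :
    ∀ t ∈ Icc ((k : ℝ) / N) ((k + 1) / N),
      X t = orbit V a k + stp (N * t - k) • V k (orbit V a k) := by
  have hN' : (0 : ℝ) < N := by positivity
  have hw : ∀ k : ℕ, ∀ t ∈ Icc ((k : ℝ) / N) ((k + 1) / N),
      X t = X (k / N) + stp (N * t - k) • V k (X (k / N)) := fun k =>
    window_unique hN (hV k) k (hu k)
      (hc.mono fun t ht => le_trans (by positivity) ht.1)
      (fun t ht => hd t (le_trans (by positivity) ht.1))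
  have hk : ∀ k : ℕ, X (k / N) = orbit V a k := by
    intro k
    induction k with
    | zero => simpa [orbit] using h0
    | succ k ih =>
      have := hw k ((k + 1) / N) ⟨by gcongr; linarith, le_rfl⟩
      rw [stp_of_ge (by field_simp; simp), one_smul, ih] at this
      push_cast
      rw [this, orbit]
  intro t ht
  rw [hw k t ht, hk k]

theorem exists_window (hN : 0 < N) {t : ℝ} (ht : 0 ≤ t) :
    t ∈ Icc ((⌊N * t⌋₊ : ℝ) / N) ((⌊N * t⌋₊ + 1) / N) := by
  have hN' : (0 : ℝ) < N := by positivity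
  constructor
  · rw [div_le_iff₀ hN', mul_comm]
    exact Nat.floor_le (by positivity)
  · rw [le_div_iff₀ hN', mul_comm]
    exact (Nat.lt_floor_add_one _).le

/-- Every point of a trajectory lies on a segment between consecutive orbit points. -/
theorem traj_mem_segment (hN : 0 < N) (hV : ∀ k, IsShear (J k) (V k))
    (hu : ∀ k : ℕ, ∀ t ∈ Icc ((k : ℝ) / N) ((k + 1) / N), ∀ x,
      u t x = (N * phi (N * t - k)) • V k x)
    {a : Fin 3 → ℝ} {X : ℝ → Fin 3 → ℝ} (h0 : X 0 = a) (hc : ContinuousOn X (Ici 0))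
    (hd : ∀ t, 0 ≤ t → HasDerivWithinAt X (u t (X t)) (Ici t) t) {t : ℝ} (ht : 0 ≤ t) :
    ∃ k, X t ∈ segment ℝ (orbit V a k) (orbit V a (k + 1)) := by
  refine ⟨⌊N * t⌋₊, ?_⟩
  rw [traj_formula hN hV hu h0 hc hd _ t (exists_window hN ht), segment_eq_image']
  exact ⟨stp (N * t - ⌊N * t⌋₊), ⟨stp_nonneg _, stp_le_one _⟩, by simp [orbit]⟩

/-- Every orbit point is visited. -/
theorem traj_visits (hN : 0 < N) (hV : ∀ k, IsShear (J k) (V k))
    (hu : ∀ k : ℕ, ∀ t ∈ Icc ((k : ℝ) / N) ((k + 1) / N), ∀ x,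
      u t x = (N * phi (N * t - k)) • V k x)
    {a : Fin 3 → ℝ} {X : ℝ → Fin 3 → ℝ} (h0 : X 0 = a) (hc : ContinuousOn X (Ici 0))
    (hd : ∀ t, 0 ≤ t → HasDerivWithinAt X (u t (X t)) (Ici t) t) (k : ℕ) :
    X (k / N) = orbit V a k := by
  have hN' : (0 : ℝ) < N := by positivity
  rw [traj_formula hN hV hu h0 hc hd k (k / N) ⟨le_rfl, by gcongr; linarith⟩,
    stp_of_le (by field_simp; simp), zero_smul, add_zero]

/-- Existence of the trajectory, differentiable at every real time. -/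
theorem traj_exists (hN : 0 < N) (hV : ∀ k, IsShear (J k) (V k))
    (hu : ∀ k : ℕ, ∀ t ∈ Icc ((k : ℝ) / N) ((k + 1) / N), ∀ x,
      u t x = (N * phi (N * t - k)) • V k x) (a : Fin 3 → ℝ) :
    ∃ X : ℝ → Fin 3 → ℝ, X 0 = a ∧ ∀ t, 0 ≤ t → HasDerivAt X (u t (X t)) t := by
  have hN' : (0 : ℝ) < N := by positivity
  let D : ℕ → Fin 3 → ℝ := fun k => V k (orbit V a k)
  let Y : ℕ → ℝ → Fin 3 → ℝ := fun K t => a + ∑ k ∈ Finset.range K, stp (N * t - k) • D k
  have hY : ∀ (K : ℕ) (t : ℝ), ⌊N * t⌋₊ + 1 ≤ K → Y K t = Y (⌊N * t⌋₊ + 1) t := by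
    intro K t hK
    simp only [Y]
    congr 1
    symm
    apply Finset.sum_subset (Finset.range_subset_range.2 hK)
    intro k _ hk
    rw [stp_of_le, zero_smul]
    have h1 : ⌊N * t⌋₊ + 1 ≤ k := by simpa using hk
    have h2 : (⌊N * t⌋₊ + 1 : ℝ) ≤ k := by exact_mod_cast h1
    linarith [Nat.lt_floor_add_one (N * t)]
  have hval : ∀ t : ℝ, 0 ≤ t → Y (⌊N * t⌋₊ + 1) t
      = orbit V a ⌊N * t⌋₊ + stp (N * t - ⌊N * t⌋₊) • D ⌊N * t⌋₊ := by
    intro t ht
    simp only [Y]
    rw [Finset.sum_range_succ, orbit_eq_sum, add_assoc]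
    congr 2
    apply Finset.sum_congr rfl
    intro k hk
    rw [stp_of_ge, one_smul]
    have h1 : k + 1 ≤ ⌊N * t⌋₊ := Finset.mem_range.1 hk
    have h2 : (k + 1 : ℝ) ≤ ⌊N * t⌋₊ := by exact_mod_cast h1
    linarith [Nat.floor_le (show 0 ≤ (N : ℝ) * t by positivity)]
  refine ⟨fun t => Y (⌊N * t⌋₊ + 1) t, ?_, fun t ht => ?_⟩
  · simp [Y, stp_of_le]
  · have hev : (fun s => Y (⌊N * s⌋₊ + 1) s) =ᶠ[𝓝 t] Y (⌊N * t⌋₊ + 2) := by
      have ho : IsOpen {s : ℝ | N * s < ⌊N * t⌋₊ + 1 + 1} :=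
        isOpen_lt (by fun_prop) continuous_const
      filter_upwards [ho.mem_nhds (show N * t < ⌊N * t⌋₊ + 1 + 1 by
        linarith [Nat.lt_floor_add_one (N * t)])] with s hs
      symm
      apply hY
      have : ⌊N * s⌋₊ < ⌊N * t⌋₊ + 2 := by
        by_cases h : 0 ≤ N * s
        · rw [Nat.floor_lt h]; push_cast; simpa [add_assoc, one_add_one_eq_two] using hs
        · rw [Nat.floor_of_nonpos (not_le.1 h).le]; omega
      omega
    refine HasDerivAt.congr_of_eventuallyEq ?_ hev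
    have hder : HasDerivAt (Y (⌊N * t⌋₊ + 2))
        (∑ k ∈ Finset.range (⌊N * t⌋₊ + 2), (N * phi (N * t - k)) • D k) t := by
      apply HasDerivAt.const_add
      exact HasDerivAt.fun_sum fun k _ => (stp_window_hasDerivAt N k t).smul_const (D k)
    refine hder.congr_deriv ?_
    beta_reduce
    rw [hu _ t (exists_window hN ht), hval t ht, (hV _).add_smul, Finset.sum_eq_single ⌊N * t⌋₊]
    · intro k _ hk
      have h1 := Nat.floor_le (show 0 ≤ (N : ℝ) * t by positivity)
      have h2 := Nat.lt_floor_add_one (N * t)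
      rcases lt_or_gt_of_ne hk with h | h
      · have : (k + 1 : ℝ) ≤ ⌊N * t⌋₊ := by exact_mod_cast h
        rw [phi_of_ge (by linarith), mul_zero, zero_smul]
      · have : (⌊N * t⌋₊ + 1 : ℝ) ≤ k := by exact_mod_cast h
        rw [phi_of_le (by linarith), mul_zero, zero_smul]
    · intro h; simp at h

end

end Vale.Agent.P113Z
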