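import Vale.Agent.P113Z.BumpSpan
import Vale.Agent.P113Z.ShearFlow
import Vale.Agent.P113Z.RegCore
import Mathlib.Analysis.Calculus.LineDeriv.Basic
import Mathlib.Analysis.Calculus.Deriv.Shift

/-! The velocity field of a loader followed by periodically repeated shears, and its force. -/

open scoped ContDiff Topology
open Set Filter

namespace Vale.Agent.P113Z

/-- derivative along the coordinate `j` -/
noncomputable def pd (j : Fin 3) (G : (Fin 3 → ℝ) → ℝ) (x : Fin 3 → ℝ) : ℝ :=
  lineDeriv ℝ G x (Pi.single j 1)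

/-- a function of the two coordinates other than `i` -/
def lift (i : Fin 3) (G : ℝ → ℝ → ℝ) (x : Fin 3 → ℝ) : ℝ := G (x (i + 1)) (x (i + 2))

theorem pd_lift_self (i : Fin 3) (G : ℝ → ℝ → ℝ) : pd i (lift i G) = fun _ => 0 := by
  funext x
  have : (fun h : ℝ => lift i G (x + h • Pi.single i 1)) = fun _ => lift i G x := by
    funext h; fin_cases i <;> simp [lift]
  simp only [pd, lineDeriv, this, deriv_const]

theorem pd_lift_one (i : Fin 3) (G : ℝ → ℝ → ℝ) : pd (i + 1) (lift i G) = lift i (d1 G) := by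
  funext x
  have : (fun h : ℝ => lift i G (x + h • Pi.single (i + 1) 1))
      = fun h => (fun s => G s (x (i + 2))) (x (i + 1) + h) := by
    funext h; fin_cases i <;> simp [lift]
  simp only [pd, lineDeriv, this]
  rw [deriv_comp_const_add (fun s => G s (x (i + 2)))]
  simp [lift, d1]

theorem pd_lift_two (i : Fin 3) (G : ℝ → ℝ → ℝ) : pd (i + 2) (lift i G) = lift i (d2 G) := by
  funext x
  have : (fun h : ℝ => lift i G (x + h • Pi.single (i + 2) 1))
      = fun h => (fun s => G (x (i + 1)) s) (x (i + 2) + h) := by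
    funext h; fin_cases i <;> simp [lift]
  simp only [pd, lineDeriv, this]
  rw [deriv_comp_const_add (fun s => G (x (i + 1)) s)]
  simp [lift, d2]

theorem sum_cyc (i : Fin 3) (f : Fin 3 → ℝ) : ∑ j, f j = f i + f (i + 1) + f (i + 2) := by
  rw [Fin.sum_univ_three]
  fin_cases i <;> simp <;> ring

/-- planar Laplacian -/
noncomputable def lap2 (G : ℝ → ℝ → ℝ) (s t : ℝ) : ℝ := d1 (d1 G) s t + d2 (d2 G) s t

theorem Sp2.lap2 {G : ℝ → ℝ → ℝ} (h : Sp2 G) : Sp2 (lap2 G) := h.d1.d1.add h.d2.d2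

theorem lap_lift (i : Fin 3) (G : ℝ → ℝ → ℝ) (x : Fin 3 → ℝ) :
    ∑ j, pd j (pd j (lift i G)) x = lift i (lap2 G) x := by
  rw [sum_cyc i, pd_lift_self, pd_lift_one, pd_lift_one, pd_lift_two, pd_lift_two]
  simp [pd, lift, lap2, lineDeriv]

theorem d1_comb (c : ℝ) (s : Finset ℕ) (w : ℕ → ℝ) {F : ℕ → ℝ → ℝ → ℝ} (hF : ∀ j ∈ s, Sp2 (F j)) :
    d1 (fun a b => c + ∑ j ∈ s, w j * F j a b) = fun a b => 0 + ∑ j ∈ s, w j * d1 (F j) a b := by
  funext a b
  rw [zero_add]
  exact ((HasDerivAt.fun_sum fun j hj =>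
    ((hF j hj).hasDerivAt_fst a b).const_mul (w j)).const_add c).deriv

theorem d2_comb (c : ℝ) (s : Finset ℕ) (w : ℕ → ℝ) {F : ℕ → ℝ → ℝ → ℝ} (hF : ∀ j ∈ s, Sp2 (F j)) :
    d2 (fun a b => c + ∑ j ∈ s, w j * F j a b) = fun a b => 0 + ∑ j ∈ s, w j * d2 (F j) a b := by
  funext a b
  rw [zero_add]
  exact ((HasDerivAt.fun_sum fun j hj =>
    ((hF j hj).hasDerivAt_snd a b).const_mul (w j)).const_add c).deriv

theorem lap2_comb (c : ℝ) (s : Finset ℕ) (w : ℕ → ℝ) {F : ℕ → ℝ → ℝ → ℝ}
    (hF : ∀ j ∈ s, Sp2 (F j)) (a b : ℝ) :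
    lap2 (fun a b => c + ∑ j ∈ s, w j * F j a b) a b = ∑ j ∈ s, w j * lap2 (F j) a b := by
  unfold lap2
  rw [d1_comb c s w hF, d1_comb 0 s w fun j hj => (hF j hj).d1, d2_comb c s w hF,
    d2_comb 0 s w fun j hj => (hF j hj).d2]
  simp only [zero_add, ← Finset.sum_add_distrib, mul_add]

/-! ### Time profiles -/

/-- loader profile, supported in `[0, 1/N]` -/
noncomputable def lprof (N : ℕ) (t : ℝ) : ℝ := 2 * N / kappa * bR 0 0 (2 * N) 1 t
/-- derivative of the loader profile -/
noncomputable def lprof' (N : ℕ) (t : ℝ) : ℝ := 4 * N ^ 2 / kappa * bR 0 1 (2 * N) 1 t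
/-- periodic profile, supported in `[m/N, (m+1)/N] + ℤ` -/
noncomputable def tprof (N m : ℕ) (t : ℝ) : ℝ :=
  2 * N / kappa * per (bR 0 0 (2 * N) (2 * m + 1)) t
/-- derivative of the periodic profile -/
noncomputable def tprof' (N m : ℕ) (t : ℝ) : ℝ :=
  4 * N ^ 2 / kappa * per (bR 0 1 (2 * N) (2 * m + 1)) t

theorem lprof_hasDerivAt (N : ℕ) (t : ℝ) : HasDerivAt (lprof N) (lprof' N t) t := by
  refine ((bR_hasDerivAt 0 0 (2 * N) 1 t).const_mul _).congr_deriv ?_
  simp [lprof']; ring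

theorem tprof_hasDerivAt {N : ℕ} (hN : 0 < N) (m : ℕ) (t : ℝ) :
    HasDerivAt (tprof N m) (tprof' N m t) t := by
  have ha : (2 * N : ℚ) ≠ 0 := by positivity
  have h := per_hasDerivAt (bR_bddSupp 0 0 ha (2 * m + 1))
    ((bR_smooth 0 0 _ _).differentiable (by simp)) t
  have h2 : deriv (bR 0 0 (2 * N) (2 * m + 1)) = fun s => (2 * N) * bR 0 1 (2 * N) (2 * m + 1) s :=
    funext fun s => by rw [(bR_hasDerivAt 0 0 _ _ s).deriv]; simp
  rw [h2, per_const_mul] at h
  refine (h.const_mul _).congr_deriv ?_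
  simp only [tprof']; ring

theorem lprof_smooth (N : ℕ) : ContDiff ℝ ∞ (lprof N) :=
  contDiff_const.mul (bR_smooth _ _ _ _)

theorem tprof_smooth {N : ℕ} (hN : 0 < N) (m : ℕ) : ContDiff ℝ ∞ (tprof N m) :=
  contDiff_const.mul (isBump_bR 0 0 (by positivity) _).per_smooth

theorem prof_eq (N m : ℕ) (t : ℝ) :
    2 * N / kappa * bR 0 0 (2 * N) (2 * m + 1) t = N * phi (N * t - m) := by
  simp only [bR, phi, iteratedDeriv_zero, pow_zero, one_mul]
  push_cast
  rw [show 2 * (N : ℝ) * t - (2 * m + 1) = 2 * (N * t - m) - 1 by ring]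
  ring

theorem lprof_window {N : ℕ} (hN : 0 < N) (k : ℕ) {t : ℝ}
    (ht : t ∈ Icc ((k : ℝ) / N) ((k + 1) / N)) :
    lprof N t = if k = 0 then N * phi (N * t - k) else 0 := by
  have hN' : (0 : ℝ) < N := by positivity
  have h := prof_eq N 0 t
  simp only [Nat.cast_zero, mul_zero, zero_add, sub_zero] at h
  unfold lprof
  rw [h]
  split_ifs with hk
  · subst hk; simp
  · have h1 : (1 : ℝ) ≤ k := by exact_mod_cast Nat.one_le_iff_ne_zero.2 hk
    have h2 := ht.1
    rw [div_le_iff₀ hN'] at h2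
    rw [phi_of_ge (by linarith), mul_zero]

theorem tprof_window {N m : ℕ} (hm : m < N) (k : ℕ) {t : ℝ}
    (ht : t ∈ Icc ((k : ℝ) / N) ((k + 1) / N)) :
    tprof N m t = if m = k % N then N * phi (N * t - k) else 0 := by
  have hN : 0 < N := lt_of_le_of_lt (Nat.zero_le _) hm
  have hN' : (0 : ℝ) < N := by positivity
  have hk : (k : ℝ) = N * (k / N : ℕ) + (k % N : ℕ) := by exact_mod_cast (Nat.div_add_mod k N).symm
  have hr : ((k % N : ℕ) : ℝ) + 1 ≤ N := by exact_mod_cast Nat.mod_lt k hN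
  have hr0 : (0 : ℝ) ≤ (k % N : ℕ) := by positivity
  have hm' : (m : ℝ) + 1 ≤ N := by exact_mod_cast hm
  have hm0 : (0 : ℝ) ≤ m := by positivity
  have h1 := ht.1
  have h2 := ht.2
  rw [div_le_iff₀ hN'] at h1
  rw [le_div_iff₀ hN'] at h2
  have hz : ∀ s : ℝ, phi (N * s - m) = 0 → bR 0 0 (2 * N) (2 * m + 1) s = 0 := by
    intro s hs
    have := prof_eq N m s
    rw [hs, mul_zero, mul_eq_zero] at this
    refine this.resolve_left ?_
    have := kappa_pos
    positivity
  obtain ⟨s, hs⟩ : ∃ s : ℝ, t = s + (k / N : ℕ) := ⟨t - (k / N : ℕ), by ring⟩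
  have hs0 : 0 ≤ s := by
    by_contra h
    have : s * N < 0 := mul_neg_of_neg_of_pos (not_le.1 h) hN'
    nlinarith
  have hs1 : s ≤ 1 := by
    by_contra h
    have : N < s * N := by nlinarith [not_le.1 h]
    nlinarith
  unfold tprof
  rw [hs, per_add_nat, per_eq_self (α := (m : ℝ) / N) (β := (m + 1 : ℝ) / N), prof_eq]
  · split_ifs with h
    · congr 2
      rw [hk, h]; ring
    · rcases lt_or_gt_of_ne h with h | h
      · have : (m : ℝ) + 1 ≤ (k % N : ℕ) := by exact_mod_cast h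
        rw [phi_of_ge (by nlinarith), mul_zero]
      · have : ((k % N : ℕ) : ℝ) + 1 ≤ m := by exact_mod_cast h
        rw [phi_of_le (by nlinarith), mul_zero]
  · intro r hr
    rw [le_div_iff₀ hN'] at hr
    exact hz r (phi_of_le (by linarith))
  · intro r hr
    rw [div_le_iff₀ hN'] at hr
    exact hz r (phi_of_ge (by linarith))
  · have : (m + 1 : ℝ) / N ≤ 1 := (div_le_one hN').2 hm'
    linarith
  · have : (0 : ℝ) ≤ m / N := by positivity
    linarith

/-! ### Velocity and force -/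

/-- planar form of the component `i` of the velocity at time `t` -/
noncomputable def velP (S : ℕ) (dir : ℕ → Fin 3) (F : ℕ → ℝ → ℝ → ℝ) (q : Fin 3 → ℝ) (t : ℝ)
    (i : Fin 3) (a b : ℝ) : ℝ :=
  lprof (S + 1) t * q i
    + ∑ j ∈ (Finset.range S).filter (fun j => dir j = i), tprof (S + 1) (j + 1) t * F j a b

/-- the velocity field -/
noncomputable def vel (S : ℕ) (dir : ℕ → Fin 3) (F : ℕ → ℝ → ℝ → ℝ) (q : Fin 3 → ℝ) (t : ℝ)
    (x : Fin 3 → ℝ) (i : Fin 3) : ℝ :=
  lift i (velP S dir F q t i) x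

/-- the periodic part of the force -/
noncomputable def perForce (ν : ℝ) (S : ℕ) (dir : ℕ → Fin 3) (F : ℕ → ℝ → ℝ → ℝ) (t : ℝ)
    (x : Fin 3 → ℝ) (i : Fin 3) : ℝ :=
  ∑ j ∈ (Finset.range S).filter (fun j => dir j = i),
    (tprof' (S + 1) (j + 1) t * lift i (F j) x
      - ν * (tprof (S + 1) (j + 1) t * lift i (lap2 (F j)) x))

/-- the field of the window `k` -/
noncomputable def winField (S : ℕ) (dir : ℕ → Fin 3) (F : ℕ → ℝ → ℝ → ℝ) (q : Fin 3 → ℝ) (k : ℕ)
    (x : Fin 3 → ℝ) : Fin 3 → ℝ :=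
  if k % (S + 1) = 0 then (if k = 0 then q else 0)
  else Pi.single (dir (k % (S + 1) - 1)) (lift (dir (k % (S + 1) - 1)) (F (k % (S + 1) - 1)) x)

/-- the moving coordinates of the window `k` -/
def winSet (S : ℕ) (dir : ℕ → Fin 3) (k : ℕ) : Set (Fin 3) :=
  if k % (S + 1) = 0 then univ else {dir (k % (S + 1) - 1)}

section

variable {S : ℕ} {dir : ℕ → Fin 3} {F : ℕ → ℝ → ℝ → ℝ} {q : Fin 3 → ℝ}

theorem winField_isShear (k : ℕ) : IsShear (winSet S dir k) (winField S dir F q k) := by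
  unfold winSet winField
  by_cases hk : k % (S + 1) = 0
  · simp only [hk, if_true]
    exact ⟨fun x j hj => absurd (mem_univ j) hj, fun x y _ => rfl⟩
  · simp only [hk, if_false]
    refine ⟨fun x j hj => Pi.single_eq_of_ne hj _, fun x y h => ?_⟩
    generalize dir (k % (S + 1) - 1) = i at h ⊢
    have h1 : x (i + 1) = y (i + 1) := h _ (by fin_cases i <;> simp)
    have h2 : x (i + 2) = y (i + 2) := h _ (by fin_cases i <;> simp)
    simp only [lift, h1, h2]

theorem vel_window (k : ℕ) (t : ℝ)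
    (ht : t ∈ Icc ((k : ℝ) / (S + 1 : ℕ)) ((k + 1) / (S + 1 : ℕ))) (x : Fin 3 → ℝ) :
    vel S dir F q t x = (((S + 1 : ℕ) : ℝ) * phi ((S + 1 : ℕ) * t - k)) • winField S dir F q k x := by
  funext i
  have hsum : ∑ j ∈ (Finset.range S).filter (fun j => dir j = i),
      tprof (S + 1) (j + 1) t * F j (x (i + 1)) (x (i + 2))
      = ∑ j ∈ (Finset.range S).filter (fun j => dir j = i),
        if j + 1 = k % (S + 1) then
          (((S + 1 : ℕ) : ℝ) * phi ((S + 1 : ℕ) * t - k)) * F j (x (i + 1)) (x (i + 2)) else 0 := by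
    apply Finset.sum_congr rfl
    intro j hj
    have hj' : j < S := Finset.mem_range.1 (Finset.mem_filter.1 hj).1
    rw [tprof_window (by omega) k ht]
    split_ifs <;> simp
  simp only [vel, lift, velP, hsum, lprof_window (Nat.succ_pos S) k ht, Pi.smul_apply, smul_eq_mul,
    winField]
  by_cases hk : k % (S + 1) = 0
  · simp only [hk, if_true, Nat.succ_ne_zero, if_false, Finset.sum_const_zero, add_zero]
    split_ifs <;> simp
  · have hk0 : k ≠ 0 := by rintro rfl; simp at hk
    have hlt : k % (S + 1) < S + 1 := Nat.mod_lt _ (Nat.succ_pos S)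
    simp only [hk, hk0, if_false, zero_mul, zero_add]
    by_cases hi : dir (k % (S + 1) - 1) = i
    · rw [Finset.sum_eq_single (k % (S + 1) - 1), if_pos (by omega), hi, Pi.single_eq_same]
      · intro j _ hj
        rw [if_neg (by omega)]
      · intro h
        exact absurd (Finset.mem_filter.2 ⟨Finset.mem_range.2 (by omega), hi⟩) h
    · rw [Pi.single_eq_of_ne' hi, mul_zero]
      apply Finset.sum_eq_zero
      intro j hj
      rw [if_neg]
      intro h
      apply hi
      rw [← h]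
      exact (Finset.mem_filter.1 hj).2

theorem vel_zero (x : Fin 3 → ℝ) : vel S dir F q 0 x = 0 := by
  rw [vel_window 0 0 ⟨by simp, by positivity⟩, phi_of_le (by simp), mul_zero, zero_smul]

theorem vel_smooth (hF : ∀ j < S, Sp2 (F j)) :
    ContDiff ℝ ∞ fun p : ℝ × (Fin 3 → ℝ) => vel S dir F q p.1 p.2 := by
  rw [contDiff_pi]
  intro i
  simp only [vel, lift, velP]
  refine (((lprof_smooth _).comp contDiff_fst).mul contDiff_const).add (ContDiff.sum fun j hj => ?_)
  have hj' : j < S := Finset.mem_range.1 (Finset.mem_filter.1 hj).1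
  refine ((tprof_smooth (Nat.succ_pos S) _).comp contDiff_fst).mul ?_
  exact (hF j hj').smooth.comp (f := fun p : ℝ × (Fin 3 → ℝ) => (p.2 (i + 1), p.2 (i + 2)))
    (by fun_prop)

theorem vel_periodic (hF : ∀ j < S, Sp2 (F j)) (t : ℝ) (x : Fin 3 → ℝ) (m : Fin 3 → ℤ) :
    vel S dir F q t (x + fun i => (m i : ℝ)) = vel S dir F q t x := by
  funext i
  simp only [vel, lift, velP, Pi.add_apply]
  congr 1
  apply Finset.sum_congr rfl
  intro j hj
  rw [(hF j (Finset.mem_range.1 (Finset.mem_filter.1 hj).1)).periodic]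

theorem vel_div (t : ℝ) (x : Fin 3 → ℝ) : ∑ j, pd j (fun y => vel S dir F q t y j) x = 0 := by
  apply Finset.sum_eq_zero
  intro j _
  exact congrFun (pd_lift_self j (velP S dir F q t j)) x

theorem IsShear.convective {J : Set (Fin 3)} {W : (Fin 3 → ℝ) → Fin 3 → ℝ} (h : IsShear J W)
    (c : ℝ) (x : Fin 3 → ℝ) (i j : Fin 3) :
    (c • W x) j * pd j (fun y => (c • W y) i) x = 0 := by
  by_cases hj : j ∈ J
  · have : (fun r : ℝ => (c • W (x + r • Pi.single j 1)) i) = fun _ => (c • W x) i := by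
      funext r
      rw [h.indep (x + r • Pi.single j 1) x]
      intro l hl
      have : l ≠ j := by rintro rfl; exact hl hj
      simp [Pi.single_eq_of_ne this]
    simp only [pd, lineDeriv, this, deriv_const, mul_zero]
  · simp [h.zero x j hj]

theorem vel_convective {t : ℝ} (ht : 0 ≤ t) (x : Fin 3 → ℝ) (i : Fin 3) :
    ∑ j, vel S dir F q t x j * pd j (fun y => vel S dir F q t y i) x = 0 := by
  apply Finset.sum_eq_zero
  intro j _
  simp only [vel_window _ t (exists_window (Nat.succ_pos S) ht)]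
  exact (winField_isShear _).convective _ x i j

theorem vel_lap (hF : ∀ j < S, Sp2 (F j)) (t : ℝ) (x : Fin 3 → ℝ) (i : Fin 3) :
    ∑ j, pd j (pd j (fun y => vel S dir F q t y i)) x
      = ∑ j ∈ (Finset.range S).filter (fun j => dir j = i),
          tprof (S + 1) (j + 1) t * lift i (lap2 (F j)) x := by
  have := lap_lift i (velP S dir F q t i) x
  refine this.trans ?_
  exact lap2_comb _ _ (fun j => tprof (S + 1) (j + 1) t)
    (fun j hj => hF j (Finset.mem_range.1 (Finset.mem_filter.1 hj).1)) _ _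

theorem vel_hasDerivAt (hF : ∀ j < S, Sp2 (F j)) (ν t : ℝ) (x : Fin 3 → ℝ) (i : Fin 3) :
    HasDerivAt (fun s => vel S dir F q s x i)
      (ν * ∑ j, pd j (pd j (fun y => vel S dir F q t y i)) x
        + (lprof' (S + 1) t * q i + perForce ν S dir F t x i)) t := by
  have h : HasDerivAt (fun s => vel S dir F q s x i)
      (lprof' (S + 1) t * q i + ∑ j ∈ (Finset.range S).filter (fun j => dir j = i),
        tprof' (S + 1) (j + 1) t * lift i (F j) x) t :=
    ((lprof_hasDerivAt _ t).mul_const _).fun_add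
      (HasDerivAt.fun_sum fun j _ => (tprof_hasDerivAt (Nat.succ_pos S) _ t).mul_const _)
  refine h.congr_deriv ?_
  rw [vel_lap hF, perForce, Finset.sum_sub_distrib, ← Finset.mul_sum]
  ring

/-! ### The orbit of the windows and the register program -/

/-- the register program: `S` shears repeated for ever -/
def regOrbit (S : ℕ) (dir : ℕ → Fin 3) (F : ℕ → ℝ → ℝ → ℝ) (p0 : Fin 3 → ℝ) : ℕ → Fin 3 → ℝ
  | 0 => p0
  | k + 1 => shear (dir (k % S)) (F (k % S)) (regOrbit S dir F p0 k)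

theorem add_single_lift (i : Fin 3) (G : ℝ → ℝ → ℝ) (x : Fin 3 → ℝ) :
    x + Pi.single i (lift i G x) = shear i G x := by
  funext j
  by_cases h : j = i
  · subst h; simp [shear, lift]
  · simp [shear, Pi.single_eq_of_ne h, Function.update_of_ne h]

theorem orbit_winField (a : Fin 3 → ℝ) (n m : ℕ) (hm : m ≤ S) :
    orbit (winField S dir F q) a ((S + 1) * n + m + 1) = regOrbit S dir F (a + q) (S * n + m) := by
  have step : ∀ n, orbit (winField S dir F q) a ((S + 1) * n + 1) = regOrbit S dir F (a + q) (S * n) →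
      ∀ m ≤ S, orbit (winField S dir F q) a ((S + 1) * n + m + 1)
        = regOrbit S dir F (a + q) (S * n + m) := by
    intro n h0 m hm
    induction m with
    | zero => exact h0
    | succ m ih =>
      have e1 : ((S + 1) * n + m + 1) % (S + 1) = m + 1 := by
        rw [add_assoc, Nat.mul_add_mod, Nat.mod_eq_of_lt (by omega)]
      have e2 : (S * n + m) % S = m := by
        rw [Nat.mul_add_mod, Nat.mod_eq_of_lt (by omega)]
      rw [← add_assoc, orbit, ih (by omega), ← add_assoc, regOrbit, e2, winField, e1]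
      simp only [Nat.succ_ne_zero, if_false, Nat.add_sub_cancel]
      exact add_single_lift _ _ _
  have base : ∀ n, orbit (winField S dir F q) a ((S + 1) * n + 1)
      = regOrbit S dir F (a + q) (S * n) := by
    intro n
    induction n with
    | zero => simp [orbit, winField, regOrbit]
    | succ n ih =>
      have h := step n ih S le_rfl
      rw [show (S + 1) * n + S + 1 = (S + 1) * (n + 1) by ring,
        show S * n + S = S * (n + 1) by ring] at h
      rw [orbit, h, winField]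
      simp
  exact step n (base n) m hm

theorem orbit_winField_succ (a : Fin 3 → ℝ) (k : ℕ) :
    ∃ l, orbit (winField S dir F q) a (k + 1) = regOrbit S dir F (a + q) l := by
  refine ⟨S * (k / (S + 1)) + k % (S + 1), ?_⟩
  rw [← orbit_winField a _ _ (Nat.lt_succ_iff.1 (Nat.mod_lt k (Nat.succ_pos S))), Nat.div_add_mod]

theorem regOrbit_visited (hS : 0 < S) (a : Fin 3 → ℝ) (l : ℕ) :
    ∃ k, orbit (winField S dir F q) a k = regOrbit S dir F (a + q) l := by
  refine ⟨(S + 1) * (l / S) + l % S + 1, ?_⟩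
  rw [orbit_winField a _ _ (Nat.mod_lt l hS).le, Nat.div_add_mod]

/-- existence of the trajectory of the velocity field -/
theorem vel_traj_exists (a : Fin 3 → ℝ) :
    ∃ X : ℝ → Fin 3 → ℝ, X 0 = a ∧ ∀ t, 0 ≤ t → HasDerivAt X (vel S dir F q t (X t)) t :=
  traj_exists (Nat.succ_pos S) winField_isShear vel_window a

/-- a convex set that holds the start point and the register orbit holds the trajectory -/
theorem vel_traj_mem {a : Fin 3 → ℝ} {X : ℝ → Fin 3 → ℝ} (h0 : X 0 = a)
    (hc : ContinuousOn X (Ici 0))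
    (hd : ∀ t, 0 ≤ t → HasDerivWithinAt X (vel S dir F q t (X t)) (Ici t) t)
    {C : Set (Fin 3 → ℝ)} (hC : Convex ℝ C) (ha : a ∈ C)
    (hp : ∀ l, regOrbit S dir F (a + q) l ∈ C) {t : ℝ} (ht : 0 ≤ t) : X t ∈ C := by
  obtain ⟨k, hk⟩ := traj_mem_segment (Nat.succ_pos S) winField_isShear vel_window h0 hc hd ht
  have hall : ∀ k, orbit (winField S dir F q) a k ∈ C := by
    intro k
    cases k with
    | zero => exact ha
    | succ k =>
      obtain ⟨l, hl⟩ := orbit_winField_succ (S := S) (dir := dir) (F := F) (q := q) a k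
      rw [hl]; exact hp l
  exact hC.segment_subset (hall k) (hall (k + 1)) hk

/-- the trajectory visits every point of the register orbit -/
theorem vel_traj_visits (hS : 0 < S) {a : Fin 3 → ℝ} {X : ℝ → Fin 3 → ℝ} (h0 : X 0 = a)
    (hc : ContinuousOn X (Ici 0))
    (hd : ∀ t, 0 ≤ t → HasDerivWithinAt X (vel S dir F q t (X t)) (Ici t) t) (l : ℕ) :
    ∃ t, 0 ≤ t ∧ X t = regOrbit S dir F (a + q) l := by
  obtain ⟨k, hk⟩ := regOrbit_visited (dir := dir) (F := F) (q := q) hS a l
  exact ⟨k / (S + 1 : ℕ), by positivity,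
    (traj_visits (Nat.succ_pos S) winField_isShear vel_window h0 hc hd k).trans hk⟩

/-- trajectories from the same point agree -/
theorem vel_traj_unique {a : Fin 3 → ℝ} {X Y : ℝ → Fin 3 → ℝ} (h0 : X 0 = a)
    (hc : ContinuousOn X (Ici 0))
    (hd : ∀ t, 0 ≤ t → HasDerivWithinAt X (vel S dir F q t (X t)) (Ici t) t)
    (h0' : Y 0 = a) (hc' : ContinuousOn Y (Ici 0))
    (hd' : ∀ t, 0 ≤ t → HasDerivWithinAt Y (vel S dir F q t (Y t)) (Ici t) t)
    {t : ℝ} (ht : 0 ≤ t) : X t = Y t := by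
  rw [traj_formula (Nat.succ_pos S) winField_isShear vel_window h0 hc hd _ t
      (exists_window (Nat.succ_pos S) ht),
    traj_formula (Nat.succ_pos S) winField_isShear vel_window h0' hc' hd' _ t
      (exists_window (Nat.succ_pos S) ht)]

end

end Vale.Agent.P113Z
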