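import Vale.Agent.P113Z.UniqEnergy
import Mathlib.Analysis.Calculus.Deriv.Pow

/-!
Uniqueness of classical periodic solutions of the forced incompressible Navier-Stokes system on
`[0,T] × ℝ³` (period one in every coordinate).  The derivatives are explicit witnesses:
`ut t x i = ∂_t u_i`, `Du t x j i = ∂_j u_i`, `D2u t x j i = ∂_j ∂_j u_i`, `Dp t x j = ∂_j p`.
-/

namespace Vale.Agent.P113Z.Uniq

open MeasureTheory Set

/-- Witness form of a classical solution on `[0,T]`, without initial condition and without the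
normalisation of the pressure. -/
structure Sol (ν T : ℝ) (f u : ℝ → (Fin 3 → ℝ) → Fin 3 → ℝ) (p : ℝ → (Fin 3 → ℝ) → ℝ)
    (ut : ℝ → (Fin 3 → ℝ) → Fin 3 → ℝ) (Du D2u : ℝ → (Fin 3 → ℝ) → Fin 3 → Fin 3 → ℝ)
    (Dp : ℝ → (Fin 3 → ℝ) → Fin 3 → ℝ) : Prop where
  per_u : ∀ t ∈ Icc 0 T, ∀ x j, u t (x + Pi.single j 1) = u t x
  per_p : ∀ t ∈ Icc 0 T, ∀ x j, p t (x + Pi.single j 1) = p t x
  cont_u : ∀ i, ContinuousOn (fun z : ℝ × (Fin 3 → ℝ) => u z.1 z.2 i) (Icc 0 T ×ˢ univ)
  cont_ut : ∀ i, ContinuousOn (fun z : ℝ × (Fin 3 → ℝ) => ut z.1 z.2 i) (Icc 0 T ×ˢ univ)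
  cont_Du : ∀ j i, ContinuousOn (fun z : ℝ × (Fin 3 → ℝ) => Du z.1 z.2 j i) (Icc 0 T ×ˢ univ)
  cont_D2u : ∀ t ∈ Icc 0 T, ∀ j i, Continuous fun x => D2u t x j i
  cont_p : ∀ t ∈ Icc 0 T, Continuous (p t)
  cont_Dp : ∀ t ∈ Icc 0 T, ∀ j, Continuous fun x => Dp t x j
  has_ut : ∀ t ∈ Icc 0 T, ∀ x i, HasDerivWithinAt (fun s => u s x i) (ut t x i) (Icc 0 T) t
  has_Du : ∀ t ∈ Icc 0 T, ∀ x j i,
    HasLineDerivAt ℝ (fun y => u t y i) (Du t x j i) x (Pi.single j 1)
  has_D2u : ∀ t ∈ Icc 0 T, ∀ x j i,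
    HasLineDerivAt ℝ (fun y => Du t y j i) (D2u t x j i) x (Pi.single j 1)
  has_Dp : ∀ t ∈ Icc 0 T, ∀ x j, HasLineDerivAt ℝ (p t) (Dp t x j) x (Pi.single j 1)
  eqn : ∀ t ∈ Icc 0 T, ∀ x i, ut t x i + ∑ j, u t x j * Du t x j i
    = -Dp t x i + ν * ∑ j, D2u t x j i + f t x i
  div : ∀ t ∈ Icc 0 T, ∀ x, ∑ j, Du t x j j = 0

theorem hasLineDerivAt_sub {V : Type*} [AddCommGroup V] [Module ℝ V] {g h : V → ℝ} {a b : ℝ}
    {x v : V} (hg : HasLineDerivAt ℝ g a x v) (hh : HasLineDerivAt ℝ h b x v) :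
    HasLineDerivAt ℝ (fun y => g y - h y) (a - b) x v := by
  unfold HasLineDerivAt at hg hh ⊢
  exact hg.sub hh

variable {ν T : ℝ} {f u v ut vt Dp Dq : ℝ → (Fin 3 → ℝ) → Fin 3 → ℝ}
  {p q : ℝ → (Fin 3 → ℝ) → ℝ} {Du D2u Dv D2v : ℝ → (Fin 3 → ℝ) → Fin 3 → Fin 3 → ℝ}

/-- Two classical solutions with the same force and the same initial velocity have the same
velocity on `[0,T]`. -/
theorem velocity_unique (hν : 0 ≤ ν) (hu : Sol ν T f u p ut Du D2u Dp)
    (hv : Sol ν T f v q vt Dv D2v Dq) (h0 : ∀ x, u 0 x = v 0 x) :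
    ∀ t ∈ Icc 0 T, ∀ x, u t x = v t x := by
  -- a uniform bound for the gradient of `u`
  have hb : ∀ j i, ∃ C, ∀ t ∈ Icc 0 T, ∀ x ∈ Icc (0 : Fin 3 → ℝ) 1, |Du t x j i| ≤ C :=
    fun j i => exists_bound (W := fun t x => Du t x j i) (hu.cont_Du j i)
  choose C hC using hb
  set M : ℝ := ∑ j, ∑ i, |C j i| with hM
  have hCM : ∀ j i, C j i ≤ M := by
    intro j i
    refine (le_abs_self _).trans ?_
    refine le_trans ?_ (Finset.single_le_sum (f := fun j => ∑ i, |C j i|)
      (fun j _ => Finset.sum_nonneg fun i _ => abs_nonneg _) (Finset.mem_univ j))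
    exact Finset.single_le_sum (f := fun i => |C j i|) (fun i _ => abs_nonneg _) (Finset.mem_univ i)
  have key := gronwall_zero (T := T) (C := 2 * (3 * M))
    (fun t x => ∑ i, (u t x i - v t x i) ^ 2)
    (fun t x => 2 * ∑ i, (u t x i - v t x i) * (ut t x i - vt t x i)) ?_ ?_ ?_ ?_ ?_ ?_
  · intro t ht x
    have hper : ∀ y j, (fun y => u t y - v t y) (y + Pi.single j 1) = (fun y => u t y - v t y) y := by
      intro y j
      simp only [hu.per_u t ht, hv.per_u t ht]
    have h1 := exists_mem_cube (g := fun y => u t y - v t y) hper x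
    have h2 := key t ht _ (fract_mem_cube x)
    rw [Finset.sum_eq_zero_iff_of_nonneg fun i _ => sq_nonneg _] at h2
    rw [← sub_eq_zero]
    rw [h1]
    funext i
    exact pow_eq_zero_iff two_ne_zero |>.1 (h2 i (Finset.mem_univ i))
  · exact continuousOn_finsetSum _ fun i _ => ((hu.cont_u i).sub (hv.cont_u i)).pow 2
  · exact continuousOn_const.mul (continuousOn_finsetSum _ fun i _ =>
      ((hu.cont_u i).sub (hv.cont_u i)).mul ((hu.cont_ut i).sub (hv.cont_ut i)))
  · intro t ht x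
    have hs : Icc 0 T ∈ nhds t := Icc_mem_nhds ht.1 ht.2
    have h1 : ∀ i, HasDerivAt (fun s => u s x i - v s x i) (ut t x i - vt t x i) t := fun i =>
      ((hu.has_ut t (Ioo_subset_Icc_self ht) x i).hasDerivAt hs).sub
        ((hv.has_ut t (Ioo_subset_Icc_self ht) x i).hasDerivAt hs)
    have h2 := HasDerivAt.fun_sum (u := Finset.univ) fun i _ => (h1 i).fun_pow 2
    refine h2.congr_deriv ?_
    rw [Finset.mul_sum]
    refine Finset.sum_congr rfl fun i _ => ?_
    simp only [Nat.cast_ofNat, Nat.add_one_sub_one, pow_one]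
    ring
  · exact fun t _ x => Finset.sum_nonneg fun i _ => sq_nonneg _
  · intro x
    simp [h0]
  · intro t ht'
    have ht : t ∈ Icc 0 T := Ioo_subset_Icc_self ht'
    rw [integral_const_mul, mul_assoc]
    refine mul_le_mul_of_nonneg_left ?_ (by norm_num)
    refine energy_ineq hν (fun x i => u t x i - v t x i) (v t) (fun x i => ut t x i - vt t x i)
      (fun x i => Dp t x i - Dq t x i) (fun x j i => Du t x j i - Dv t x j i)
      (fun x j i => D2u t x j i - D2v t x j i) (Dv t) (Du t) (fun x => p t x - q t x)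
      ?_ ?_ ?_ ?_ ?_ ?_ ?_ ?_ ?_ ?_ ?_ ?_ ?_ ?_ ?_ ?_ ?_ ?_ ?_
    · exact fun i => (cont_slice (W := fun t x => u t x i) (hu.cont_u i) ht).sub
        (cont_slice (W := fun t x => v t x i) (hv.cont_u i) ht)
    · exact fun i => cont_slice (W := fun t x => v t x i) (hv.cont_u i) ht
    · exact fun i => (cont_slice (W := fun t x => ut t x i) (hu.cont_ut i) ht).sub
        (cont_slice (W := fun t x => vt t x i) (hv.cont_ut i) ht)
    · exact fun j i => (cont_slice (W := fun t x => Du t x j i) (hu.cont_Du j i) ht).sub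
        (cont_slice (W := fun t x => Dv t x j i) (hv.cont_Du j i) ht)
    · exact fun j i => (hu.cont_D2u t ht j i).sub (hv.cont_D2u t ht j i)
    · exact fun j => cont_slice (W := fun t x => Dv t x j j) (hv.cont_Du j j) ht
    · exact (hu.cont_p t ht).sub (hv.cont_p t ht)
    · exact fun i => (hu.cont_Dp t ht i).sub (hv.cont_Dp t ht i)
    · intro x j
      simp only [hu.per_u t ht, hv.per_u t ht]
    · exact hv.per_u t ht
    · intro x j
      simp only [hu.per_p t ht, hv.per_p t ht]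
    · exact fun x j i => hasLineDerivAt_sub (hu.has_Du t ht x j i) (hv.has_Du t ht x j i)
    · exact fun x j i => hasLineDerivAt_sub (hu.has_D2u t ht x j i) (hv.has_D2u t ht x j i)
    · exact fun x j => hv.has_Du t ht x j j
    · exact fun x j => hasLineDerivAt_sub (hu.has_Dp t ht x j) (hv.has_Dp t ht x j)
    · intro x
      rw [Finset.sum_sub_distrib, hu.div t ht, hv.div t ht, sub_zero]
    · exact hv.div t ht
    · intro x i
      have e1 := hu.eqn t ht x i
      have e2 := hv.eqn t ht x i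
      simp only [Fin.sum_univ_three] at e1 e2 ⊢
      linear_combination e1 - e2
    · exact fun x hx j i => (hC j i t ht x hx).trans (hCM j i)

/-- The pressure gradients agree as well (for `T > 0`). -/
theorem gradp_unique (hν : 0 ≤ ν) (hT : 0 < T) (hu : Sol ν T f u p ut Du D2u Dp)
    (hv : Sol ν T f v q vt Dv D2v Dq) (h0 : ∀ x, u 0 x = v 0 x) :
    ∀ t ∈ Icc 0 T, ∀ x i, Dp t x i = Dq t x i := by
  have huv := velocity_unique hν hu hv h0
  intro t ht x i
  have hut : ut t x i = vt t x i := by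
    have h1 := hu.has_ut t ht x i
    have h2 := (hv.has_ut t ht x i).congr (f₁ := fun s => u s x i)
      (fun s hs => by simp only [huv s hs]) (by simp only [huv t ht])
    exact (uniqueDiffOn_Icc hT t ht).eq_deriv _ h1 h2
  have hD : ∀ y j k, Du t y j k = Dv t y j k := by
    intro y j k
    have h1 := hu.has_Du t ht y j k
    have h2 := hv.has_Du t ht y j k
    have h3 : (fun y => u t y k) = fun y => v t y k := by
      funext z; rw [huv t ht]
    rw [h3] at h1
    exact h1.unique h2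
  have hD2 : ∀ j, D2u t x j i = D2v t x j i := by
    intro j
    have h1 := hu.has_D2u t ht x j i
    have h2 := hv.has_D2u t ht x j i
    have h3 : (fun y => Du t y j i) = fun y => Dv t y j i := by
      funext z; rw [hD]
    rw [h3] at h1
    exact h1.unique h2
  have e1 := hu.eqn t ht x i
  have e2 := hv.eqn t ht x i
  simp only [hut, hD, hD2, huv t ht] at e1
  linarith

/-- Pressures with the same mean over the unit cube agree (for `T > 0`). -/
theorem pressure_unique (hν : 0 ≤ ν) (hT : 0 < T) (hu : Sol ν T f u p ut Du D2u Dp)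
    (hv : Sol ν T f v q vt Dv D2v Dq) (h0 : ∀ x, u 0 x = v 0 x)
    (hmean : ∀ t ∈ Icc 0 T, ∫ x in Icc (0 : Fin 3 → ℝ) 1, p t x
      = ∫ x in Icc (0 : Fin 3 → ℝ) 1, q t x) :
    ∀ t ∈ Icc 0 T, ∀ x, p t x = q t x := by
  have hg := gradp_unique hν hT hu hv h0
  intro t ht x
  have hc : ∀ y, p t y - q t y = p t 0 - q t 0 := by
    intro y
    refine const_of_lineDeriv_zero (g := fun y => p t y - q t y) (fun z j => ?_) y
    have := hasLineDerivAt_sub (hu.has_Dp t ht z j) (hv.has_Dp t ht z j)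
    rwa [hg t ht z j, sub_self] at this
  have ip : IntegrableOn (p t) (Icc (0 : Fin 3 → ℝ) 1) :=
    (hu.cont_p t ht).continuousOn.integrableOn_compact isCompact_Icc
  have iq : IntegrableOn (q t) (Icc (0 : Fin 3 → ℝ) 1) :=
    (hv.cont_p t ht).continuousOn.integrableOn_compact isCompact_Icc
  have h1 : ∫ y in Icc (0 : Fin 3 → ℝ) 1, (p t y - q t y) = 0 := by
    rw [integral_sub ip iq, hmean t ht, sub_self]
  simp only [hc] at h1
  have hvol : (volume : Measure (Fin 3 → ℝ)).real (Icc (0 : Fin 3 → ℝ) 1) = 1 := by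
    rw [Measure.real, Real.volume_Icc_pi_toReal (by intro i; simp)]
    simp
  rw [setIntegral_const, hvol, one_smul] at h1
  rw [← sub_eq_zero, hc, h1]

end Vale.Agent.P113Z.Uniq
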