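import Vale.Agent.P113Z.NSDefs
import Vale.Agent.P113Z.ShearPDE
import Vale.Agent.P113Z.Uniq
import Vale.Agent.P113Z.RegUniv
import Vale.Agent.P113Z.MachineRE
import Vale.Agent.P113Z.RatPrim

/-! Term lists of the force, and the assembly of the theorem. -/

open scoped ContDiff Topology
open Set Filter MeasureTheory

namespace Vale.Agent.P113Z

/-! ### Term lists -/

theorem IsBump.exists_code {g : ℝ → ℝ} (h : IsBump g) : ∃ c : BumpCode, c.Valid ∧ c.val = g := by
  rcases h with ⟨k, j, a, b, ha, rfl⟩ | ⟨k, l, a, b, ha, hl, rfl⟩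
  · exact ⟨.inl (k, j, a, b), ha, rfl⟩
  · exact ⟨.inr (k, l, a, b), ⟨ha, hl⟩, rfl⟩

/-- `G` is, for every viscosity, the sum of one list of valid periodic terms. -/
def PerRep (G : ℝ → ℝ → (Fin 3 → ℝ) → ℝ) : Prop :=
  ∃ L : List TermCode, (∀ τ ∈ L, τ.Valid ∧ τ.isPeriodic = true) ∧
    ∀ ν t x, (L.map fun τ => τ.val ν t x).sum = G ν t x

theorem PerRep.zero : PerRep fun _ _ _ => 0 := ⟨[], by simp, by simp⟩

theorem PerRep.add {G H : ℝ → ℝ → (Fin 3 → ℝ) → ℝ} (hG : PerRep G) (hH : PerRep H) :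
    PerRep fun ν t x => G ν t x + H ν t x := by
  obtain ⟨L, h1, h2⟩ := hG
  obtain ⟨L', h1', h2'⟩ := hH
  refine ⟨L ++ L', fun τ hτ => ?_, fun ν t x => ?_⟩
  · rcases List.mem_append.1 hτ with h | h
    · exact h1 τ h
    · exact h1' τ h
  · rw [List.map_append, List.sum_append, h2, h2']

theorem PerRep.sum {ι : Type*} (s : Finset ι) {G : ι → ℝ → ℝ → (Fin 3 → ℝ) → ℝ}
    (h : ∀ i ∈ s, PerRep (G i)) : PerRep fun ν t x => ∑ i ∈ s, G i ν t x := by
  classical
  induction s using Finset.induction_on with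
  | empty => simpa using PerRep.zero
  | insert i s hi ih =>
    simp only [Finset.sum_insert hi]
    exact (h i (Finset.mem_insert_self _ _)).add
      (ih fun j hj => h j (Finset.mem_insert_of_mem hj))

theorem PerRep.of_sp2 (c : ℚ) (m : ℕ) (n : ℤ) {g : ℝ → ℝ} (hg : IsBump g) (i : Fin 3)
    {F : ℝ → ℝ → ℝ} (hF : Sp2 F) :
    PerRep fun ν t x => c * ν ^ m * kappa ^ n * per g t * lift i F x := by
  induction hF with
  | zero => simpa [lift] using PerRep.zero
  | add _ _ ih1 ih2 => simpa [lift, mul_add] using ih1.add ih2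
  | @gen q n' g1 g2 h1 h2 =>
    obtain ⟨c0, v0, rfl⟩ := hg.exists_code
    obtain ⟨c1, v1, rfl⟩ := h1.exists_code
    obtain ⟨c2, v2, rfl⟩ := h2.exists_code
    refine ⟨[((c * q, m, n + n', []), [(true, c0)],
      fun l => if l = i + 1 then [c1] else if l = i + 2 then [c2] else [])], ?_, ?_⟩
    · intro τ hτ
      rw [List.mem_singleton] at hτ
      subst hτ
      refine ⟨⟨by simp, by simpa using v0, fun l g hg => ?_⟩, by simp [TermCode.isPeriodic]⟩
      dsimp only at hg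
      split_ifs at hg
      · rw [List.mem_singleton] at hg; subst hg; exact v1
      · rw [List.mem_singleton] at hg; subst hg; exact v2
      · simp at hg
    · intro ν t x
      simp only [List.map_cons, List.map_nil, List.sum_cons, List.sum_nil, add_zero, TermCode.val,
        TermCode.const, TermCode.time, List.prod_nil, List.prod_cons, mul_one, if_true, lift,
        zpow_add₀ kappa_pos.ne', Fin.prod_univ_three]
      push_cast
      fin_cases i <;> simp <;> ring

theorem perForce_rep {S : ℕ} (dir : ℕ → Fin 3) {F : ℕ → ℝ → ℝ → ℝ} (hF : ∀ j < S, Sp2 (F j))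
    (i : Fin 3) : PerRep fun ν t x => perForce ν S dir F t x i := by
  unfold perForce
  refine PerRep.sum _ fun j hj => ?_
  have hj' : j < S := Finset.mem_range.1 (Finset.mem_filter.1 hj).1
  have ha : (2 * ((S + 1 : ℕ) : ℚ)) ≠ 0 := by positivity
  have h1 := PerRep.of_sp2 (4 * ((S + 1 : ℕ) : ℚ) ^ 2) 0 (-1)
    (isBump_bR 0 1 ha (2 * ((j + 1 : ℕ) : ℚ) + 1)) i (hF j hj')
  have h2 := PerRep.of_sp2 (-(2 * ((S + 1 : ℕ) : ℚ))) 1 (-1)
    (isBump_bR 0 0 ha (2 * ((j + 1 : ℕ) : ℚ) + 1)) i (hF j hj').lap2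
  convert h1.add h2 using 4
  simp only [tprof, tprof', zpow_neg_one]
  push_cast
  ring

/-- the term of the loader -/
def loadTerm (N : ℕ) (q : ℚ) : TermCode :=
  ((4 * N ^ 2 * q, 0, -1, []), [(false, .inl (0, 1, 2 * N, 1))], fun _ => [])

theorem loadTerm_val (ν : ℝ) (N : ℕ) (q : ℚ) (t : ℝ) (x : Fin 3 → ℝ) :
    (loadTerm N q).val ν t x = lprof' N t * q := by
  simp only [loadTerm, TermCode.val, TermCode.const, TermCode.time, List.map_cons, List.map_nil,
    List.prod_nil, List.prod_cons, BumpCode.val, lprof', bR, zpow_neg_one]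
  push_cast
  simp
  ring

theorem loadTerm_valid {N : ℕ} (hN : 0 < N) (q : ℚ) : (loadTerm N q).Valid := by
  refine ⟨by simp [loadTerm], ?_, by simp [loadTerm]⟩
  intro g hg
  simp only [loadTerm, List.mem_singleton] at hg
  subst hg
  show (2 * N : ℚ) ≠ 0
  positivity

theorem loadTerm_isPeriodic (N : ℕ) (q : ℚ) : (loadTerm N q).isPeriodic = false := rfl

theorem lprof'_of_ge {N : ℕ} (hN : 0 < N) {t : ℝ} (ht : 2 ≤ t) : lprof' N t = 0 := by
  have hN' : (1 : ℝ) ≤ N := by exact_mod_cast hN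
  have h : lprof N =ᶠ[𝓝 t] fun _ => 0 := by
    filter_upwards [Ioi_mem_nhds (show (1 : ℝ) < t by linarith)] with s hs
    have hs' : (1 : ℝ) < s := hs
    simp only [lprof, bR, iteratedDeriv_zero]
    rw [rho_of_ge, mul_zero, mul_zero]
    push_cast
    nlinarith
  rw [← (lprof_hasDerivAt N t).deriv, h.deriv_eq, deriv_const]

theorem primrec_loadTerm (N : ℕ) : Primrec (loadTerm N) :=
  Primrec.pair (Primrec.pair (RatPrim.primrec_mul.comp (Primrec.const _) Primrec.id)
    (Primrec.const _)) (Primrec.const _)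

/-! ### Smooth fields are classical solutions -/

theorem hasLineDerivAt_slice {U : ℝ × (Fin 3 → ℝ) → ℝ} (hU : ContDiff ℝ ∞ U) (t : ℝ)
    (x v : Fin 3 → ℝ) : HasLineDerivAt ℝ (fun y => U (t, y)) (fderiv ℝ U (t, x) (0, v)) x v := by
  have h1 : HasFDerivAt U (fderiv ℝ U (t, x)) (t, x) :=
    (hU.differentiable (by simp) _).hasFDerivAt
  have h2 := (h1.comp x (hasFDerivAt_prodMk_right t x)).hasLineDerivAt v
  have h3 : ((fderiv ℝ U (t, x)).comp (ContinuousLinearMap.inr ℝ ℝ (Fin 3 → ℝ))) v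
      = fderiv ℝ U (t, x) (0, v) := by simp
  rw [h3] at h2
  exact h2

theorem pd_slice {U : ℝ × (Fin 3 → ℝ) → ℝ} (hU : ContDiff ℝ ∞ U) (j : Fin 3) :
    (fun z : ℝ × (Fin 3 → ℝ) => pd j (fun y => U (z.1, y)) z.2)
      = fun z => fderiv ℝ U z (0, Pi.single j 1) :=
  funext fun z => (hasLineDerivAt_slice hU z.1 z.2 _).lineDeriv

theorem pd_slice_smooth {U : ℝ × (Fin 3 → ℝ) → ℝ} (hU : ContDiff ℝ ∞ U) (j : Fin 3) :
    ContDiff ℝ ∞ fun z : ℝ × (Fin 3 → ℝ) => pd j (fun y => U (z.1, y)) z.2 := by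
  rw [pd_slice hU]
  exact (hU.fderiv_right (m := ∞) le_rfl).clm_apply contDiff_const

theorem hasLineDerivAt_pd {U : ℝ × (Fin 3 → ℝ) → ℝ} (hU : ContDiff ℝ ∞ U) (t : ℝ)
    (x : Fin 3 → ℝ) (j : Fin 3) :
    HasLineDerivAt ℝ (fun y => U (t, y)) (pd j (fun y => U (t, y)) x) x (Pi.single j 1) :=
  (hasLineDerivAt_slice hU t x _).lineDifferentiableAt.hasLineDerivAt

theorem dt_slice_smooth {U : ℝ × (Fin 3 → ℝ) → ℝ} (hU : ContDiff ℝ ∞ U) :
    ContDiff ℝ ∞ fun z : ℝ × (Fin 3 → ℝ) => deriv (fun s => U (s, z.2)) z.1 := by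
  have : (fun z : ℝ × (Fin 3 → ℝ) => deriv (fun s => U (s, z.2)) z.1)
      = fun z => fderiv ℝ U z (1, 0) := by
    funext z
    have h1 : HasFDerivAt U (fderiv ℝ U (z.1, z.2)) (z.1, z.2) :=
      (hU.differentiable (by simp) _).hasFDerivAt
    have h2 := (h1.comp z.1 (hasFDerivAt_prodMk_left z.1 z.2)).hasDerivAt
    refine h2.deriv.trans ?_
    simp
  rw [this]
  exact (hU.fderiv_right (m := ∞) le_rfl).clm_apply contDiff_const

theorem vel_isClassical {S : ℕ} {dir : ℕ → Fin 3} {F : ℕ → ℝ → ℝ → ℝ} {q : Fin 3 → ℝ}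
    (hF : ∀ j < S, Sp2 (F j)) (ν : ℝ) {f : ℝ → (Fin 3 → ℝ) → Fin 3 → ℝ}
    (hf : ∀ t x i, f t x i = lprof' (S + 1) t * q i + perForce ν S dir F t x i)
    {I : Set ℝ} (hI : I ⊆ Ici 0) : IsClassical ν f I (vel S dir F q) fun _ _ => 0 := by
  have hs : ∀ i, ContDiff ℝ ∞ fun z : ℝ × (Fin 3 → ℝ) => vel S dir F q z.1 z.2 i :=
    contDiff_pi.1 (vel_smooth hF)
  refine ⟨fun t x i => deriv (fun s => vel S dir F q s x i) t,
    fun t x j i => pd j (fun y => vel S dir F q t y i) x,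
    fun t x k j i => pd k (pd j (fun y => vel S dir F q t y i)) x, fun _ _ _ => 0,
    ?_, fun _ _ _ _ => rfl, ?_, ?_, ?_, ?_, (vel_smooth hF).continuous.continuousOn, ?_, ?_, ?_,
    continuousOn_const, continuousOn_const, ?_, fun t _ x => vel_div t x, vel_zero, by simp⟩
  · intro t _ x j
    have := vel_periodic (dir := dir) (q := q) hF t x (Pi.single j 1)
    convert this using 3
    funext l
    by_cases h : l = j
    · subst h; simp
    · simp [Pi.single_eq_of_ne h]
  · intro t _ x i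
    exact (vel_hasDerivAt hF ν t x i).differentiableAt.hasDerivAt.hasDerivWithinAt
  · intro t _ x j i
    exact hasLineDerivAt_pd (hs i) t x j
  · intro t _ x k j i
    exact hasLineDerivAt_pd (pd_slice_smooth (hs i) j) t x k
  · intro t _ x j
    exact (hasFDerivAt_const (0 : ℝ) x).hasLineDerivAt _
  · exact (continuous_pi fun i => (dt_slice_smooth (hs i)).continuous).continuousOn
  · exact (continuous_pi fun j => continuous_pi fun i =>
      (pd_slice_smooth (hs i) j).continuous).continuousOn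
  · exact (continuous_pi fun k => continuous_pi fun j => continuous_pi fun i =>
      (pd_slice_smooth (pd_slice_smooth (hs i) j) k).continuous).continuousOn
  · intro t ht x i
    rw [vel_convective (hI ht), (vel_hasDerivAt hF ν t x i).deriv, hf]
    ring

theorem IsSolutionWith.toSol {ν T : ℝ} {f u ut Dp : ℝ → (Fin 3 → ℝ) → Fin 3 → ℝ}
    {p : ℝ → (Fin 3 → ℝ) → ℝ} {Du : ℝ → (Fin 3 → ℝ) → Fin 3 → Fin 3 → ℝ}
    {D2u : ℝ → (Fin 3 → ℝ) → Fin 3 → Fin 3 → Fin 3 → ℝ}
    (h : IsSolutionWith ν f (Icc 0 T) u p ut Du D2u Dp) :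
    Uniq.Sol ν T f u p ut Du (fun t x j i => D2u t x j j i) Dp where
  per_u := h.periodic_u
  per_p := h.periodic_p
  cont_u := fun i => continuousOn_pi.1 h.cont_u i
  cont_ut := fun i => continuousOn_pi.1 h.cont_ut i
  cont_Du := fun j i => continuousOn_pi.1 (continuousOn_pi.1 h.cont_Du j) i
  cont_D2u := fun _ ht j i => Uniq.cont_slice (W := fun t x => D2u t x j j i)
    (continuousOn_pi.1 (continuousOn_pi.1 (continuousOn_pi.1 h.cont_D2u j) j) i) ht
  cont_p := fun _ ht => Uniq.cont_slice h.cont_p ht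
  cont_Dp := fun _ ht j => Uniq.cont_slice (W := fun t x => Dp t x j)
    (continuousOn_pi.1 h.cont_Dp j) ht
  has_ut := h.has_ut
  has_Du := h.has_Du
  has_D2u := fun t ht x j i => h.has_D2u t ht x j j i
  has_Dp := h.has_Dp
  eqn := h.momentum
  div := h.div_free

theorem IsClassical.unique {ν T : ℝ} (hν : 0 ≤ ν) (hT : 0 < T)
    {f u v : ℝ → (Fin 3 → ℝ) → Fin 3 → ℝ} {p q : ℝ → (Fin 3 → ℝ) → ℝ}
    (hu : IsClassical ν f (Icc 0 T) u p) (hv : IsClassical ν f (Icc 0 T) v q) :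
    ∀ t ∈ Icc 0 T, ∀ x, u t x = v t x ∧ p t x = q t x := by
  obtain ⟨_, _, _, _, hu⟩ := hu
  obtain ⟨_, _, _, _, hv⟩ := hv
  have h0 : ∀ x, u 0 x = v 0 x := fun x => by rw [hu.at_rest, hv.at_rest]
  intro t ht x
  exact ⟨Uniq.velocity_unique hν hu.toSol hv.toSol h0 t ht x,
    Uniq.pressure_unique hν hT hu.toSol hv.toSol h0
      (fun s hs => by rw [hu.mean_zero s hs, hv.mean_zero s hs]) t ht x⟩

/-! ### Assembly -/

theorem main :
    ∃ (a lo hi : Fin 3 → ℚ)
      (C : (ℕ × ℕ × ℕ × List Bool × List (List (ℕ × ℕ × ℕ))) × List ℕ → Fin 3 → List TermCode),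
      (∀ i, lo i < hi i) ∧ ∀ ν : ℝ, 0 < ν → IsForceCompiler ν C ∧
        ∀ (M : Machine) (w : List (Fin (M.nS + 1))),
          ∃ (u : ℝ → (Fin 3 → ℝ) → Fin 3 → ℝ) (p : ℝ → (Fin 3 → ℝ) → ℝ),
            IsGlobalSmooth ν (forceOf ν (C (M.pairCode w))) u p ∧
            (∀ T : ℝ, 0 < T → ∀ v q, IsClassical ν (forceOf ν (C (M.pairCode w))) (Icc 0 T) v q →
              ∀ t ∈ Icc 0 T, ∀ x, v t x = u t x ∧ q t x = p t x) ∧
            (∃ X, IsTrajectory u (fun i => a i) X ∧
              ∀ Y, IsTrajectory u (fun i => a i) Y → ∀ t, 0 ≤ t → Y t = X t) ∧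
            ∀ X, IsTrajectory u (fun i => a i) X →
              ((∃ t, 0 ≤ t ∧ InBoxImage lo hi (X t)) ↔ M.Halts w) := by
  obtain ⟨P, hP, hPM⟩ := Machine.exists_re
  obtain ⟨N, dir, d, x₀, al, be, D, -, -, hreg⟩ := exists_regProg P hP
  choose F hF hFd using fun j => exists_sp2_affine N (d j)
  choose L hL hLv using fun i => perForce_rep (S := 7) dir (fun j _ => hF j) i
  let Q : ℕ → Fin 3 → ℚ := fun n => ![x₀, al + be / (D : ℚ) ^ n, 0]
  refine ⟨0, ![-1, -1, 5 / 8], ![1, 1, 7 / 8],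
    fun c i => loadTerm 8 (Q (Encodable.encode c) i) :: L i, ?_, fun ν hν => ⟨⟨?_, ?_, ?_, ?_⟩, ?_⟩⟩
  · intro i; fin_cases i <;> norm_num
  · apply Primrec.to_comp
    rw [Primrec.fin_curry]
    refine (Primrec.fin_curry₁.2 fun i => ?_).swap
    refine Primrec.list_cons.comp ((primrec_loadTerm 8).comp ?_) (Primrec.const _)
    fin_cases i
    · exact Primrec.const x₀
    · have := (RatPrim.primrec_loader al be D 1).comp
        (Primrec.encode (α := (ℕ × ℕ × ℕ × List Bool × List (List (ℕ × ℕ × ℕ))) × List ℕ))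
      simpa [Q] using this
    · exact Primrec.const 0
  · intro M w i τ hτ
    rcases List.mem_cons.1 hτ with rfl | h
    · exact loadTerm_valid (by norm_num) _
    · exact (hL i τ h).1
  · refine ⟨2, fun M w i τ hτ hp t ht x => ?_⟩
    rcases List.mem_cons.1 hτ with rfl | h
    · rw [loadTerm_val, lprof'_of_ge (by norm_num) ht, zero_mul]
    · rw [(hL i τ h).2] at hp; exact absurd hp (by simp)
  · intro M w w' i
    simp only [List.filter_cons, loadTerm_isPeriodic]
    simp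
  · intro M w
    set n := Encodable.encode (M.pairCode w) with hn
    let q : Fin 3 → ℝ := fun i => Q n i
    have hf : ∀ t x i, forceOf ν (fun i => loadTerm 8 (Q n i) :: L i) t x i
        = lprof' (7 + 1) t * q i + perForce ν 7 dir F t x i := by
      intro t x i
      simp only [forceOf, List.map_cons, List.sum_cons, loadTerm_val, hLv, q]
    have hcl : ∀ I : Set ℝ, I ⊆ Ici 0 → IsClassical ν (forceOf ν fun i => loadTerm 8 (Q n i) :: L i) I
        (vel 7 dir F q) fun _ _ => 0 := fun I hI => vel_isClassical (fun j _ => hF j) ν hf hI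
    have h0 : (fun i => (((0 : Fin 3 → ℚ) i : ℚ) : ℝ)) = 0 := by funext i; simp
    refine ⟨vel 7 dir F q, fun _ _ => 0,
      ⟨hcl _ le_rfl, (vel_smooth fun j _ => hF j).contDiffOn, contDiffOn_const⟩,
      fun T hT v p hv => hv.unique hν.le hT (hcl _ Icc_subset_Ici_self), ?_, ?_⟩
    · obtain ⟨X, hX0, hX⟩ := vel_traj_exists (S := 7) (dir := dir) (F := F) (q := q) 0
      refine ⟨X, ⟨by rw [h0]; exact hX0, fun t ht => (hX t ht).hasDerivWithinAt⟩, ?_⟩
      rintro Y ⟨hY0, hY⟩ t ht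
      rw [h0] at hY0
      exact vel_traj_unique hY0 (fun t ht => (hY t ht).continuousWithinAt)
        (fun t ht => (hY t ht).mono (Ici_subset_Ici.2 ht)) hX0
        (fun t ht => (hX t ht).continuousAt.continuousWithinAt)
        (fun t ht => (hX t ht).hasDerivWithinAt) ht
    · rintro X ⟨hX0, hX⟩
      rw [h0] at hX0
      have hc : ContinuousOn X (Ici 0) := fun t ht => (hX t ht).continuousWithinAt
      have hd : ∀ t, 0 ≤ t → HasDerivWithinAt X (vel 7 dir F q t (X t)) (Ici t) t :=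
        fun t ht => (hX t ht).mono (Ici_subset_Ici.2 ht)
      have hq : regOrbit 7 dir F (0 + q) 0
          = ![(x₀ : ℝ), ((al + be / (D : ℚ) ^ n : ℚ) : ℝ), 0] := by
        funext i; fin_cases i <;> simp [regOrbit, q, Q]
      obtain ⟨hyes, hno⟩ := hreg F (fun j _ => hFd j) n (regOrbit 7 dir F (0 + q)) hq fun k => rfl
      rw [← hPM M w]
      constructor
      · rintro ⟨t, ht, m, hm⟩
        by_contra hP'
        have hmem : X t ∈ {x : Fin 3 → ℝ | 0 ≤ x 2 ∧ x 2 ≤ 1 / 2} := by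
          refine vel_traj_mem (C := {x : Fin 3 → ℝ | 0 ≤ x 2 ∧ x 2 ≤ 1 / 2}) hX0 hc hd ?_
            ⟨by simp, by simp⟩ (fun l => hno hP' l 2) ht
          exact (convex_Icc (0 : ℝ) (1 / 2)).is_linear_preimage
            (f := fun x : Fin 3 → ℝ => x 2) ⟨fun _ _ => rfl, fun _ _ => rfl⟩
        obtain ⟨h1, h2⟩ := hm 2
        simp only [Matrix.cons_val] at h1 h2
        push_cast at h1 h2
        have h3 : (0 : ℝ) < m 2 := by linarith [hmem.2]
        have h4 : (m 2 : ℝ) < 1 := by linarith [hmem.1]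
        have h5 : 0 < m 2 := by exact_mod_cast h3
        have h6 : m 2 < 1 := by exact_mod_cast h4
        omega
      · intro hP'
        obtain ⟨k, hk⟩ := hyes hP'
        obtain ⟨t, ht, hXt⟩ := vel_traj_visits (by norm_num) hX0 hc hd k
        refine ⟨t, ht, ![-⌊X t 0⌋, -⌊X t 1⌋, 0], fun i => ?_⟩
        fin_cases i
        · have := Int.floor_le (X t 0); have := Int.lt_floor_add_one (X t 0)
          simp; constructor <;> linarith
        · have := Int.floor_le (X t 1); have := Int.lt_floor_add_one (X t 1)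
          simp; constructor <;> linarith
        · have : X t 2 = 3 / 4 := by rw [hXt, hk]
          simp [this]; norm_num

end Vale.Agent.P113Z
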