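import Mathlib.Data.List.OfFn
import Mathlib.Logic.Function.Iterate
import Mathlib.Data.Int.Init
import Mathlib.Data.List.GetD

/-!
Deterministic one-tape Turing machines, their halting, and their finite descriptions.
-/

namespace Vale.Agent.P113Z

/-- A deterministic one-tape Turing machine with states `0, …, nQ` and tape symbols `0, …, nS`,
the blank being `0`. In state `q` reading `a` it writes a symbol, moves the head by `-1`, `0`
or `1` (coded `0`, `1`, `2`) and enters a new state. -/
structure Machine where
  nQ : ℕ
  nS : ℕ
  start : Fin (nQ + 1)
  halt : Fin (nQ + 1) → Bool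
  delta : Fin (nQ + 1) → Fin (nS + 1) → Fin (nQ + 1) × Fin (nS + 1) × Fin 3

/-- A configuration: state, two-sided tape and head position. -/
structure Config (M : Machine) where
  state : Fin (M.nQ + 1)
  tape : ℤ → Fin (M.nS + 1)
  head : ℤ

/-- One step of the machine. -/
def Machine.step (M : Machine) (c : Config M) : Config M :=
  ⟨(M.delta c.state (c.tape c.head)).1,
    Function.update c.tape c.head (M.delta c.state (c.tape c.head)).2.1,
    c.head + (((M.delta c.state (c.tape c.head)).2.2 : ℕ) : ℤ) - 1⟩

/-- The initial configuration: the word on cells `0, 1, …` of a blank tape, head at cell `0`. -/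
def Machine.init (M : Machine) (w : List (Fin (M.nS + 1))) : Config M :=
  ⟨M.start, fun i => if 0 ≤ i then w.getD i.toNat 0 else 0, 0⟩

/-- The machine reaches a halting state after finitely many steps, possibly none. -/
def Machine.Halts (M : Machine) (w : List (Fin (M.nS + 1))) : Prop :=
  ∃ n : ℕ, M.halt (M.step^[n] (M.init w)).state = true

/-- The finite description of a machine: the two sizes, the start state, the list of halting
flags and the transition table. -/
def Machine.code (M : Machine) : ℕ × ℕ × ℕ × List Bool × List (List (ℕ × ℕ × ℕ)) :=
  (M.nQ, M.nS, M.start, List.ofFn M.halt,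
    List.ofFn fun q => List.ofFn fun a =>
      (((M.delta q a).1 : ℕ), ((M.delta q a).2.1 : ℕ), ((M.delta q a).2.2 : ℕ)))

end Vale.Agent.P113Z
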