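import Vale.Agent.P113Z.Bump
import Vale.Agent.P113Z.MachineDefs
import Mathlib.Analysis.Calculus.LineDeriv.Basic
import Mathlib.Computability.Partrec
import Mathlib.Data.Rat.Denumerable

/-!
Definitions for the statement: admissible terms, force compilers, classical and smooth solutions
of the forced Navier-Stokes system on the torus, trajectories.

Functions on the torus `(ℝ/ℤ)³` are functions on `ℝ³` of period one in every coordinate;
a trajectory on the torus is given by its lift to `ℝ³`.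
-/

open scoped ContDiff
open Set MeasureTheory

namespace Vale.Agent.P113Z

/-- The data of a bump: `inl (k, j, a, b)` stands for `s ↦ s^k rho^(j)(a s - b)` and
`inr (k, l, a, b)` for `s ↦ s^k pi_l(a s - b)`. -/
abbrev BumpCode : Type := (ℕ × ℕ × ℚ × ℚ) ⊕ (ℕ × ℚ × ℚ × ℚ)

/-- The side conditions `a ≠ 0` and `l > 0`. -/
def BumpCode.Valid : BumpCode → Prop
  | .inl (_, _, a, _) => a ≠ 0
  | .inr (_, l, a, _) => a ≠ 0 ∧ 0 < l

/-- The bump given by the data. -/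
noncomputable def BumpCode.val : BumpCode → ℝ → ℝ
  | .inl (k, j, a, b) => fun s => s ^ k * iteratedDeriv j rho (a * s - b)
  | .inr (k, l, a, b) => fun s => s ^ k * piL l (a * s - b)

/-- The data of a term `c θ(t) h₁(x₁) h₂(x₂) h₃(x₃)`: the data `(q, m, n, [r₁, …])` of the constant,
the list of time factors (`(true, g)` is `P[g](t)` and `(false, g)` is `g(t)`), and for each
coordinate the list of bumps whose periodizations are multiplied. An empty product is `1`. -/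
abbrev TermCode : Type :=
  (ℚ × ℕ × ℤ × List ℚ) × List (Bool × BumpCode) × (Fin 3 → List BumpCode)

/-- The side conditions: all `r_i > 0` and all bumps valid. -/
def TermCode.Valid (τ : TermCode) : Prop :=
  (∀ r ∈ τ.1.2.2.2, 0 < r) ∧ (∀ g ∈ τ.2.1, g.2.Valid) ∧ ∀ i, ∀ g ∈ τ.2.2 i, g.Valid

/-- A term is periodic if all its time factors are periodizations. -/
def TermCode.isPeriodic (τ : TermCode) : Bool := τ.2.1.all fun g => g.1

/-- The constant `c = q ν^m κ^n ∏ ln r_i`. -/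
noncomputable def TermCode.const (ν : ℝ) (τ : TermCode) : ℝ :=
  (τ.1.1 : ℝ) * ν ^ τ.1.2.1 * kappa ^ τ.1.2.2.1 * (τ.1.2.2.2.map fun r : ℚ => Real.log r).prod

/-- The time factor `θ(t)`. -/
noncomputable def TermCode.time (τ : TermCode) (t : ℝ) : ℝ :=
  (τ.2.1.map fun g => if g.1 then per g.2.val t else g.2.val t).prod

/-- The value of a term at `(t, x)`. -/
noncomputable def TermCode.val (ν : ℝ) (τ : TermCode) (t : ℝ) (x : Fin 3 → ℝ) : ℝ :=
  τ.const ν * τ.time t * ∏ i, ((τ.2.2 i).map fun g => per g.val (x i)).prod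

/-- The force whose component `i` is the sum of the terms listed in `L i`. -/
noncomputable def forceOf (ν : ℝ) (L : Fin 3 → List TermCode) (t : ℝ) (x : Fin 3 → ℝ)
    (i : Fin 3) : ℝ :=
  ((L i).map fun τ => τ.val ν t x).sum

/-- The finite description of a pair machine, input word. -/
def Machine.pairCode (M : Machine) (w : List (Fin (M.nS + 1))) :
    (ℕ × ℕ × ℕ × List Bool × List (List (ℕ × ℕ × ℕ))) × List ℕ :=
  (M.code, w.map Fin.val)

/-- A force compiler for the viscosity `ν`: a total computable map from descriptions of pairs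
`(M, w)` to three lists of valid terms, such that the terms that are not periodic vanish after a
time `T₀` independent of `(M, w)`, and the lists of periodic terms depend on `M` only. -/
structure IsForceCompiler (ν : ℝ)
    (C : (ℕ × ℕ × ℕ × List Bool × List (List (ℕ × ℕ × ℕ))) × List ℕ → Fin 3 → List TermCode) :
    Prop where
  computable : Computable C
  valid : ∀ (M : Machine) (w : List (Fin (M.nS + 1))) (i : Fin 3),
    ∀ τ ∈ C (M.pairCode w) i, τ.Valid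
  vanish : ∃ T₀ : ℝ, ∀ (M : Machine) (w : List (Fin (M.nS + 1))) (i : Fin 3),
    ∀ τ ∈ C (M.pairCode w) i, τ.isPeriodic = false → ∀ t, T₀ ≤ t → ∀ x, τ.val ν t x = 0
  periodic_part : ∀ (M : Machine) (w w' : List (Fin (M.nS + 1))) (i : Fin 3),
    (C (M.pairCode w) i).filter TermCode.isPeriodic
      = (C (M.pairCode w') i).filter TermCode.isPeriodic

/-- `(u, p)` is a classical solution for the times in `I` (`I = [0,T]` or `I = [0,∞)`), with the
derivatives `ut t x i = ∂_t u_i`, `Du t x j i = ∂_j u_i`, `D2u t x k j i = ∂_k ∂_j u_i` and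
`Dp t x j = ∂_j p`, all continuous on `I × ℝ³`. -/
structure IsSolutionWith (ν : ℝ) (f : ℝ → (Fin 3 → ℝ) → Fin 3 → ℝ) (I : Set ℝ)
    (u : ℝ → (Fin 3 → ℝ) → Fin 3 → ℝ) (p : ℝ → (Fin 3 → ℝ) → ℝ)
    (ut : ℝ → (Fin 3 → ℝ) → Fin 3 → ℝ) (Du : ℝ → (Fin 3 → ℝ) → Fin 3 → Fin 3 → ℝ)
    (D2u : ℝ → (Fin 3 → ℝ) → Fin 3 → Fin 3 → Fin 3 → ℝ)
    (Dp : ℝ → (Fin 3 → ℝ) → Fin 3 → ℝ) : Prop where
  periodic_u : ∀ t ∈ I, ∀ x j, u t (x + Pi.single j 1) = u t x
  periodic_p : ∀ t ∈ I, ∀ x j, p t (x + Pi.single j 1) = p t x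
  has_ut : ∀ t ∈ I, ∀ x i, HasDerivWithinAt (fun s => u s x i) (ut t x i) I t
  has_Du : ∀ t ∈ I, ∀ x j i, HasLineDerivAt ℝ (fun y => u t y i) (Du t x j i) x (Pi.single j 1)
  has_D2u : ∀ t ∈ I, ∀ x k j i,
    HasLineDerivAt ℝ (fun y => Du t y j i) (D2u t x k j i) x (Pi.single k 1)
  has_Dp : ∀ t ∈ I, ∀ x j, HasLineDerivAt ℝ (p t) (Dp t x j) x (Pi.single j 1)
  cont_u : ContinuousOn (fun z : ℝ × (Fin 3 → ℝ) => u z.1 z.2) (I ×ˢ univ)
  cont_ut : ContinuousOn (fun z : ℝ × (Fin 3 → ℝ) => ut z.1 z.2) (I ×ˢ univ)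
  cont_Du : ContinuousOn (fun z : ℝ × (Fin 3 → ℝ) => Du z.1 z.2) (I ×ˢ univ)
  cont_D2u : ContinuousOn (fun z : ℝ × (Fin 3 → ℝ) => D2u z.1 z.2) (I ×ˢ univ)
  cont_p : ContinuousOn (fun z : ℝ × (Fin 3 → ℝ) => p z.1 z.2) (I ×ˢ univ)
  cont_Dp : ContinuousOn (fun z : ℝ × (Fin 3 → ℝ) => Dp z.1 z.2) (I ×ˢ univ)
  momentum : ∀ t ∈ I, ∀ x i, ut t x i + ∑ j, u t x j * Du t x j i
    = -Dp t x i + ν * ∑ j, D2u t x j j i + f t x i
  div_free : ∀ t ∈ I, ∀ x, ∑ j, Du t x j j = 0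
  at_rest : ∀ x, u 0 x = 0
  mean_zero : ∀ t ∈ I, ∫ x in Icc (0 : Fin 3 → ℝ) 1, p t x = 0

/-- `(u, p)` is a classical solution for the times in `I`. -/
def IsClassical (ν : ℝ) (f : ℝ → (Fin 3 → ℝ) → Fin 3 → ℝ) (I : Set ℝ)
    (u : ℝ → (Fin 3 → ℝ) → Fin 3 → ℝ) (p : ℝ → (Fin 3 → ℝ) → ℝ) : Prop :=
  ∃ ut Du D2u Dp, IsSolutionWith ν f I u p ut Du D2u Dp

/-- `(u, p)` is a global smooth solution: a classical solution on `[0,∞)` that is `C^∞` on
`[0,∞) × ℝ³`. -/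
def IsGlobalSmooth (ν : ℝ) (f : ℝ → (Fin 3 → ℝ) → Fin 3 → ℝ)
    (u : ℝ → (Fin 3 → ℝ) → Fin 3 → ℝ) (p : ℝ → (Fin 3 → ℝ) → ℝ) : Prop :=
  IsClassical ν f (Ici 0) u p ∧
    ContDiffOn ℝ ∞ (fun z : ℝ × (Fin 3 → ℝ) => u z.1 z.2) (Ici 0 ×ˢ univ) ∧
    ContDiffOn ℝ ∞ (fun z : ℝ × (Fin 3 → ℝ) => p z.1 z.2) (Ici 0 ×ˢ univ)

/-- `X` is the (lifted) trajectory of `a`: `X(0) = a` and `X'(t) = u(t, X(t))` for `t ≥ 0`. -/
def IsTrajectory (u : ℝ → (Fin 3 → ℝ) → Fin 3 → ℝ) (a : Fin 3 → ℝ) (X : ℝ → Fin 3 → ℝ) : Prop :=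
  X 0 = a ∧ ∀ t ∈ Ici (0 : ℝ), HasDerivWithinAt X (u t (X t)) (Ici 0) t

/-- The class of `x` in the torus lies in the image of the open box with corners `lo`, `hi`. -/
def InBoxImage (lo hi : Fin 3 → ℚ) (x : Fin 3 → ℝ) : Prop :=
  ∃ m : Fin 3 → ℤ, ∀ i, (lo i : ℝ) < x i + m i ∧ x i + m i < hi i

end Vale.Agent.P113Z
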