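import Vale.Agent.P113Z.RatPrim

/-! The loader coordinates are computable functions of the unary input. -/

namespace Vale.Agent.P113Z

open RatPrim

theorem primrec_loader' (al be c : ℚ) (D : ℕ) :
    Primrec fun n : ℕ => (c * (al + be / (D : ℚ) ^ n) : ℚ) :=
  primrec_mul.comp (Primrec.const c) (primrec_add.comp (Primrec.const al)
    (primrec_div.comp (Primrec.const be) (primrec_pow.comp (Primrec.const (D : ℚ)) Primrec.id)))

theorem computable_loader (al be c : ℚ) (D : ℕ) :
    Computable fun n : ℕ => (c * (al + be / (D : ℚ) ^ n) : ℚ) :=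
  (primrec_loader' al be c D).to_comp

end Vale.Agent.P113Z
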