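import Vale.Agent.P113Z.NSDefs
import Vale.Agent.P113Z.Uniq

/-!
Uniqueness of classical solutions in the terms of the statement.
-/

open Set MeasureTheory

namespace Vale.Agent.P113Z

variable {ν T : ℝ} {f u v ut Dp : ℝ → (Fin 3 → ℝ) → Fin 3 → ℝ} {p q : ℝ → (Fin 3 → ℝ) → ℝ}
  {Du : ℝ → (Fin 3 → ℝ) → Fin 3 → Fin 3 → ℝ} {D2u : ℝ → (Fin 3 → ℝ) → Fin 3 → Fin 3 → Fin 3 → ℝ}

theorem IsSolutionWith.mono {I J : Set ℝ} (h : IsSolutionWith ν f I u p ut Du D2u Dp)
    (hJ : J ⊆ I) : IsSolutionWith ν f J u p ut Du D2u Dp where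
  periodic_u t ht := h.periodic_u t (hJ ht)
  periodic_p t ht := h.periodic_p t (hJ ht)
  has_ut t ht x i := (h.has_ut t (hJ ht) x i).mono hJ
  has_Du t ht := h.has_Du t (hJ ht)
  has_D2u t ht := h.has_D2u t (hJ ht)
  has_Dp t ht := h.has_Dp t (hJ ht)
  cont_u := h.cont_u.mono (prod_mono hJ subset_rfl)
  cont_ut := h.cont_ut.mono (prod_mono hJ subset_rfl)
  cont_Du := h.cont_Du.mono (prod_mono hJ subset_rfl)
  cont_D2u := h.cont_D2u.mono (prod_mono hJ subset_rfl)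
  cont_p := h.cont_p.mono (prod_mono hJ subset_rfl)
  cont_Dp := h.cont_Dp.mono (prod_mono hJ subset_rfl)
  momentum t ht := h.momentum t (hJ ht)
  div_free t ht := h.div_free t (hJ ht)
  at_rest := h.at_rest
  mean_zero t ht := h.mean_zero t (hJ ht)

theorem IsClassical.mono {I J : Set ℝ} (h : IsClassical ν f I u p) (hJ : J ⊆ I) :
    IsClassical ν f J u p := by
  obtain ⟨ut, Du, D2u, Dp, h⟩ := h
  exact ⟨ut, Du, D2u, Dp, h.mono hJ⟩

theorem IsSolutionWith.sol (h : IsSolutionWith ν f (Icc 0 T) u p ut Du D2u Dp) :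
    Uniq.Sol ν T f u p ut Du (fun t x j i => D2u t x j j i) Dp where
  per_u := h.periodic_u
  per_p := h.periodic_p
  cont_u i := continuousOn_pi.1 h.cont_u i
  cont_ut i := continuousOn_pi.1 h.cont_ut i
  cont_Du j i := continuousOn_pi.1 (continuousOn_pi.1 h.cont_Du j) i
  cont_D2u _ ht j i := Uniq.cont_slice (W := fun t x => D2u t x j j i)
    (continuousOn_pi.1 (continuousOn_pi.1 (continuousOn_pi.1 h.cont_D2u j) j) i) ht
  cont_p _ ht := Uniq.cont_slice h.cont_p ht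
  cont_Dp _ ht j := Uniq.cont_slice (W := fun t x => Dp t x j) (continuousOn_pi.1 h.cont_Dp j) ht
  has_ut := h.has_ut
  has_Du := h.has_Du
  has_D2u t ht x j i := h.has_D2u t ht x j j i
  has_Dp := h.has_Dp
  eqn := h.momentum
  div := h.div_free

/-- Two classical solutions on `[0,T]`, `T > 0`, agree. -/
theorem classical_unique (hν : 0 ≤ ν) (hT : 0 < T) (hu : IsClassical ν f (Icc 0 T) u p)
    (hv : IsClassical ν f (Icc 0 T) v q) :
    ∀ t ∈ Icc 0 T, ∀ x, v t x = u t x ∧ q t x = p t x := by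
  obtain ⟨ut, Du, D2u, Dp, hu⟩ := hu
  obtain ⟨vt, Dv, D2v, Dq, hv⟩ := hv
  have h0 : ∀ x, v 0 x = u 0 x := fun x => by rw [hu.at_rest, hv.at_rest]
  intro t ht x
  exact ⟨Uniq.velocity_unique hν hv.sol hu.sol h0 t ht x,
    Uniq.pressure_unique hν hT hv.sol hu.sol h0
      (fun s hs => by rw [hu.mean_zero s hs, hv.mean_zero s hs]) t ht x⟩

/-- A global smooth solution is unique among classical solutions on each `[0,T]`. -/
theorem IsGlobalSmooth.unique (hν : 0 ≤ ν) (hu : IsGlobalSmooth ν f u p) (T : ℝ) (hT : 0 < T)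
    (v : ℝ → (Fin 3 → ℝ) → Fin 3 → ℝ) (q : ℝ → (Fin 3 → ℝ) → ℝ)
    (hv : IsClassical ν f (Icc 0 T) v q) :
    ∀ t ∈ Icc 0 T, ∀ x, v t x = u t x ∧ q t x = p t x :=
  classical_unique hν hT (hu.1.mono Icc_subset_Ici_self) hv

end Vale.Agent.P113Z
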