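import Vale.Agent.P113Z.UniqIBP
import Mathlib.Analysis.SpecialFunctions.ExpDeriv
import Mathlib.MeasureTheory.Measure.OpenPos
import Mathlib.MeasureTheory.Integral.DominatedConvergence

/-!
The energy inequality for the difference of two periodic solutions, and the Gronwall step.
-/

namespace Vale.Agent.P113Z.Uniq

open MeasureTheory Set

theorem neg_mul_mul_le {a b c M : ℝ} (h : |c| ≤ M) : -(a * b * c) ≤ M * (a ^ 2 + b ^ 2) / 2 := by
  obtain ⟨h1, h2⟩ := abs_le.1 h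
  nlinarith [mul_nonneg (sq_nonneg (a + b)) (by linarith : 0 ≤ M + c),
    mul_nonneg (sq_nonneg (a - b)) (by linarith : 0 ≤ M - c)]

/-- The spatial energy inequality at a fixed time. -/
theorem energy_ineq {ν M : ℝ} (hν : 0 ≤ ν)
    (w v wt Dq : (Fin 3 → ℝ) → Fin 3 → ℝ) (Dw D2w Dv A : (Fin 3 → ℝ) → Fin 3 → Fin 3 → ℝ)
    (q : (Fin 3 → ℝ) → ℝ)
    (cw : ∀ i, Continuous fun x => w x i) (cv : ∀ i, Continuous fun x => v x i)
    (cwt : ∀ i, Continuous fun x => wt x i)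
    (cDw : ∀ j i, Continuous fun x => Dw x j i) (cD2w : ∀ j i, Continuous fun x => D2w x j i)
    (cDv : ∀ j, Continuous fun x => Dv x j j) (cq : Continuous q)
    (cDq : ∀ i, Continuous fun x => Dq x i)
    (pw : ∀ x j, w (x + Pi.single j 1) = w x) (pv : ∀ x j, v (x + Pi.single j 1) = v x)
    (pq : ∀ x j, q (x + Pi.single j 1) = q x)
    (hw : ∀ x j i, HasLineDerivAt ℝ (fun y => w y i) (Dw x j i) x (Pi.single j 1))
    (hDw : ∀ x j i, HasLineDerivAt ℝ (fun y => Dw y j i) (D2w x j i) x (Pi.single j 1))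
    (hv : ∀ x j, HasLineDerivAt ℝ (fun y => v y j) (Dv x j j) x (Pi.single j 1))
    (hq : ∀ x j, HasLineDerivAt ℝ q (Dq x j) x (Pi.single j 1))
    (divw : ∀ x, ∑ j, Dw x j j = 0) (divv : ∀ x, ∑ j, Dv x j j = 0)
    (eqn : ∀ x i, wt x i = -(∑ j, w x j * A x j i) - ∑ j, v x j * Dw x j i - Dq x i
      + ν * ∑ j, D2w x j i)
    (hA : ∀ x ∈ Icc (0 : Fin 3 → ℝ) 1, ∀ j i, |A x j i| ≤ M) :
    ∫ x in Icc (0 : Fin 3 → ℝ) 1, ∑ i, w x i * wt x i
      ≤ 3 * M * ∫ x in Icc (0 : Fin 3 → ℝ) 1, ∑ i, w x i ^ 2 := by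
  -- the flux and its derivative
  let J : Fin 3 → (Fin 3 → ℝ) → ℝ := fun j x =>
    -(v x j * (w x 0 * w x 0 + w x 1 * w x 1 + w x 2 * w x 2) / 2) - w x j * q x
      + ν * (w x 0 * Dw x j 0 + w x 1 * Dw x j 1 + w x 2 * Dw x j 2)
  let J' : Fin 3 → (Fin 3 → ℝ) → ℝ := fun j x =>
    -((Dv x j j * (w x 0 * w x 0 + w x 1 * w x 1 + w x 2 * w x 2)
        + v x j * ((Dw x j 0 * w x 0 + w x 0 * Dw x j 0) + (Dw x j 1 * w x 1 + w x 1 * Dw x j 1)
          + (Dw x j 2 * w x 2 + w x 2 * Dw x j 2))) / 2)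
      - (Dw x j j * q x + w x j * Dq x j)
      + ν * ((Dw x j 0 * Dw x j 0 + w x 0 * D2w x j 0) + (Dw x j 1 * Dw x j 1 + w x 1 * D2w x j 1)
          + (Dw x j 2 * Dw x j 2 + w x 2 * D2w x j 2))
  have pDw : ∀ x j k i, Dw (x + Pi.single k 1) j i = Dw x j i := fun x j k i =>
    lineDeriv_periodic (g := fun y => w y i) (g' := fun y => Dw y j i)
      (fun y => by simp only [pw]) (fun y => hw y j i) x
  have hJper : ∀ j x, J j (x + Pi.single j 1) = J j x := by
    intro j x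
    simp only [J, pw, pv, pq, pDw]
  have hJ : ∀ j x, HasLineDerivAt ℝ (J j) (J' j x) x (Pi.single j 1) := by
    intro j x
    have a0 := hw x j 0
    have a1 := hw x j 1
    have a2 := hw x j 2
    have aj := hw x j j
    have b0 := hDw x j 0
    have b1 := hDw x j 1
    have b2 := hDw x j 2
    have c := hv x j
    have d := hq x j
    unfold HasLineDerivAt at a0 a1 a2 aj b0 b1 b2 c d ⊢
    have h := (((c.mul (((a0.mul a0).add (a1.mul a1)).add (a2.mul a2))).div_const 2).neg.sub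
      (aj.mul d)).add ((((a0.mul b0).add (a1.mul b1)).add (a2.mul b2)).const_mul ν)
    simp only [zero_smul, add_zero, Pi.mul_apply, Pi.add_apply] at h
    exact h
  have cJ' : ∀ j, Continuous (J' j) := by
    intro j
    have := cw; have := cv; have := cDw; have := cD2w; have := cDv; have := cDq
    simp only [J']
    fun_prop
  have hint : ∀ j, ∫ x in Icc (0 : Fin 3 → ℝ) 1, J' j x = 0 := fun j =>
    integral_cube_deriv_eq_zero (n := 2) j (J j) (J' j) (hJper j) (hJ j) (cJ' j)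
  have hpt : ∀ x ∈ Icc (0 : Fin 3 → ℝ) 1, ∑ i, w x i * wt x i
      ≤ (J' 0 x + J' 1 x + J' 2 x) + 3 * M * ∑ i, w x i ^ 2 := by
    intro x hx
    have e0 := eqn x 0
    have e1 := eqn x 1
    have e2 := eqn x 2
    have dw := divw x
    have dv := divv x
    simp only [Fin.sum_univ_three] at e0 e1 e2 dw dv ⊢
    have hid : w x 0 * wt x 0 + w x 1 * wt x 1 + w x 2 * wt x 2
        = (J' 0 x + J' 1 x + J' 2 x)
          + (-(w x 0 * w x 0 * A x 0 0) + -(w x 0 * w x 1 * A x 1 0) + -(w x 0 * w x 2 * A x 2 0)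
            + -(w x 1 * w x 0 * A x 0 1) + -(w x 1 * w x 1 * A x 1 1) + -(w x 1 * w x 2 * A x 2 1)
            + -(w x 2 * w x 0 * A x 0 2) + -(w x 2 * w x 1 * A x 1 2) + -(w x 2 * w x 2 * A x 2 2))
          - ν * (Dw x 0 0 ^ 2 + Dw x 0 1 ^ 2 + Dw x 0 2 ^ 2 + Dw x 1 0 ^ 2 + Dw x 1 1 ^ 2
            + Dw x 1 2 ^ 2 + Dw x 2 0 ^ 2 + Dw x 2 1 ^ 2 + Dw x 2 2 ^ 2) := by
      simp only [J']
      rw [e0, e1, e2]
      linear_combination
        ((w x 0 * w x 0 + w x 1 * w x 1 + w x 2 * w x 2) / 2) * dv + q x * dw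
    have hnn : 0 ≤ ν * (Dw x 0 0 ^ 2 + Dw x 0 1 ^ 2 + Dw x 0 2 ^ 2 + Dw x 1 0 ^ 2 + Dw x 1 1 ^ 2
            + Dw x 1 2 ^ 2 + Dw x 2 0 ^ 2 + Dw x 2 1 ^ 2 + Dw x 2 2 ^ 2) := by positivity
    have b00 := neg_mul_mul_le (a := w x 0) (b := w x 0) (hA x hx 0 0)
    have b10 := neg_mul_mul_le (a := w x 0) (b := w x 1) (hA x hx 1 0)
    have b20 := neg_mul_mul_le (a := w x 0) (b := w x 2) (hA x hx 2 0)
    have b01 := neg_mul_mul_le (a := w x 1) (b := w x 0) (hA x hx 0 1)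
    have b11 := neg_mul_mul_le (a := w x 1) (b := w x 1) (hA x hx 1 1)
    have b21 := neg_mul_mul_le (a := w x 1) (b := w x 2) (hA x hx 2 1)
    have b02 := neg_mul_mul_le (a := w x 2) (b := w x 0) (hA x hx 0 2)
    have b12 := neg_mul_mul_le (a := w x 2) (b := w x 1) (hA x hx 1 2)
    have b22 := neg_mul_mul_le (a := w x 2) (b := w x 2) (hA x hx 2 2)
    rw [hid]
    linarith
  have i1 : IntegrableOn (fun x => ∑ i, w x i * wt x i) (Icc (0 : Fin 3 → ℝ) 1) := by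
    refine Continuous.continuousOn ?_ |>.integrableOn_compact isCompact_Icc
    exact continuous_finsetSum _ fun i _ => (cw i).mul (cwt i)
  have i2 : IntegrableOn (fun x => ∑ i, w x i ^ 2) (Icc (0 : Fin 3 → ℝ) 1) := by
    refine Continuous.continuousOn ?_ |>.integrableOn_compact isCompact_Icc
    exact continuous_finsetSum _ fun i _ => (cw i).pow 2
  have i3 : ∀ j, IntegrableOn (J' j) (Icc (0 : Fin 3 → ℝ) 1) := fun j =>
    (cJ' j).continuousOn.integrableOn_compact isCompact_Icc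
  calc ∫ x in Icc (0 : Fin 3 → ℝ) 1, ∑ i, w x i * wt x i
      ≤ ∫ x in Icc (0 : Fin 3 → ℝ) 1,
          ((J' 0 x + J' 1 x + J' 2 x) + 3 * M * ∑ i, w x i ^ 2) :=
        setIntegral_mono_on i1 ((((i3 0).add (i3 1)).add (i3 2)).add (i2.const_mul _))
          measurableSet_Icc hpt
    _ = 3 * M * ∫ x in Icc (0 : Fin 3 → ℝ) 1, ∑ i, w x i ^ 2 := by
        have i4 : IntegrableOn (fun x => J' 0 x + J' 1 x) (Icc (0 : Fin 3 → ℝ) 1) :=
          (i3 0).add (i3 1)
        have i5 : IntegrableOn (fun x => J' 0 x + J' 1 x + J' 2 x) (Icc (0 : Fin 3 → ℝ) 1) :=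
          i4.add (i3 2)
        rw [integral_add i5 (i2.const_mul _), integral_add i4 (i3 2), integral_add (i3 0) (i3 1),
          hint, hint, hint, integral_const_mul]
        ring

theorem cube_subset_closure_interior :
    Icc (0 : Fin 3 → ℝ) 1 ⊆ closure (interior (Icc (0 : Fin 3 → ℝ) 1)) := by
  rw [← Set.pi_univ_Icc, interior_pi_set Set.finite_univ, closure_pi_set]
  intro x hx i hi
  have := hx i hi
  show x i ∈ closure (interior (Icc (0 : ℝ) 1))
  rw [interior_Icc, closure_Ioo (by simp)]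
  exact this

/-- slices of a jointly continuous function -/
theorem cont_slice {T t : ℝ} {W : ℝ → (Fin 3 → ℝ) → ℝ}
    (cW : ContinuousOn (fun z : ℝ × (Fin 3 → ℝ) => W z.1 z.2) (Icc 0 T ×ˢ univ))
    (ht : t ∈ Icc 0 T) : Continuous (W t) := by
  have h : Continuous fun x : Fin 3 → ℝ => ((t, x) : ℝ × (Fin 3 → ℝ)) := by fun_prop
  exact cW.comp_continuous h fun x => ⟨ht, mem_univ _⟩

theorem exists_bound {T : ℝ} {W : ℝ → (Fin 3 → ℝ) → ℝ}
    (cW : ContinuousOn (fun z : ℝ × (Fin 3 → ℝ) => W z.1 z.2) (Icc 0 T ×ˢ univ)) :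
    ∃ C, ∀ t ∈ Icc 0 T, ∀ x ∈ Icc (0 : Fin 3 → ℝ) 1, |W t x| ≤ C := by
  have hK : IsCompact (Icc (0 : ℝ) T ×ˢ Icc (0 : Fin 3 → ℝ) 1) := isCompact_Icc.prod isCompact_Icc
  obtain ⟨C, hC⟩ := hK.exists_bound_of_continuousOn
    (cW.mono (prod_mono subset_rfl (subset_univ _)))
  exact ⟨C, fun t ht x hx => hC (t, x) ⟨ht, hx⟩⟩

/-- The Gronwall step. -/
theorem gronwall_zero {T C : ℝ} (W W' : ℝ → (Fin 3 → ℝ) → ℝ)
    (cW : ContinuousOn (fun z : ℝ × (Fin 3 → ℝ) => W z.1 z.2) (Icc 0 T ×ˢ univ))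
    (cW' : ContinuousOn (fun z : ℝ × (Fin 3 → ℝ) => W' z.1 z.2) (Icc 0 T ×ˢ univ))
    (hd : ∀ t ∈ Ioo 0 T, ∀ x, HasDerivAt (fun s => W s x) (W' t x) t)
    (hnn : ∀ t ∈ Icc 0 T, ∀ x, 0 ≤ W t x) (h0 : ∀ x, W 0 x = 0)
    (hle : ∀ t ∈ Ioo 0 T, ∫ x in Icc (0 : Fin 3 → ℝ) 1, W' t x
      ≤ C * ∫ x in Icc (0 : Fin 3 → ℝ) 1, W t x) :
    ∀ t ∈ Icc 0 T, ∀ x ∈ Icc (0 : Fin 3 → ℝ) 1, W t x = 0 := by
  obtain ⟨B, hB⟩ := exists_bound cW
  obtain ⟨B', hB'⟩ := exists_bound cW'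
  set μ : Measure (Fin 3 → ℝ) := volume.restrict (Icc (0 : Fin 3 → ℝ) 1) with hμ
  have hfin : IsFiniteMeasure μ := by
    rw [hμ]
    exact isFiniteMeasure_restrict.2 isCompact_Icc.measure_lt_top.ne
  have hmem : ∀ᵐ x ∂μ, x ∈ Icc (0 : Fin 3 → ℝ) 1 := ae_restrict_mem measurableSet_Icc
  let E : ℝ → ℝ := fun t => ∫ x, W t x ∂μ
  have hint : ∀ t ∈ Icc 0 T, Integrable (W t) μ := fun t ht =>
    (cont_slice cW ht).continuousOn.integrableOn_compact isCompact_Icc
  have cE : ContinuousOn E (Icc 0 T) := by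
    refine continuousOn_of_dominated (bound := fun _ => B)
      (fun t ht => (cont_slice cW ht).aestronglyMeasurable) (fun t ht => ?_) (integrable_const B) ?_
    · filter_upwards [hmem] with x hx using hB t ht x hx
    · refine Filter.Eventually.of_forall fun x => ?_
      have h : Continuous fun t : ℝ => ((t, x) : ℝ × (Fin 3 → ℝ)) := by fun_prop
      exact cW.comp h.continuousOn fun t ht => ⟨ht, mem_univ _⟩
  have dE : ∀ t ∈ Ioo 0 T, HasDerivAt E (∫ x, W' t x ∂μ) t := by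
    intro t ht
    have hs : Ioo 0 T ∈ nhds t := isOpen_Ioo.mem_nhds ht
    refine (hasDerivAt_integral_of_dominated_loc_of_deriv_le (bound := fun _ => B') (F := W)
      (F' := W') hs ?_ (hint t (Ioo_subset_Icc_self ht))
      (cont_slice cW' (Ioo_subset_Icc_self ht)).aestronglyMeasurable ?_ (integrable_const B') ?_).2
    · filter_upwards [hs] with s hs' using
        (cont_slice cW (Ioo_subset_Icc_self hs')).aestronglyMeasurable
    · filter_upwards [hmem] with x hx s hs' using hB' s (Ioo_subset_Icc_self hs') x hx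
    · exact Filter.Eventually.of_forall fun x s hs' => hd s hs' x
  let F : ℝ → ℝ := fun t => Real.exp (-(C * t)) * E t
  have dF : ∀ t ∈ Ioo 0 T, HasDerivAt F
      (Real.exp (-(C * t)) * (-(C * 1)) * E t + Real.exp (-(C * t)) * ∫ x, W' t x ∂μ) t := by
    intro t ht
    exact (((hasDerivAt_id t).const_mul C).neg.exp).mul (dE t ht)
  have cF : ContinuousOn F (Icc 0 T) := by
    refine ContinuousOn.mul (Continuous.continuousOn ?_) cE
    fun_prop
  have hanti : AntitoneOn F (Icc 0 T) := by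
    refine antitoneOn_of_deriv_nonpos (convex_Icc 0 T) cF ?_ ?_
    · rw [interior_Icc]
      exact fun t ht => (dF t ht).differentiableAt.differentiableWithinAt
    · rw [interior_Icc]
      intro t ht
      rw [(dF t ht).deriv]
      have h1 := hle t ht
      have h2 := Real.exp_pos (-(C * t))
      have h3 : Real.exp (-(C * t)) * (-(C * 1)) * E t + Real.exp (-(C * t)) * ∫ x, W' t x ∂μ
          = Real.exp (-(C * t)) * ((∫ x, W' t x ∂μ) - C * E t) := by ring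
      rw [h3]
      exact mul_nonpos_of_nonneg_of_nonpos h2.le (sub_nonpos.2 h1)
  intro t ht
  have h0T : (0 : ℝ) ∈ Icc 0 T := ⟨le_rfl, ht.1.trans ht.2⟩
  have hF0 : F 0 = 0 := by simp [F, E, h0]
  have hFt : F t ≤ 0 := hF0 ▸ hanti h0T ht ht.1
  have hEnn : 0 ≤ E t := integral_nonneg fun x => hnn t ht x
  have hE : E t = 0 := by
    have h2 := Real.exp_pos (-(C * t))
    have : E t ≤ 0 := by
      by_contra hc
      exact absurd hFt (not_le.2 (mul_pos h2 (not_le.1 hc)))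
    exact le_antisymm this hEnn
  have hae : W t =ᵐ[μ] 0 :=
    (integral_eq_zero_iff_of_nonneg (fun x => hnn t ht x) (hint t ht)).1 hE
  exact Measure.eqOn_of_ae_eq hae (cont_slice cW ht).continuousOn continuousOn_const
    cube_subset_closure_interior

end Vale.Agent.P113Z.Uniq
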