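import Mathlib.Analysis.Calculus.LineDeriv.Basic
import Mathlib.Analysis.Calculus.ParametricIntegral
import Mathlib.Analysis.Calculus.Deriv.MeanValue
import Mathlib.Analysis.Calculus.MeanValue
import Mathlib.Analysis.Calculus.Deriv.Shift
import Mathlib.MeasureTheory.Integral.IntervalIntegral.FundThmCalculus
import Mathlib.MeasureTheory.Constructions.Pi
import Mathlib.MeasureTheory.Integral.Prod
import Mathlib.MeasureTheory.Measure.Lebesgue.Basic
import Mathlib.Order.Fin.Tuple

/-!
Integration by parts on the unit cube for functions that are periodic in one coordinate,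
and elementary facts about directional derivatives along the coordinate vectors.
-/

namespace Vale.Agent.P113Z.Uniq

open MeasureTheory Set

variable {n : ℕ}

theorem insertNth_add_single (j : Fin (n + 1)) (s r : ℝ) (y : Fin n → ℝ) :
    (Fin.insertNth j s y : Fin (n + 1) → ℝ) + r • (Pi.single j 1 : Fin (n + 1) → ℝ)
      = (Fin.insertNth j (s + r) y : Fin (n + 1) → ℝ) := by
  funext k
  refine Fin.succAboveCases j ?_ (fun i => ?_) k
  · simp
  · simp [Fin.succAbove_ne]

theorem hasDerivAt_insertNth (j : Fin (n + 1)) {g : (Fin (n + 1) → ℝ) → ℝ} {d s : ℝ}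
    {y : Fin n → ℝ}
    (hd : HasLineDerivAt ℝ g d (Fin.insertNth j s y) (Pi.single j 1)) :
    HasDerivAt (fun r : ℝ => g (Fin.insertNth j r y)) d s := by
  have h1 : HasDerivAt (fun r : ℝ =>
      g ((Fin.insertNth j s y : Fin (n + 1) → ℝ) + r • (Pi.single j 1 : Fin (n + 1) → ℝ))) d
      (s - s) := by
    rw [sub_self]; exact hd
  have h2 := h1.comp_sub_const s s
  refine h2.congr_of_eventuallyEq (Filter.Eventually.of_forall fun r => ?_)
  simp only [insertNth_add_single]
  congr 2
  ring

/-- The integral over the unit cube of the derivative in direction `j` of a function of period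
one in the direction `j` vanishes. -/
theorem integral_cube_deriv_eq_zero (j : Fin (n + 1)) (g g' : (Fin (n + 1) → ℝ) → ℝ)
    (hper : ∀ x, g (x + Pi.single j 1) = g x)
    (hd : ∀ x, HasLineDerivAt ℝ g (g' x) x (Pi.single j 1))
    (hc : Continuous g') :
    ∫ x in Icc (0 : Fin (n + 1) → ℝ) 1, g' x = 0 := by
  set e : ℝ × (Fin n → ℝ) ≃ᵐ (Fin (n + 1) → ℝ) :=
    (MeasurableEquiv.piFinSuccAbove (fun _ => ℝ) j).symm with he
  have hem : MeasurePreserving e :=
    (volume_preserving_piFinSuccAbove (fun _ : Fin (n + 1) => ℝ) j).symm _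
  have hepi : (e ⁻¹' Icc 0 1) = Icc (0 : ℝ) 1 ×ˢ Icc (0 : Fin n → ℝ) 1 :=
    ((Fin.insertNthOrderIso (fun _ => ℝ) j).preimage_Icc _ _).trans (Icc_prod_eq _ _)
  have hint : IntegrableOn g' (Icc (0 : Fin (n + 1) → ℝ) 1) :=
    hc.continuousOn.integrableOn_compact isCompact_Icc
  have hint' : IntegrableOn (g' ∘ e) (Icc (0 : ℝ) 1 ×ˢ Icc (0 : Fin n → ℝ) 1) := by
    rwa [← hem.integrableOn_comp_preimage e.measurableEmbedding, hepi] at hint
  rw [← hem.map_eq, setIntegral_map_equiv, hepi, Measure.volume_eq_prod,
    ← Measure.prod_restrict, integral_prod_symm]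
  · have hz : ∀ y : Fin n → ℝ, ∫ s in Icc (0 : ℝ) 1, g' (e (s, y)) = 0 := by
      intro y
      have hes : ∀ s : ℝ, e (s, y) = Fin.insertNth j s y := fun s => rfl
      simp only [hes]
      have hcont : Continuous fun s : ℝ => g' (Fin.insertNth j s y) :=
        hc.comp (Continuous.finInsertNth j continuous_id continuous_const)
      rw [integral_Icc_eq_integral_Ioc, ← intervalIntegral.integral_of_le zero_le_one,
        intervalIntegral.integral_eq_sub_of_hasDerivAt
          (f := fun r : ℝ => g (Fin.insertNth j r y))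
          (fun s _ => hasDerivAt_insertNth j (hd _)) (hcont.intervalIntegrable _ _)]
      have h1 := insertNth_add_single j 0 1 y
      rw [one_smul, zero_add] at h1
      rw [← h1, hper, sub_self]
    simp only [hz, integral_zero]
  · rw [Measure.prod_restrict]
    exact hint'

/-- The derivative in a direction `v` of a function with period `a` has period `a`. -/
theorem lineDeriv_periodic {V : Type*} [AddCommGroup V] [Module ℝ V] {g g' : V → ℝ} {a v : V}
    (hper : ∀ x, g (x + a) = g x) (hd : ∀ x, HasLineDerivAt ℝ g (g' x) x v) (x : V) :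
    g' (x + a) = g' x := by
  have h1 : HasDerivAt (fun r : ℝ => g (x + a + r • v)) (g' (x + a)) 0 := hd (x + a)
  have h2 : HasDerivAt (fun r : ℝ => g (x + r • v)) (g' x) 0 := hd x
  have h3 : (fun r : ℝ => g (x + a + r • v)) = fun r : ℝ => g (x + r • v) := by
    funext r
    rw [add_right_comm, hper]
  rw [h3] at h1
  exact h1.unique h2

/-- A function with vanishing derivative in a direction `v` is invariant under translations
along `v`. -/
theorem const_along {V : Type*} [AddCommGroup V] [Module ℝ V] {g : V → ℝ} {v : V}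
    (hd : ∀ x, HasLineDerivAt ℝ g 0 x v) (x : V) (r : ℝ) : g (x + r • v) = g x := by
  have h : ∀ s : ℝ, HasDerivAt (fun r : ℝ => g (x + r • v)) 0 s := by
    intro s
    have h1 : HasDerivAt (fun r : ℝ => g (x + s • v + r • v)) 0 (s - s) := by
      rw [sub_self]; exact hd (x + s • v)
    have h2 := h1.comp_sub_const s s
    refine h2.congr_of_eventuallyEq (Filter.Eventually.of_forall fun r => ?_)
    simp only [add_assoc, ← add_smul]
    congr 3
    ring
  have h3 := is_const_of_deriv_eq_zero (fun s => (h s).differentiableAt) (fun s => (h s).deriv) r 0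
  simpa using h3

/-- A function on `ℝ^ι` all of whose coordinate derivatives vanish is constant. -/
theorem const_of_lineDeriv_zero {ι : Type*} [Fintype ι] [DecidableEq ι] {g : (ι → ℝ) → ℝ}
    (hd : ∀ x j, HasLineDerivAt ℝ g 0 x (Pi.single j 1)) (x : ι → ℝ) : g x = g 0 := by
  have key : ∀ s : Finset ι, g (∑ j ∈ s, x j • (Pi.single j 1 : ι → ℝ)) = g 0 := by
    intro s
    induction s using Finset.induction_on with
    | empty => simp
    | insert a s ha ih =>
      rw [Finset.sum_insert ha, add_comm, const_along (fun y => hd y a), ih]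
  have hx : (∑ j, x j • (Pi.single j 1 : ι → ℝ)) = x := by
    funext k
    simp [Finset.sum_apply, Pi.single_apply]
  rw [← key Finset.univ, hx]

/-- A function of period one in every coordinate takes all its values on the unit cube. -/
theorem periodic_int {V W : Type*} [AddCommGroup V] [Module ℝ V] {g : V → W} {a : V}
    (hper : ∀ x, g (x + a) = g x) (x : V) (m : ℤ) : g (x + (m : ℝ) • a) = g x := by
  induction m using Int.induction_on with
  | zero => simp
  | succ k ih =>
    have : x + (((k : ℤ) + 1 : ℤ) : ℝ) • a = (x + (((k : ℤ) : ℤ) : ℝ) • a) + a := by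
      push_cast; rw [add_smul, one_smul, add_assoc]
    rw [this, hper, ih]
  | pred k ih =>
    have : x + ((-(k : ℤ) : ℤ) : ℝ) • a = (x + ((-(k : ℤ) - 1 : ℤ) : ℝ) • a) + a := by
      push_cast; rw [sub_smul, one_smul, add_assoc, sub_add_cancel]
    rw [this, hper] at ih
    exact ih

theorem exists_mem_cube {ι W : Type*} [Fintype ι] [DecidableEq ι] {g : (ι → ℝ) → W}
    (hper : ∀ x j, g (x + Pi.single j 1) = g x) (x : ι → ℝ) :
    g x = g (fun j => Int.fract (x j)) := by
  have key : ∀ s : Finset ι,
      g ((fun j => Int.fract (x j)) + ∑ j ∈ s, ((⌊x j⌋ : ℤ) : ℝ) • (Pi.single j 1 : ι → ℝ))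
        = g (fun j => Int.fract (x j)) := by
    intro s
    induction s using Finset.induction_on with
    | empty => simp
    | insert a s ha ih =>
      rw [Finset.sum_insert ha, add_comm (((⌊x a⌋ : ℤ) : ℝ) • (Pi.single a 1 : ι → ℝ)),
        ← add_assoc, periodic_int (fun y => hper y a), ih]
  have hx : (fun j => Int.fract (x j)) + ∑ j, ((⌊x j⌋ : ℤ) : ℝ) • (Pi.single j 1 : ι → ℝ) = x := by
    funext k
    simp [Finset.sum_apply, Pi.single_apply]
  rw [← key Finset.univ, hx]

theorem fract_mem_cube {ι : Type*} (x : ι → ℝ) :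
    (fun j => Int.fract (x j)) ∈ Icc (0 : ι → ℝ) 1 :=
  ⟨fun j => Int.fract_nonneg (x j), fun j => (Int.fract_lt_one (x j)).le⟩

end Vale.Agent.P113Z.Uniq
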