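import Mathlib.Computability.TuringMachine.ToPartrec
import Mathlib.Computability.RE

/-!
A recursively enumerable set of natural numbers is the set of unary inputs on which one
fixed Post-Turing machine with finitely many states and symbols halts.
-/

namespace Vale.Agent.P113Z

open Turing StateTransition

theorem trPosNum_ones (n : ℕ) :
    ∃ p : PosNum, (p : ℕ) = 2 ^ (n + 1) - 1 ∧
      PartrecToTM2.trPosNum p = List.replicate (n + 1) PartrecToTM2.Γ'.bit1 := by
  induction n with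
  | zero => exact ⟨PosNum.one, rfl, rfl⟩
  | succ n ih =>
    obtain ⟨p, hp, hq⟩ := ih
    refine ⟨PosNum.bit1 p, ?_, ?_⟩
    · have h1 : ((PosNum.bit1 p : PosNum) : ℕ) = (p : ℕ) + p + 1 := rfl
      have h2 : 1 ≤ 2 ^ (n + 1) := Nat.one_le_two_pow
      rw [h1, hp, pow_succ 2 (n + 1)]
      omega
    · rw [PartrecToTM2.trPosNum, hq]; rfl

theorem trNat_ones (n : ℕ) :
    PartrecToTM2.trNat (2 ^ n - 1) = List.replicate n PartrecToTM2.Γ'.bit1 := by
  cases n with
  | zero => simp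
  | succ n =>
    obtain ⟨p, hp, hq⟩ := trPosNum_ones n
    have : ((2 ^ (n + 1) - 1 : ℕ) : Num) = Num.pos p := by
      rw [← hp]
      exact Num.of_to_nat' (Num.pos p)
    rw [PartrecToTM2.trNat, this, PartrecToTM2.trNum, hq]

/-- A primitive recursive left inverse of `n ↦ 2 ^ n - 1`. -/
def unlog (m : ℕ) : ℕ := Nat.findGreatest (fun n => 2 ^ n ≤ m + 1) (m + 1)

theorem unlog_pow (n : ℕ) : unlog (2 ^ n - 1) = n := by
  have h2 : 1 ≤ 2 ^ n := Nat.one_le_two_pow
  have h3 : 2 ^ n - 1 + 1 = 2 ^ n := by omega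
  unfold unlog
  rw [h3, Nat.findGreatest_eq_iff]
  refine ⟨Nat.lt_two_pow_self.le, fun _ => le_rfl, fun k hk _ h => ?_⟩
  exact absurd (Nat.pow_lt_pow_right (by omega : 1 < 2) hk) (not_lt.2 h)

theorem primrec_pow : Primrec₂ ((· ^ ·) : ℕ → ℕ → ℕ) :=
  Primrec₂.unpaired'.1 Nat.Primrec.pow

theorem primrec_unlog : Primrec unlog := by
  unfold unlog
  refine Primrec.nat_findGreatest (p := fun m n => 2 ^ n ≤ m + 1) Primrec.succ ?_
  exact Primrec.nat_le.comp (primrec_pow.comp (Primrec.const 2) Primrec.snd)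
    (Primrec.succ.comp Primrec.fst)

theorem exists_code_unary (P : ℕ → Prop) (hP : REPred P) :
    ∃ c : ToPartrec.Code, ∀ n, (c.eval [2 ^ n - 1]).Dom ↔ P n := by
  have h1 : Partrec fun m : ℕ =>
      (Part.assert (P (unlog m)) fun _ => Part.some ()).map fun _ => (0 : ℕ) :=
    (Partrec.comp hP primrec_unlog.to_comp).map (Computable.const 0).to₂
  obtain ⟨c, hc⟩ := ToPartrec.Code.exists_code (Nat.Partrec'.part_iff₁.2 h1)
  refine ⟨c, fun n => ?_⟩
  have := hc ⟨[2 ^ n - 1], rfl⟩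
  simp only [List.Vector.head] at this
  rw [this, unlog_pow]
  simp [Part.assert]

/-- The four stacks form a finite type. -/
@[reducible] def fintypeK : Fintype PartrecToTM2.K' :=
  ⟨{PartrecToTM2.K'.main, PartrecToTM2.K'.rev, PartrecToTM2.K'.aux, PartrecToTM2.K'.stack},
    fun x => by cases x <;> simp⟩

theorem restrict_tm0 {Γ Λ : Type} [Inhabited Γ] [Inhabited Λ] (M : TM0.Machine Γ Λ)
    (S : Finset Λ) (hS : TM0.Supports M (S : Set Λ)) :
    ∃ (_ : Inhabited S) (M' : TM0.Machine Γ S), ∀ l : List Γ,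
      (eval (TM0.step M') (TM0.init l)).Dom ↔ (eval (TM0.step M) (TM0.init l)).Dom := by
  classical
  let _ : Inhabited S := ⟨⟨default, hS.1⟩⟩
  let g₁ : PointedMap Λ S := ⟨fun q => if h : q ∈ S then ⟨q, h⟩ else default, by
    have h : (default : Λ) ∈ S := hS.1
    simp only [h, dite_true]; rfl⟩
  let f : PointedMap Γ Γ := ⟨id, rfl⟩
  refine ⟨inferInstance, M.map f f g₁ Subtype.val, fun l => ?_⟩
  have hr := TM0.Machine.map_respects M f f g₁ Subtype.val hS (fun _ => rfl) (fun q hq => by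
    have hq' : q ∈ S := hq
    simp only [g₁, hq', dite_true])
  refine tr_eval_dom hr ⟨hS.1, ?_⟩
  rw [TM0.map_init]
  simp [f]

theorem exists_tm0 (P : ℕ → Prop) (hP : REPred P) :
    ∃ (Γ Λ : Type) (_ : Fintype Γ) (_ : Inhabited Γ) (_ : Fintype Λ) (_ : Inhabited Λ)
      (M : TM0.Machine Γ Λ) (a₀ a₁ : Γ),
      ∀ n, (eval (TM0.step M) (TM0.init (a₀ :: List.replicate n a₁))).Dom ↔ P n := by
  classical
  obtain ⟨c, hc⟩ := exists_code_unary P hP
  let _ := fintypeK
  let _ : Inhabited PartrecToTM2.Λ' := ⟨PartrecToTM2.trNormal c PartrecToTM2.Cont'.halt⟩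
  have h2 := PartrecToTM2.tr_supports c PartrecToTM2.Cont'.halt
  have h1 := TM2to1.tr_supports PartrecToTM2.tr h2
  have h0 := TM1to0.tr_supports _ h1
  obtain ⟨iS, M', hM'⟩ := restrict_tm0 _ _ h0
  obtain ⟨a₀, a₁, e1⟩ : ∃ a₀ a₁ : TM2to1.Γ' PartrecToTM2.K' (fun _ => PartrecToTM2.Γ'), ∀ n : ℕ,
      TM2to1.trInit (Γ := fun _ : PartrecToTM2.K' => PartrecToTM2.Γ') PartrecToTM2.K'.main
        (PartrecToTM2.trList [2 ^ n - 1]) = a₀ :: List.replicate n a₁ := by
    refine ⟨(true, Function.update (fun _ => none) PartrecToTM2.K'.main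
        (some PartrecToTM2.Γ'.cons)),
      (false, Function.update (fun _ => none) PartrecToTM2.K'.main (some PartrecToTM2.Γ'.bit1)),
      fun n => ?_⟩
    have : (PartrecToTM2.trList [2 ^ n - 1]).reverse =
        PartrecToTM2.Γ'.cons :: List.replicate n PartrecToTM2.Γ'.bit1 := by
      simp [trNat_ones]
    unfold TM2to1.trInit
    simp only [this]
    exact congrArg (List.cons _) List.map_replicate
  refine ⟨_, _, inferInstance, inferInstance, inferInstance, iS, M', a₀, a₁, fun n => ?_⟩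
  rw [hM', ← hc, ← e1]
  have e2 := TM1to0.tr_eval (TM2to1.tr PartrecToTM2.tr)
    (TM2to1.trInit (Γ := fun _ : PartrecToTM2.K' => PartrecToTM2.Γ') PartrecToTM2.K'.main
      (PartrecToTM2.trList [2 ^ n - 1]))
  have e3 := TM2to1.tr_eval_dom PartrecToTM2.tr PartrecToTM2.K'.main
      (PartrecToTM2.trList [2 ^ n - 1])
  have e4 := PartrecToTM2.tr_eval c [2 ^ n - 1]
  have e5 : (TM2.init PartrecToTM2.K'.main (PartrecToTM2.trList [2 ^ n - 1]) :
      TM2.Cfg (fun _ : PartrecToTM2.K' => PartrecToTM2.Γ') PartrecToTM2.Λ'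
        (Option PartrecToTM2.Γ')) = PartrecToTM2.init c [2 ^ n - 1] := by
    unfold TM2.init PartrecToTM2.init
    congr 1
    funext k
    cases k <;> rfl
  have e6 : (TM2.eval PartrecToTM2.tr PartrecToTM2.K'.main
      (PartrecToTM2.trList [2 ^ n - 1])).Dom ↔ (c.eval [2 ^ n - 1]).Dom := by
    unfold TM2.eval
    rw [e5]
    change (eval (TM2.step PartrecToTM2.tr) (PartrecToTM2.init c [2 ^ n - 1])).Dom ↔ _
    rw [e4]
    rfl
  rw [← e6, ← e3, ← e2]
  rfl

end Vale.Agent.P113Z
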